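import Vale.Agent.P262.Defs

set_option linter.unusedSectionVars false
set_option linter.unusedVariables false

namespace Vale.Agent.P262

open Finset Real

variable {ι : Type*} [DecidableEq ι] {d : ℕ}

/-! ### Parameters -/

/-- Threshold for fast coordinates. -/
noncomputable def kap (n : ℝ) : ℝ := n ^ 100

/-- Threshold for the total leverage. -/
noncomputable def eta (n : ℝ) : ℝ := 1 / n ^ 30

/-- Bound for fast coordinates of node endpoints. -/
noncomputable def ell (n : ℝ) : ℝ := 50 * √(log n)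

/-- Budget for a slow coordinate. -/
noncomputable def bb (n : ℝ) : ℝ := 24000000 * log n

/-- Entropy constant. -/
noncomputable def cc : ℝ := 234000

/-- The entropy `∑_{i ∈ U} log (1 + q_i(G))`. -/
noncomputable def hh (v : ι → Fin d → ℝ) (U : Finset (Fin d)) (G : Finset ι) : ℝ :=
  ∑ i ∈ U, log (1 + QQ v G i i)

/-- Leverage of the element `x`. -/
noncomputable def lev (v : ι → Fin d → ℝ) (U : Finset (Fin d)) (G : Finset ι) (x : ι) : ℝ :=
  ∑ i ∈ U, v x i ^ 2 / (1 + QQ v G i i)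

/-- Total leverage. -/
noncomputable def Lam (v : ι → Fin d → ℝ) (U : Finset (Fin d)) (G : Finset ι) : ℝ :=
  ∑ i ∈ U, QQ v G i i / (1 + QQ v G i i)

/-- Fast coordinates. -/
noncomputable def FF (n ω : ℝ) (q : Fin d → ℝ) : Finset (Fin d) :=
  univ.filter (fun i => kap n ≤ ω * q i)

/-- Slow coordinates. -/
noncomputable def UU (n ω : ℝ) (q : Fin d → ℝ) : Finset (Fin d) :=
  univ.filter (fun i => ω * q i < kap n)

/-- The invariant of a node. -/
structure Inv (n : ℝ) (v : ι → Fin d → ℝ) (q : Fin d → ℝ) (G : Finset ι) (ω : ℝ)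
    (P : Fin d → ℝ) : Prop where
  om : 0 < ω
  i1 : ∀ i j, |QQ v G i j - (if i = j then ω * q i else 0)| ≤ n ^ 3 * √(1 + ω * q i)
  i2P : ∀ i ∈ FF n ω q, |P i| ≤ ell n
  i2E : ∀ i ∈ FF n ω q, |P i + SS v G i| ≤ ell n
  i3P : nsq (UU n ω q) P ≤ bb n * (UU n ω q).card - cc * hh v (UU n ω q) G
  i3E : nsq (UU n ω q) (fun i => P i + SS v G i) ≤
    bb n * (UU n ω q).card - cc * hh v (UU n ω q) G

/-- The bound for prefix sums. -/
noncomputable def RR (n : ℝ) (d : ℕ) : ℝ := 2 * (bb n * d) + 2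

/-! ### Numerical facts -/

section Num

variable {n : ℝ} (hn : 10 ^ 6 ≤ n)
include hn

theorem n_pos : 0 < n := by linarith [show (0:ℝ) < 10 ^ 6 by norm_num]

theorem one_le_n : 1 ≤ n := by linarith [show (1:ℝ) ≤ 10 ^ 6 by norm_num]

theorem log_ge : 9 ≤ log n := by
  have h1 : log (10 ^ 6 : ℝ) ≤ log n := Real.log_le_log (by norm_num) hn
  have h2 : (9:ℝ) ≤ log (10 ^ 6 : ℝ) := by
    rw [Real.le_log_iff_exp_le (by norm_num)]
    have h3 : exp (9:ℝ) = exp 1 ^ 9 := by
      rw [← Real.exp_nat_mul]; norm_num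
    rw [h3]
    have h4 := Real.exp_one_lt_d9
    have h5 : exp 1 ^ 9 ≤ (2.7182818286:ℝ) ^ 9 :=
      pow_le_pow_left₀ (exp_pos _).le h4.le 9
    refine h5.trans ?_
    norm_num
  linarith

theorem sqrt_log_ge : 3 ≤ √(log n) := by
  apply Real.le_sqrt_of_sq_le
  have := log_ge hn
  linarith

theorem ell_ge : 150 ≤ ell n := by
  unfold ell
  have := sqrt_log_ge hn
  linarith

theorem ell_sq : ell n ^ 2 = 2500 * log n := by
  unfold ell
  rw [mul_pow, Real.sq_sqrt (by linarith [log_ge hn])]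
  norm_num

theorem log_le_self : log n ≤ n := by
  have := Real.log_le_sub_one_of_pos (n_pos hn)
  linarith

theorem ell_le : ell n ≤ n := by
  have h1 := ell_sq hn
  have h2 := ell_ge hn
  have h3 := log_le_self hn
  by_contra hcon
  push Not at hcon
  have h4 : n * n < ell n ^ 2 := by
    have := n_pos hn
    nlinarith
  nlinarith

theorem kap_pos : 0 < kap n := by
  unfold kap
  have := n_pos hn
  positivity

theorem log_kap : log (1 + 2 * kap n) ≤ 101 * log n := by
  have h0 := one_le_n hn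
  have h1 : 1 + 2 * kap n ≤ n ^ 101 := by
    unfold kap
    have h2 : (1:ℝ) ≤ n ^ 100 := one_le_pow₀ h0
    have h3 : n ^ 101 = n ^ 100 * n := pow_succ n 100
    rw [h3]
    nlinarith
  have h2 : (0:ℝ) < 1 + 2 * kap n := by linarith [kap_pos hn]
  have h3 := Real.log_le_log h2 h1
  rw [Real.log_pow] at h3
  exact_mod_cast h3

theorem bb_ge : ell n ^ 2 + cc * log (1 + 2 * kap n) + 1 ≤ bb n := by
  rw [ell_sq hn]
  unfold bb cc
  have h1 := log_kap hn
  have h2 := log_ge hn
  linarith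

theorem bb_nonneg : 0 ≤ bb n := by
  unfold bb
  have := log_ge hn
  linarith

theorem bb_d {d : ℕ} (hd : (d:ℝ) ≤ n) : bb n * d ≤ n ^ 4 / 16 := by
  have h1 : bb n ≤ 24000000 * n := by
    unfold bb
    have := log_le_self hn
    linarith
  have h2 : bb n * d ≤ 24000000 * n * n := by
    have h3 := bb_nonneg hn
    have h4 := n_pos hn
    have h5 : (0:ℝ) ≤ d := Nat.cast_nonneg d
    calc bb n * d ≤ 24000000 * n * d := mul_le_mul_of_nonneg_right h1 h5
      _ ≤ 24000000 * n * n := mul_le_mul_of_nonneg_left hd (by positivity)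
  have h3 : (10 ^ 6 : ℝ) ^ 2 ≤ n ^ 2 := pow_le_pow_left₀ (by norm_num) hn 2
  have h4 : 24000000 * n * n ≤ n ^ 4 / 16 := by
    have h5 : 0 ≤ n ^ 2 := by positivity
    have h6 : n ^ 4 = n ^ 2 * n ^ 2 := by ring
    rw [h6]
    nlinarith
  linarith

theorem eta_pos : 0 < eta n := by
  unfold eta
  have := n_pos hn
  positivity

theorem eta_le : eta n ≤ 1 / 10 ^ 6 := by
  unfold eta
  apply one_div_le_one_div_of_le (by norm_num)
  calc (10:ℝ) ^ 6 ≤ n := hn
    _ = n ^ 1 := (pow_one n).symm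
    _ ≤ n ^ 30 := pow_le_pow_right₀ (one_le_n hn) (by norm_num)

end Num

/-! ### Sums and second moments -/

section Sums

variable (v : ι → Fin d → ℝ)

theorem SS_union {G H : Finset ι} (h : Disjoint G H) (i : Fin d) :
    SS v (G ∪ H) i = SS v G i + SS v H i := Finset.sum_union h

theorem QQ_union {G H : Finset ι} (h : Disjoint G H) (i j : Fin d) :
    QQ v (G ∪ H) i j = QQ v G i j + QQ v H i j := Finset.sum_union h

theorem SS_sdiff {G H : Finset ι} (h : H ⊆ G) (i : Fin d) :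
    SS v (G \ H) i = SS v G i - SS v H i := by
  have := Finset.sum_sdiff h (f := fun a => v a i)
  unfold SS
  linarith

theorem QQ_sdiff {G H : Finset ι} (h : H ⊆ G) (i j : Fin d) :
    QQ v (G \ H) i j = QQ v G i j - QQ v H i j := by
  have := Finset.sum_sdiff h (f := fun a => v a i * v a j)
  unfold QQ
  linarith

theorem SS_empty (i : Fin d) : SS v ∅ i = 0 := rfl

theorem QQ_empty (i j : Fin d) : QQ v ∅ i j = 0 := rfl

theorem SS_singleton (x : ι) (i : Fin d) : SS v {x} i = v x i := by simp [SS]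

theorem QQ_singleton (x : ι) (i j : Fin d) : QQ v {x} i j = v x i * v x j := by simp [QQ]

theorem QQ_comm (G : Finset ι) (i j : Fin d) : QQ v G i j = QQ v G j i := by
  unfold QQ
  exact Finset.sum_congr rfl (fun a _ => mul_comm _ _)

theorem QQ_nonneg (G : Finset ι) (i : Fin d) : 0 ≤ QQ v G i i :=
  Finset.sum_nonneg (fun a _ => mul_self_nonneg _)

theorem QQ_mono {G H : Finset ι} (h : H ⊆ G) (i : Fin d) : QQ v H i i ≤ QQ v G i i :=
  Finset.sum_le_sum_of_subset_of_nonneg h (fun a _ _ => mul_self_nonneg _)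

theorem abs_v_le {G : Finset ι} (hv : ∀ x ∈ G, ∑ i, v x i ^ 2 ≤ 1) {x : ι} (hx : x ∈ G)
    (i : Fin d) : |v x i| ≤ 1 := by
  have h1 : v x i ^ 2 ≤ ∑ i, v x i ^ 2 :=
    Finset.single_le_sum (f := fun i => v x i ^ 2) (fun i _ => sq_nonneg _) (Finset.mem_univ i)
  have h2 := hv x hx
  rw [← sq_le_one_iff_abs_le_one]
  linarith

theorem abs_vv_le {G : Finset ι} (hv : ∀ x ∈ G, ∑ i, v x i ^ 2 ≤ 1) {x : ι} (hx : x ∈ G)
    (i j : Fin d) : |v x i * v x j| ≤ 1 := by
  rw [abs_mul]
  have h1 := abs_v_le v hv hx i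
  have h2 := abs_v_le v hv hx j
  calc |v x i| * |v x j| ≤ 1 * 1 := mul_le_mul h1 h2 (abs_nonneg _) (by norm_num)
    _ = 1 := one_mul 1

theorem abs_QQ_le {G H : Finset ι} (hv : ∀ x ∈ G, ∑ i, v x i ^ 2 ≤ 1) (hH : H ⊆ G)
    (i j : Fin d) : |QQ v H i j| ≤ H.card := by
  unfold QQ
  refine (Finset.abs_sum_le_sum_abs _ _).trans ?_
  calc ∑ x ∈ H, |v x i * v x j| ≤ ∑ x ∈ H, (1:ℝ) :=
        Finset.sum_le_sum (fun x hx => abs_vv_le v hv (hH hx) i j)
    _ = H.card := by simp

theorem abs_SS_le {G H : Finset ι} (hv : ∀ x ∈ G, ∑ i, v x i ^ 2 ≤ 1) (hH : H ⊆ G)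
    (i : Fin d) : |SS v H i| ≤ H.card := by
  unfold SS
  refine (Finset.abs_sum_le_sum_abs _ _).trans ?_
  calc ∑ x ∈ H, |v x i| ≤ ∑ x ∈ H, (1:ℝ) :=
        Finset.sum_le_sum (fun x hx => abs_v_le v hv (hH hx) i)
    _ = H.card := by simp

theorem nsq_nonneg (U : Finset (Fin d)) (x : Fin d → ℝ) : 0 ≤ nsq U x :=
  Finset.sum_nonneg (fun i _ => sq_nonneg _)

theorem nsq_le_one {G : Finset ι} (hv : ∀ x ∈ G, ∑ i, v x i ^ 2 ≤ 1) {x : ι} (hx : x ∈ G)
    (U : Finset (Fin d)) : nsq U (v x) ≤ 1 :=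
  (Finset.sum_le_sum_of_subset_of_nonneg (Finset.subset_univ U) (fun i _ _ => sq_nonneg _)).trans
    (hv x hx)

theorem hh_nonneg (U : Finset (Fin d)) (G : Finset ι) : 0 ≤ hh v U G :=
  Finset.sum_nonneg (fun i _ => Real.log_nonneg (by linarith [QQ_nonneg v G i]))

theorem hh_mono (U : Finset (Fin d)) {G H : Finset ι} (h : H ⊆ G) : hh v U H ≤ hh v U G := by
  apply Finset.sum_le_sum
  intro i _
  apply Real.log_le_log
  · linarith [QQ_nonneg v H i]
  · linarith [QQ_mono v h i]

theorem lev_nonneg (U : Finset (Fin d)) (G : Finset ι) (x : ι) : 0 ≤ lev v U G x :=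
  Finset.sum_nonneg (fun i _ => div_nonneg (sq_nonneg _) (by linarith [QQ_nonneg v G i]))

theorem Lam_nonneg (U : Finset (Fin d)) (G : Finset ι) : 0 ≤ Lam v U G :=
  Finset.sum_nonneg (fun i _ => div_nonneg (QQ_nonneg v G i) (by linarith [QQ_nonneg v G i]))

theorem Lam_le (U : Finset (Fin d)) (G : Finset ι) : Lam v U G ≤ d := by
  unfold Lam
  calc ∑ i ∈ U, QQ v G i i / (1 + QQ v G i i) ≤ ∑ i ∈ U, (1:ℝ) := by
        apply Finset.sum_le_sum
        intro i _
        have := QQ_nonneg v G i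
        rw [div_le_one (by linarith)]
        linarith
    _ = U.card := by simp
    _ ≤ d := by
        have := Finset.card_le_univ U
        rw [Fintype.card_fin] at this
        exact_mod_cast this

theorem sum_lev (U : Finset (Fin d)) (G : Finset ι) : ∑ x ∈ G, lev v U G x = Lam v U G := by
  unfold lev Lam
  rw [Finset.sum_comm]
  apply Finset.sum_congr rfl
  intro i _
  rw [← Finset.sum_div]
  congr 1
  unfold QQ
  exact Finset.sum_congr rfl (fun a _ => sq _)

theorem hh_sub (U : Finset (Fin d)) {G H : Finset ι} (h : H ⊆ G) :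
    hh v U H + ∑ x ∈ G \ H, lev v U G x ≤ hh v U G := by
  have h1 : ∑ x ∈ G \ H, lev v U G x = ∑ i ∈ U, (QQ v G i i - QQ v H i i) / (1 + QQ v G i i) := by
    unfold lev
    rw [Finset.sum_comm]
    apply Finset.sum_congr rfl
    intro i _
    rw [← Finset.sum_div]
    congr 1
    rw [← QQ_sdiff v h]
    unfold QQ
    exact Finset.sum_congr rfl (fun a _ => sq _)
  rw [h1]
  unfold hh
  rw [← Finset.sum_add_distrib]
  apply Finset.sum_le_sum
  intro i _
  have hG := QQ_nonneg v G i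
  have hH := QQ_nonneg v H i
  have h2 : 0 < 1 + QQ v G i i := by linarith
  have h3 : 0 < 1 + QQ v H i i := by linarith
  have h4 : log (1 + QQ v H i i) - log (1 + QQ v G i i) =
      log ((1 + QQ v H i i) / (1 + QQ v G i i)) := (Real.log_div h3.ne' h2.ne').symm
  have h5 : log ((1 + QQ v H i i) / (1 + QQ v G i i)) ≤
      (1 + QQ v H i i) / (1 + QQ v G i i) - 1 := Real.log_le_sub_one_of_pos (div_pos h3 h2)
  have h6 : (1 + QQ v H i i) / (1 + QQ v G i i) - 1 =
      -((QQ v G i i - QQ v H i i) / (1 + QQ v G i i)) := by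
    field_simp
    ring
  linarith

theorem sum_min_le (U : Finset (Fin d)) {G H : Finset ι} (h : H ⊆ G) :
    ∑ i ∈ U, min 1 (QQ v H i i) ≤ 2 * Lam v U G := by
  unfold Lam
  rw [Finset.mul_sum]
  apply Finset.sum_le_sum
  intro i _
  have h1 := QQ_nonneg v G i
  have h2 := QQ_mono v h i
  have h3 : min 1 (QQ v H i i) ≤ min 1 (QQ v G i i) := min_le_min le_rfl h2
  refine h3.trans ?_
  rw [← mul_div_assoc, le_div_iff₀ (by linarith)]
  rcases le_total 1 (QQ v G i i) with h4 | h4
  · rw [min_eq_left h4]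
    linarith
  · rw [min_eq_right h4]
    nlinarith

theorem lev_le_nsq (U : Finset (Fin d)) (G : Finset ι) (x : ι) : lev v U G x ≤ nsq U (v x) := by
  apply Finset.sum_le_sum
  intro i _
  have h1 := QQ_nonneg v G i
  exact div_le_self (sq_nonneg _) (by linarith)

theorem QQ_lt_one {U : Finset (Fin d)} {G : Finset ι} (hL : Lam v U G < 1 / 2) {i : Fin d}
    (hi : i ∈ U) : QQ v G i i < 1 := by
  have h1 := QQ_nonneg v G i
  have h2 : QQ v G i i / (1 + QQ v G i i) ≤ Lam v U G :=
    Finset.single_le_sum (f := fun i => QQ v G i i / (1 + QQ v G i i))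
      (fun i _ => div_nonneg (QQ_nonneg v G i) (by linarith [QQ_nonneg v G i])) hi
  by_contra hcon
  push Not at hcon
  have h3 : 1 / 2 ≤ QQ v G i i / (1 + QQ v G i i) := by
    rw [le_div_iff₀ (by linarith)]
    linarith
  linarith

theorem nsq_le_lev {U : Finset (Fin d)} {G : Finset ι} (hL : Lam v U G < 1 / 2) (x : ι) :
    nsq U (v x) ≤ 2 * lev v U G x := by
  unfold nsq lev
  rw [Finset.mul_sum]
  apply Finset.sum_le_sum
  intro i hi
  have h1 := QQ_nonneg v G i
  have h2 := QQ_lt_one v hL hi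
  rw [← mul_div_assoc, le_div_iff₀ (by linarith)]
  nlinarith [sq_nonneg (v x i)]

theorem sum_QQ_le {U : Finset (Fin d)} {G : Finset ι} (hL : Lam v U G < 1 / 2) :
    ∑ i ∈ U, QQ v G i i ≤ 2 * Lam v U G := by
  unfold Lam
  rw [Finset.mul_sum]
  apply Finset.sum_le_sum
  intro i hi
  have h1 := QQ_nonneg v G i
  have h2 := QQ_lt_one v hL hi
  rw [← mul_div_assoc, le_div_iff₀ (by linarith)]
  nlinarith

end Sums

/-! ### Orderings -/

section Orders

variable {v : ι → Fin d → ℝ}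

theorem Ord_empty {P : Fin d → ℝ} {R : ℝ} (hP : ∑ i, P i ^ 2 ≤ R) : Ord v ∅ P R :=
  ⟨[], List.nodup_nil, rfl, fun k => by simpa using hP⟩

theorem sum_map_eq {l : List ι} (hl : l.Nodup) (i : Fin d) :
    (l.map fun a => v a i).sum = SS v l.toFinset i := by
  unfold SS
  exact (List.sum_toFinset _ hl).symm

theorem Ord_append {G H : Finset ι} {P : Fin d → ℝ} {R : ℝ} (hGH : Disjoint G H)
    (h1 : Ord v G P R) (h2 : Ord v H (fun i => P i + SS v G i) R) : Ord v (G ∪ H) P R := by
  obtain ⟨l1, n1, t1, b1⟩ := h1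
  obtain ⟨l2, n2, t2, b2⟩ := h2
  refine ⟨l1 ++ l2, ?_, ?_, ?_⟩
  · rw [List.nodup_append']
    refine ⟨n1, n2, ?_⟩
    intro a ha hb
    have h3 : a ∈ G := by rw [← t1]; exact List.mem_toFinset.mpr ha
    have h4 : a ∈ H := by rw [← t2]; exact List.mem_toFinset.mpr hb
    exact Finset.disjoint_left.mp hGH h3 h4
  · rw [List.toFinset_append, t1, t2]
  · intro k
    rcases le_total k l1.length with h | h
    · have := b1 k
      rw [List.take_append_of_le_length h]
      exact this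
    · have := b2 (k - l1.length)
      rw [List.take_append, List.take_of_length_le h]
      convert this using 2
      rename_i i _
      rw [List.map_append, List.sum_append, sum_map_eq n1, t1]
      ring

theorem Ord_single {x : ι} {P : Fin d → ℝ} {R : ℝ} (hP : ∑ i, P i ^ 2 ≤ R)
    (hP2 : ∑ i, (P i + v x i) ^ 2 ≤ R) : Ord v {x} P R := by
  refine ⟨[x], List.nodup_singleton _, by simp, ?_⟩
  intro k
  rcases Nat.eq_zero_or_pos k with h | h
  · subst h
    simpa using hP
  · rw [List.take_of_length_le (by simp only [List.length_singleton]; omega)]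
    simpa using hP2

end Orders

end Vale.Agent.P262
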