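import Vale.Agent.P262.CaseLem

set_option linter.unusedSectionVars false
set_option linter.unusedVariables false

namespace Vale.Agent.P262

open Finset Real

variable {ι : Type*} [DecidableEq ι] {d : ℕ}

theorem ff_lev (v : ι → Fin d → ℝ) (a : ι → ℝ) (z : ι) : ff v (fun _ => 0) a z = a z := by
  unfold ff
  simp

theorem nsq_sub_le (U : Finset (Fin d)) (y w : Fin d → ℝ) :
    nsq U (fun i => y i - w i) ≤ 2 * (nsq U y + nsq U w) := by
  unfold nsq
  rw [← Finset.sum_add_distrib, Finset.mul_sum]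
  apply Finset.sum_le_sum
  intro i _
  nlinarith [sq_nonneg (y i + w i)]

theorem caseA_core {n : ℝ} (hn : 10 ^ 6 ≤ n) (hd : (d:ℝ) ≤ n) {v : ι → Fin d → ℝ}
    {G : Finset ι} (hv : ∀ x ∈ G, ∑ i, v x i ^ 2 ≤ 1) {q : Fin d → ℝ} (hq : ∀ i, 0 ≤ q i)
    {ω : ℝ} {P : Fin d → ℝ} (h : Inv n v q G ω P)
    (hL : eta n ≤ Lam v (UU n ω q) G)
    (hlev : ∀ x ∈ G, lev v (UU n ω q) G x ≤ Lam v (UU n ω q) G / 128)
    {a b : ι} (ha : a ∈ G) (hb : b ∈ G) (hab : a ≠ b)
    (hipb : ip (UU n ω q) (fun i => P i + SS v G i / 2) (v a) ≤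
      ip (UU n ω q) (fun i => P i + SS v G i / 2) (v b))
    (IH : ∀ G' ⊂ G, ∀ ω' P', Inv n v q G' ω' P' → Ord v G' P' (RR n d)) :
    Ord v G P (RR n d) := by
  have h0 := n_pos hn
  have h1n := one_le_n hn
  set U := UU n ω q with hU
  set F := FF n ω q with hF
  set L := Lam v U G with hLdef
  have heta := eta_pos hn
  have hLpos : 0 < L := by linarith
  have h35 := num_35 hn
  set R : Finset ι := {a} ∪ {b} ∪ ∅ with hR
  have hRab : R = {a, b} := by rw [hR]; ext y; simp
  have hRG : R ⊆ G := by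
    rw [hRab]
    intro y hy
    rcases Finset.mem_insert.mp hy with h | h
    · rw [h]; exact ha
    · rw [Finset.mem_singleton.mp h]; exact hb
  have hRc : R.card ≤ 4 := by
    rw [hRab]
    exact (Finset.card_le_two).trans (by norm_num)
  set Gr := G \ R with hGr
  have hGrG : Gr ⊆ G := Finset.sdiff_subset
  set x : Fin d → ℝ := fun i => P i + SS v G i / 2 + (SS v {a} i - SS v {b} i) / 2 with hx
  have HQ := HQ_of_inv hn hv hq h hRG hRc
  have HxF : ∀ i ∈ F, |x i| ≤ n ^ 3 := by
    intro i hi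
    refine HxF_of_inv hn h (u := fun i => (SS v {a} i - SS v {b} i) / 2) ?_ i hi
    intro i
    rw [SS_singleton, SS_singleton]
    have e1 := abs_le.mp (abs_v_le v hv ha i)
    have e2 := abs_le.mp (abs_v_le v hv hb i)
    rw [abs_le]
    constructor <;> linarith
  have HF : ∀ i ∈ F, kap n / 2 ≤ ω * q i := HF_of_inv hn
  have hlevnn : ∀ z, 0 ≤ lev v U G z := fun z => lev_nonneg v U G z
  have hsumlev : ∑ z ∈ G, lev v U G z = L := sum_lev v U G
  have hsumsq : ∑ z ∈ Gr, lev v U G z ^ 2 ≤ L ^ 2 / 128 := by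
    calc ∑ z ∈ Gr, lev v U G z ^ 2 ≤ ∑ z ∈ G, lev v U G z ^ 2 :=
          Finset.sum_le_sum_of_subset_of_nonneg hGrG (fun z _ _ => sq_nonneg _)
      _ ≤ ∑ z ∈ G, L / 128 * lev v U G z := by
          apply Finset.sum_le_sum
          intro z hz
          rw [sq]
          exact mul_le_mul_of_nonneg_right (hlev z hz) (hlevnn z)
      _ = L ^ 2 / 128 := by
          rw [← Finset.mul_sum, hsumlev]
          ring
  set A : ι → ℝ := fun z => lev v U G z with hA
  set θ0 : Fin d → ℝ := fun _ => 0 with hθ0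
  have hffA : ∀ z, ff v θ0 A z = A z := fun z => ff_lev v A z
  have hoo : oo v q ω F x Gr θ0 A ^ 2 ≤ (1 / n ^ 90) * (L ^ 2 / 128) := by
    unfold oo
    simp only [hffA]
    refine (tt_mul_sq hn hd HF HxF HQ A).trans ?_
    exact mul_le_mul_of_nonneg_left hsumsq (by positivity)
  have hNN : NN Gr θ0 A ≤ L ^ 2 / 128 := by
    unfold NN
    simpa [hθ0] using hsumsq
  have h90 : 1 / n ^ 90 ≤ 1 / 16 := by
    apply one_div_le_one_div_of_le (by norm_num)
    have : n ^ 1 ≤ n ^ 90 := pow_le_pow_right₀ h1n (by norm_num)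
    rw [pow_one] at this
    linarith [show (16:ℝ) ≤ 10 ^ 6 by norm_num]
  have hα : 0 ≤ 512 / L := by positivity
  have hαb : 512 / L * (oo v q ω F x Gr θ0 A ^ 2 + NN Gr θ0 A / 2) ≤
      9 / 4 * L := by
    calc 512 / L * (oo v q ω F x Gr θ0 A ^ 2 + NN Gr θ0 A / 2)
        ≤ 512 / L * ((1 / 16) * (L ^ 2 / 128) + L ^ 2 / 128 / 2) := by
          apply mul_le_mul_of_nonneg_left _ hα
          have : (1 / n ^ 90) * (L ^ 2 / 128) ≤ (1 / 16) * (L ^ 2 / 128) :=
            mul_le_mul_of_nonneg_right h90 (by positivity)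
          linarith
      _ = 9 / 4 * L := by
          field_simp
          ring
  have hLn : L ≤ n := (Lam_le v U G).trans hd
  have hnsqL : ∀ z ∈ G, nsq U (v z) ≤ 2 * L := by
    intro z hz
    by_cases hL2 : L < 1 / 2
    · have e1 := nsq_le_lev v hL2 z
      have e2 := hlev z hz
      linarith
    · push Not at hL2
      have e1 := nsq_le_one v hv hz U
      linarith
  refine split_step hn hd hv hq h (R1 := {a}) (R2 := {b}) (R3 := ∅) (by simpa using ha)
    (by simpa using hb) (by simp) (by simpa using hab) (by simp) (by simp) (by simp)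
    (by simp) (by simp) (by simp) hα θ0 A hx rfl ?_ ?_ IH
  · refine hαb.trans ?_
    have e1 : (1:ℝ) ≤ n ^ 2 := one_le_pow₀ h1n
    have e2 : n ^ 4 = n * n * n ^ 2 := by ring
    have e3 : (10:ℝ) ≤ n := by linarith [show (10:ℝ) ≤ 10 ^ 6 by norm_num]
    rw [e2]
    nlinarith
  · intro G0 hG0 hineq
    rw [← hU] at hineq ⊢
    have hmid := inv_mid hn h
    rw [← hU] at hmid
    set m : Fin d → ℝ := fun i => P i + SS v G i / 2 with hm
    have hG0G : G0 ⊆ G := hG0.trans hGrG
    have hxle : nsq U x ≤ nsq U m + 2 * L := by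
      have e1 : nsq U x = nsq U m + 2 * (1 / 2) * ip U m (fun i => v a i - v b i) +
          (1 / 2) ^ 2 * nsq U (fun i => v a i - v b i) := by
        rw [← nsq_add_smul]
        congr 1
        funext i
        rw [hx, hm]
        simp only [SS_singleton]
        ring
      have e2 : ip U m (fun i => v a i - v b i) = ip U m (v a) - ip U m (v b) := by
        unfold ip
        rw [← Finset.sum_sub_distrib]
        exact Finset.sum_congr rfl (fun i _ => by ring)
      have e3 := nsq_sub_le U (v a) (v b)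
      have e4 := hnsqL a ha
      have e5 := hnsqL b hb
      rw [e1, e2]
      linarith
    set Y : Fin d → ℝ := fun i => x i + (SS v G0 i - SS v Gr i / 2) with hY
    simp only [hffA] at hineq
    set imb : ℝ := ∑ z ∈ G0, A z - (∑ z ∈ Gr, A z) / 2 with himb
    have hineq' : nsq U Y + 512 / L * imb ^ 2 ≤ nsq U m + 6 * L := by
      have e1 : nsq U Y + 512 / L * imb ^ 2 ≤ nsq U x + Lam v U G +
          512 / L * (oo v q ω F x Gr θ0 A ^ 2 + NN Gr θ0 A / 2) +
          1 / n ^ 35 := hineq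
      have e2 : Lam v U G = L := rfl
      rw [e2] at e1
      linarith
    -- sums of leverages
    have hGrsum : ∑ z ∈ Gr, A z = L - (A a + A b) := by
      have e1 := Finset.sum_sdiff hRG (f := A)
      have e2 : ∑ z ∈ R, A z = A a + A b := by
        rw [hRab, Finset.sum_pair hab]
      have e3 : ∑ z ∈ G, A z = L := hsumlev
      rw [e2, e3] at e1
      rw [hGr]
      linarith
    have haG0 : a ∉ G0 := by
      intro hcon
      have := hG0 hcon
      rw [Finset.mem_sdiff] at this
      exact this.2 (by simp)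
    have hbGr : b ∉ Gr \ G0 := by
      intro hcon
      have := (Finset.mem_sdiff.mp hcon).1
      rw [hGr, Finset.mem_sdiff] at this
      exact this.2 (by rw [hRab]; simp)
    have hG1sub : {a} ∪ G0 ⊆ G := Finset.union_subset (by simpa using ha) hG0G
    have hG2sub : {b} ∪ (Gr \ G0) ⊆ G :=
      Finset.union_subset (by simpa using hb) (Finset.sdiff_subset.trans hGrG)
    have hs1 : ∑ z ∈ {a} ∪ G0, A z = A a + ∑ z ∈ G0, A z := by
      rw [Finset.sum_union (by simpa using haG0), Finset.sum_singleton]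
    have hs2 : ∑ z ∈ {b} ∪ (Gr \ G0), A z = A b + (∑ z ∈ Gr, A z - ∑ z ∈ G0, A z) := by
      rw [Finset.sum_union (by simpa using hbGr), Finset.sum_singleton]
      have := Finset.sum_sdiff hG0 (f := A)
      linarith
    have hAa := hlev a ha
    have hAb := hlev b hb
    have hAa0 := hlevnn a
    have hAb0 := hlevnn b
    have hcc : (cc : ℝ) = 234000 := rfl
    have key : ∀ H ⊆ G, |∑ z ∈ H, A z - L / 2| ≤ |imb| + L / 256 →
        nsq U Y ≤ bb n * U.card - cc * hh v U H := by
      intro H hH hHs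
      have e1 := hh_sub v U hH
      have e2 : ∑ z ∈ G \ H, lev v U G z = L - ∑ z ∈ H, A z := by
        have := Finset.sum_sdiff hH (f := A)
        have e3 : ∑ z ∈ G, A z = L := hsumlev
        rw [e3] at this
        have e4 : ∑ z ∈ G \ H, lev v U G z = ∑ z ∈ G \ H, A z := rfl
        rw [e4]
        linarith
      rw [e2] at e1
      have e5 := abs_le.mp hHs
      by_cases hi : |imb| ≤ L / 8
      · have e6 : 0 ≤ 512 / L * imb ^ 2 := mul_nonneg hα (sq_nonneg _)
        rw [hcc] at hmid ⊢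
        linarith
      · push Not at hi
        have e6 : (L / 8) ^ 2 ≤ imb ^ 2 := by
          rw [← sq_abs imb]
          exact pow_le_pow_left₀ (by positivity) hi.le 2
        have e7 : 8 * L ≤ 512 / L * imb ^ 2 := by
          calc 8 * L = 512 / L * (L / 8) ^ 2 := by field_simp; ring
            _ ≤ 512 / L * imb ^ 2 := mul_le_mul_of_nonneg_left e6 hα
        have e8 := hh_mono v U hH
        rw [hcc] at hmid ⊢
        linarith
    have himbabs := abs_le.mp (le_refl |imb|)
    simp only [SS_empty, zero_div, add_zero, sub_zero]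
    constructor
    · apply key _ hG1sub
      rw [hs1, abs_le]
      have e1 : A a ≤ L / 128 := hAa
      have e2 : A b ≤ L / 128 := hAb
      have e3 : 0 ≤ A a := hAa0
      have e4 : 0 ≤ A b := hAb0
      constructor <;> linarith
    · apply key _ hG2sub
      rw [hs2, abs_le]
      have e1 : A a ≤ L / 128 := hAa
      have e2 : A b ≤ L / 128 := hAb
      have e3 : 0 ≤ A a := hAa0
      have e4 : 0 ≤ A b := hAb0
      constructor <;> linarith

theorem caseA {n : ℝ} (hn : 10 ^ 6 ≤ n) (hd : (d:ℝ) ≤ n) {v : ι → Fin d → ℝ}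
    {G : Finset ι} (hv : ∀ x ∈ G, ∑ i, v x i ^ 2 ≤ 1) {q : Fin d → ℝ} (hq : ∀ i, 0 ≤ q i)
    {ω : ℝ} {P : Fin d → ℝ} (h : Inv n v q G ω P)
    (hL : eta n ≤ Lam v (UU n ω q) G)
    (hlev : ∀ x ∈ G, lev v (UU n ω q) G x ≤ Lam v (UU n ω q) G / 128)
    {a b : ι} (ha : a ∈ G) (hb : b ∈ G) (hab : a ≠ b)
    (IH : ∀ G' ⊂ G, ∀ ω' P', Inv n v q G' ω' P' → Ord v G' P' (RR n d)) :
    Ord v G P (RR n d) := by
  rcases le_total (ip (UU n ω q) (fun i => P i + SS v G i / 2) (v a))
    (ip (UU n ω q) (fun i => P i + SS v G i / 2) (v b)) with hip | hip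
  · exact caseA_core hn hd hv hq h hL hlev ha hb hab hip IH
  · exact caseA_core hn hd hv hq h hL hlev hb ha hab.symm hip IH

end Vale.Agent.P262
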