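import Vale.Agent.P262.CaseLem

set_option linter.unusedSectionVars false
set_option linter.unusedVariables false

namespace Vale.Agent.P262

open Finset Real

variable {ι : Type*} [DecidableEq ι] {d : ℕ}

theorem ip_sub_right (U : Finset (Fin d)) (m y w : Fin d → ℝ) :
    ip U m (fun i => y i - w i) = ip U m y - ip U m w := by
  unfold ip
  rw [← Finset.sum_sub_distrib]
  exact Finset.sum_congr rfl (fun i _ => by ring)

theorem nsq_three (U : Finset (Fin d)) (y w z : Fin d → ℝ) {s : ℝ} (hs : s = 1 ∨ s = -1) :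
    nsq U (fun i => s * y i + (w i - z i)) ≤ 3 * (nsq U y + nsq U w + nsq U z) := by
  unfold nsq
  rw [← Finset.sum_add_distrib, ← Finset.sum_add_distrib, Finset.mul_sum]
  apply Finset.sum_le_sum
  intro i _
  rcases hs with h | h <;> rw [h]
  · nlinarith [sq_nonneg (y i - w i), sq_nonneg (y i + z i), sq_nonneg (w i + z i)]
  · nlinarith [sq_nonneg (y i + w i), sq_nonneg (y i - z i), sq_nonneg (w i + z i)]

theorem oo_zero (v : ι → Fin d → ℝ) (q : Fin d → ℝ) (ω : ℝ) (F : Finset (Fin d))
    (x : Fin d → ℝ) (G : Finset ι) : oo v q ω F x G (fun _ => 0) (fun _ => 0) = 0 := by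
  unfold oo ff
  simp

/-- The core estimate of case B1: no extra functional, `R1`, `R2` chosen favourably. -/
theorem caseB1_core {n : ℝ} (hn : 10 ^ 6 ≤ n) (hd : (d:ℝ) ≤ n) {v : ι → Fin d → ℝ}
    {G : Finset ι} (hv : ∀ x ∈ G, ∑ i, v x i ^ 2 ≤ 1) {q : Fin d → ℝ} (hq : ∀ i, 0 ≤ q i)
    {ω : ℝ} {P : Fin d → ℝ} (h : Inv n v q G ω P)
    (hL : eta n ≤ Lam v (UU n ω q) G) {x1 : ι} (hx1 : x1 ∈ G)
    (hmax : ∀ x ∈ G, lev v (UU n ω q) G x ≤ lev v (UU n ω q) G x1)
    (hbig : Lam v (UU n ω q) G / 128 < lev v (UU n ω q) G x1)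
    {b b' : ι} (hb : b ∈ G) (hb' : b' ∈ G) {s : ℝ} (hs : s = 1 ∨ s = -1)
    (hip : s * ip (UU n ω q) (fun i => P i + SS v G i / 2) (v x1) ≤
      -(513 * nsq (UU n ω q) (v x1)))
    (hipb : ip (UU n ω q) (fun i => P i + SS v G i / 2) (v b) ≤
      ip (UU n ω q) (fun i => P i + SS v G i / 2) (v b'))
    {R1 R2 : Finset ι} (h1 : R1 ⊆ G)
    (h2 : R2 ⊆ G) (h12 : Disjoint R1 R2) (c12 : R1.card + R2.card ≤ 3)
    (ne1 : R2.Nonempty) (ne2 : R1.Nonempty)
    (hR : ∀ i, SS v R1 i - SS v R2 i = s * v x1 i + (v b i - v b' i))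
    (IH : ∀ G' ⊂ G, ∀ ω' P', Inv n v q G' ω' P' → Ord v G' P' (RR n d)) :
    Ord v G P (RR n d) := by
  have h0 := n_pos hn
  have h1n := one_le_n hn
  set U := UU n ω q with hU
  set F := FF n ω q with hF
  set n1 := nsq U (v x1) with hn1
  set l1 := lev v U G x1 with hl1
  have heta := eta_pos hn
  have hfac := big_facts v hv hx1 hmax hbig
  have hl1n1 : l1 ≤ n1 := lev_le_nsq v U G x1
  have hl1pos : 0 < l1 := by linarith
  have h35 := num_35 hn
  refine split_step hn hd hv hq h (R1 := R1) (R2 := R2) (R3 := ∅) h1 h2 (by simp) h12 (by simp)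
    (by simp) c12 (by simp) (by simpa using ne1) (by simpa using ne2) le_rfl (fun _ => 0)
    (fun _ => 0) rfl rfl ?_ ?_ IH
  · rw [zero_mul]
    positivity
  · intro G0 hG0 hineq
    rw [← hU] at hineq ⊢
    simp only [zero_mul, add_zero] at hineq
    have hmid := inv_mid hn h
    rw [← hU] at hmid
    set m : Fin d → ℝ := fun i => P i + SS v G i / 2 with hm
    set w : Fin d → ℝ := fun i => s * v x1 i + (v b i - v b' i) with hw
    have hx : nsq U (fun i => P i + SS v G i / 2 + (SS v R1 i - SS v R2 i) / 2) =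
        nsq U m + 2 * (1 / 2) * ip U m w + (1 / 2) ^ 2 * nsq U w := by
      rw [← nsq_add_smul]
      congr 1
      funext i
      rw [hR i, hm, hw]
      ring
    have hipw : ip U m w ≤ -(513 * n1) := by
      have e1 : ip U m w = s * ip U m (v x1) + (ip U m (v b) - ip U m (v b')) := by
        rw [hw]
        unfold ip
        rw [Finset.mul_sum, ← Finset.sum_sub_distrib, ← Finset.sum_add_distrib]
        exact Finset.sum_congr rfl (fun i _ => by ring)
      rw [e1]
      linarith
    have hnw : nsq U w ≤ 3 * (n1 + 256 * l1 + 256 * l1) := by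
      refine (nsq_three U (v x1) (v b) (v b') hs).trans ?_
      have := hfac b hb
      have := hfac b' hb'
      linarith
    have hxle : nsq U (fun i => P i + SS v G i / 2 + (SS v R1 i - SS v R2 i) / 2) +
        Lam v U G + 1 / n ^ 35 ≤ nsq U m := by
      rw [hx]
      linarith
    set Gr := G \ (R1 ∪ R2 ∪ ∅) with hGr
    have hGrG : Gr ⊆ G := Finset.sdiff_subset
    have hYm : nsq U (fun i => P i + SS v G i / 2 + (SS v R1 i - SS v R2 i) / 2 +
        (SS v G0 i - SS v Gr i / 2)) ≤ nsq U m := hineq.trans hxle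
    have hcc : (0 : ℝ) ≤ cc := by unfold cc; norm_num
    simp only [SS_empty, zero_div, add_zero, sub_zero]
    constructor
    · have e1 := mul_le_mul_of_nonneg_left
        (hh_mono v U (Finset.union_subset h1 (hG0.trans hGrG))) hcc
      linarith
    · have e1 := mul_le_mul_of_nonneg_left
        (hh_mono v U (Finset.union_subset h2 ((Finset.sdiff_subset (t := G0)).trans hGrG))) hcc
      linarith

theorem caseB1 {n : ℝ} (hn : 10 ^ 6 ≤ n) (hd : (d:ℝ) ≤ n) {v : ι → Fin d → ℝ}
    {G : Finset ι} (hv : ∀ x ∈ G, ∑ i, v x i ^ 2 ≤ 1) {q : Fin d → ℝ} (hq : ∀ i, 0 ≤ q i)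
    {ω : ℝ} {P : Fin d → ℝ} (h : Inv n v q G ω P)
    (hL : eta n ≤ Lam v (UU n ω q) G) {x1 : ι} (hx1 : x1 ∈ G)
    (hmax : ∀ x ∈ G, lev v (UU n ω q) G x ≤ lev v (UU n ω q) G x1)
    (hbig : Lam v (UU n ω q) G / 128 < lev v (UU n ω q) G x1)
    {b b' : ι} (hb : b ∈ G) (hb' : b' ∈ G) (hbb' : b ≠ b') (hx1b : x1 ≠ b) (hx1b' : x1 ≠ b')
    (hip : 513 * nsq (UU n ω q) (v x1) ≤
      |ip (UU n ω q) (fun i => P i + SS v G i / 2) (v x1)|)
    (IH : ∀ G' ⊂ G, ∀ ω' P', Inv n v q G' ω' P' → Ord v G' P' (RR n d)) :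
    Ord v G P (RR n d) := by
  wlog hipb : ip (UU n ω q) (fun i => P i + SS v G i / 2) (v b) ≤
      ip (UU n ω q) (fun i => P i + SS v G i / 2) (v b') generalizing b b'
  · exact this hb' hb hbb'.symm hx1b' hx1b (le_of_not_ge hipb)
  · rcases le_total 0 (ip (UU n ω q) (fun i => P i + SS v G i / 2) (v x1)) with hpos | hneg
    · -- positive: v_{x1} goes to the second side
      rw [abs_of_nonneg hpos] at hip
      refine caseB1_core hn hd hv hq h hL hx1 hmax hbig hb hb' (s := -1) (Or.inr rfl)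
        (by linarith) hipb (R1 := {b}) (R2 := {x1, b'}) (by simpa using hb) ?_ ?_ ?_
        (by simp) (by simp) ?_ IH
      · intro y hy
        rcases Finset.mem_insert.mp hy with h | h
        · rw [h]; exact hx1
        · rw [Finset.mem_singleton.mp h]; exact hb'
      · rw [Finset.disjoint_singleton_left, Finset.mem_insert, Finset.mem_singleton]
        rintro (h | h)
        · exact hx1b h.symm
        · exact hbb' h
      · rw [Finset.card_singleton, Finset.card_pair hx1b']
      · intro i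
        unfold SS
        rw [Finset.sum_singleton, Finset.sum_pair hx1b']
        ring
    · rw [abs_of_nonpos hneg] at hip
      refine caseB1_core hn hd hv hq h hL hx1 hmax hbig hb hb' (s := 1) (Or.inl rfl)
        (by linarith) hipb (R1 := {x1, b}) (R2 := {b'}) ?_ (by simpa using hb') ?_ ?_
        (by simp) (by simp) ?_ IH
      · intro y hy
        rcases Finset.mem_insert.mp hy with h | h
        · rw [h]; exact hx1
        · rw [Finset.mem_singleton.mp h]; exact hb
      · rw [Finset.disjoint_singleton_right, Finset.mem_insert, Finset.mem_singleton]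
        rintro (h | h)
        · exact hx1b' h.symm
        · exact hbb' h.symm
      · rw [Finset.card_singleton, Finset.card_pair hx1b]
      · intro i
        unfold SS
        rw [Finset.sum_singleton, Finset.sum_pair hx1b]
        ring

end Vale.Agent.P262
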