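import Vale.Agent.P262.CaseLem

set_option linter.unusedSectionVars false
set_option linter.unusedVariables false

namespace Vale.Agent.P262

open Finset Real

variable {ι : Type*} [DecidableEq ι] {d : ℕ}

/-- The functional `⟨v_z, v_{x1}⟩` on the slow coordinates, first representation. -/
noncomputable def thB (v : ι → Fin d → ℝ) (U : Finset (Fin d)) (G : Finset ι) (x1 : ι) :
    Fin d → ℝ := fun i => if 1 / 2 ≤ Lam v U G then (if i ∈ U then v x1 i else 0) else 0

/-- The functional `⟨v_z, v_{x1}⟩` on the slow coordinates, second representation. -/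
noncomputable def aB (v : ι → Fin d → ℝ) (U : Finset (Fin d)) (G : Finset ι) (x1 : ι) :
    ι → ℝ := fun z => if 1 / 2 ≤ Lam v U G then 0 else ip U (v z) (v x1)

theorem ffB (v : ι → Fin d → ℝ) (U : Finset (Fin d)) (G : Finset ι) (x1 z : ι) :
    ff v (thB v U G x1) (aB v U G x1) z = ip U (v z) (v x1) := by
  unfold ff thB aB
  by_cases h : 1 / 2 ≤ Lam v U G
  · simp only [h, if_true, add_zero, ite_mul, zero_mul]
    rw [Finset.sum_ite_mem, Finset.univ_inter]
    unfold ip
    exact Finset.sum_congr rfl (fun i _ => mul_comm _ _)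
  · simp only [h, if_false, zero_mul, Finset.sum_const_zero, zero_add]

theorem NNB {v : ι → Fin d → ℝ} {U : Finset (Fin d)} {G Gr : Finset ι} (hGr : Gr ⊆ G) {x1 : ι}
    (hbig : Lam v U G / 128 < lev v U G x1) :
    NN Gr (thB v U G x1) (aB v U G x1) ≤ 256 * nsq U (v x1) ^ 2 := by
  have hl := lev_le_nsq v U G x1
  have hn1 := nsq_nonneg U (v x1)
  unfold NN thB aB
  by_cases h : 1 / 2 ≤ Lam v U G
  · simp only [h, if_true]
    have h1 : ∑ i, (if i ∈ U then v x1 i else 0) ^ 2 = nsq U (v x1) := by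
      simp only [ite_pow]
      rw [show ∑ x, (if x ∈ U then v x1 x ^ 2 else 0 ^ 2) =
        ∑ x, (if x ∈ U then v x1 x ^ 2 else 0) by
          apply Finset.sum_congr rfl; intro i _; split_ifs <;> norm_num]
      rw [Finset.sum_ite_mem, Finset.univ_inter]
      rfl
    rw [h1]
    simp
    nlinarith
  · simp only [h, if_false]
    push Not at h
    have h1 : ∀ z, ip U (v z) (v x1) ^ 2 ≤ nsq U (v z) * nsq U (v x1) := fun z =>
      Finset.sum_mul_sq_le_sq_mul_sq U (v z) (v x1)
    have h2 : ∑ z ∈ Gr, ip U (v z) (v x1) ^ 2 ≤ (∑ z ∈ Gr, nsq U (v z)) * nsq U (v x1) := by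
      rw [Finset.sum_mul]
      exact Finset.sum_le_sum (fun z _ => h1 z)
    have h3 : ∑ z ∈ Gr, nsq U (v z) ≤ ∑ i ∈ U, QQ v G i i := by
      unfold nsq
      rw [Finset.sum_comm]
      apply Finset.sum_le_sum
      intro i _
      have h4 : ∑ z ∈ Gr, v z i ^ 2 = QQ v Gr i i :=
        Finset.sum_congr rfl (fun z _ => sq _)
      rw [h4]
      exact QQ_mono v hGr i
    have h4 := sum_QQ_le v h
    have h5 : (∑ z ∈ Gr, nsq U (v z)) * nsq U (v x1) ≤ 256 * nsq U (v x1) * nsq U (v x1) := by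
      apply mul_le_mul_of_nonneg_right _ hn1
      linarith
    simp
    nlinarith

theorem caseB2 {n : ℝ} (hn : 10 ^ 6 ≤ n) (hd : (d:ℝ) ≤ n) {v : ι → Fin d → ℝ}
    {G : Finset ι} (hv : ∀ x ∈ G, ∑ i, v x i ^ 2 ≤ 1) {q : Fin d → ℝ} (hq : ∀ i, 0 ≤ q i)
    {ω : ℝ} {P : Fin d → ℝ} (h : Inv n v q G ω P)
    (hL : eta n ≤ Lam v (UU n ω q) G) {x1 : ι} (hx1 : x1 ∈ G)
    (hmax : ∀ x ∈ G, lev v (UU n ω q) G x ≤ lev v (UU n ω q) G x1)
    (hbig : Lam v (UU n ω q) G / 128 < lev v (UU n ω q) G x1)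
    (hip : |ip (UU n ω q) (fun i => P i + SS v G i / 2) (v x1)| ≤
      513 * nsq (UU n ω q) (v x1))
    (IH : ∀ G' ⊂ G, ∀ ω' P', Inv n v q G' ω' P' → Ord v G' P' (RR n d)) :
    Ord v G P (RR n d) := by
  have h0 := n_pos hn
  have h1n := one_le_n hn
  set U := UU n ω q with hU
  set F := FF n ω q with hF
  set n1 := nsq U (v x1) with hn1
  set l1 := lev v U G x1 with hl1
  have heta := eta_pos hn
  have hfac := big_facts v hv hx1 hmax hbig
  have hl1n1 : l1 ≤ n1 := lev_le_nsq v U G x1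
  have hn1l1 : n1 ≤ 256 * l1 := hfac x1 hx1
  have hl1pos : 0 < l1 := by linarith
  have hn1pos : 0 < n1 := by linarith
  have hn1one : n1 ≤ 1 := nsq_le_one v hv hx1 U
  set Gr := G \ (∅ ∪ ∅ ∪ {x1}) with hGr
  have hRe : (∅ ∪ ∅ ∪ {x1} : Finset ι) = {x1} := by simp
  have hGrG : Gr ⊆ G := Finset.sdiff_subset
  set x : Fin d → ℝ := fun i => P i + SS v G i / 2 + (SS v ∅ i - SS v ∅ i) / 2 with hx
  have hxm : x = fun i => P i + SS v G i / 2 := by
    rw [hx]
    funext i
    rw [SS_empty]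
    ring
  set θ := thB v U G x1 with hθ
  set a := aB v U G x1 with ha
  have HQ := HQ_of_inv hn hv hq h (R := ∅ ∪ ∅ ∪ {x1}) (by rw [hRe]; simpa using hx1)
    (by rw [hRe]; simp)
  have HxF : ∀ i ∈ F, |x i| ≤ n ^ 3 := by
    have := HxF_of_inv hn h (u := fun _ => 0) (fun i => by norm_num)
    intro i hi
    rw [hxm]
    simpa using this i hi
  have HF : ∀ i ∈ F, kap n / 2 ≤ ω * q i := HF_of_inv hn
  -- the offset
  have hoo : oo v q ω F x Gr θ a ^ 2 ≤ n1 / n ^ 83 := by
    have e1 : oo v q ω F x Gr θ a =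
        ∑ i ∈ U, v x1 i * ∑ z ∈ Gr, tt v q ω F x z * v z i := by
      unfold oo
      rw [hθ, ha]
      simp only [ffB]
      unfold ip
      simp only [Finset.mul_sum]
      rw [Finset.sum_comm]
      apply Finset.sum_congr rfl
      intro i _
      apply Finset.sum_congr rfl
      intro z _
      ring
    have e2 : ∀ i ∈ U, (∑ z ∈ Gr, tt v q ω F x z * v z i) ^ 2 ≤ 1 / n ^ 84 := by
      intro i hi
      have e3 := Qy_bound hn hd HF HxF HQ i
      rw [if_neg (not_mem_FF hi), sub_zero] at e3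
      rw [← sq_abs]
      calc |∑ z ∈ Gr, tt v q ω F x z * v z i| ^ 2 ≤ (1 / n ^ 42) ^ 2 :=
            pow_le_pow_left₀ (abs_nonneg _) e3 2
        _ = 1 / n ^ 84 := by rw [div_pow, one_pow, ← pow_mul]
    have e3 : oo v q ω F x Gr θ a ^ 2 ≤
        n1 * ∑ i ∈ U, (∑ z ∈ Gr, tt v q ω F x z * v z i) ^ 2 := by
      rw [e1]
      exact Finset.sum_mul_sq_le_sq_mul_sq U (v x1) _
    have e4 : ∑ i ∈ U, (∑ z ∈ Gr, tt v q ω F x z * v z i) ^ 2 ≤ 1 / n ^ 83 := by
      calc ∑ i ∈ U, (∑ z ∈ Gr, tt v q ω F x z * v z i) ^ 2 ≤ ∑ i ∈ U, 1 / n ^ 84 :=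
            Finset.sum_le_sum e2
        _ = U.card * (1 / n ^ 84) := by rw [Finset.sum_const, nsmul_eq_mul]
        _ ≤ n * (1 / n ^ 84) :=
            mul_le_mul_of_nonneg_right (card_le_n hn hd U) (by positivity)
        _ = 1 / n ^ 83 := by field_simp
    calc oo v q ω F x Gr θ a ^ 2 ≤ n1 * (1 / n ^ 83) :=
          e3.trans (mul_le_mul_of_nonneg_left e4 hn1pos.le)
      _ = n1 / n ^ 83 := by ring
  have hNN : NN Gr θ a ≤ 256 * n1 ^ 2 := NNB hGrG hbig
  have hα : 0 ≤ 1 / n1 := by positivity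
  have hαb : 1 / n1 * (oo v q ω F x Gr θ a ^ 2 + NN Gr θ a / 2) ≤ 1 / n ^ 83 + 128 * n1 := by
    calc 1 / n1 * (oo v q ω F x Gr θ a ^ 2 + NN Gr θ a / 2)
        ≤ 1 / n1 * (n1 / n ^ 83 + 256 * n1 ^ 2 / 2) := by
          apply mul_le_mul_of_nonneg_left _ hα
          linarith
      _ = 1 / n ^ 83 + 128 * n1 := by
          field_simp
          ring
  have h83 := num_83 hn
  have h35 := num_35 hn
  have hetale := eta_le hn
  refine split_step hn hd hv hq h (R1 := ∅) (R2 := ∅) (R3 := {x1}) (by simp) (by simp)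
    (by simpa using hx1) (by simp) (by simp) (by simp) (by simp) (by simp) (by simp) (by simp)
    hα θ a hx hGr ?_ ?_ IH
  · refine hαb.trans ?_
    have e1 : (1:ℝ) ≤ n ^ 3 := one_le_pow₀ h1n
    have e2 : n ^ 4 = n * n ^ 3 := by ring
    have e3 : (1000:ℝ) ≤ n := by linarith [show (1000:ℝ) ≤ 10 ^ 6 by norm_num]
    have e4 : (1000:ℝ) ≤ n ^ 4 := by rw [e2]; nlinarith
    norm_num at hetale
    linarith
  · intro G0 hG0 hineq
    rw [← hU] at hineq ⊢
    have hG0G : G0 ⊆ G := hG0.trans hGrG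
    set e : Fin d → ℝ := fun i => SS v G0 i - SS v Gr i / 2 with he
    set Y : Fin d → ℝ := fun i => x i + e i with hY
    set f : ℝ := ∑ z ∈ G0, ff v θ a z - (∑ z ∈ Gr, ff v θ a z) / 2 with hf
    have hfip : f = ip U e (v x1) := by
      rw [hf, hθ, ha]
      simp only [ffB]
      unfold ip
      rw [Finset.sum_comm, Finset.sum_comm (s := Gr), Finset.sum_div, ← Finset.sum_sub_distrib]
      apply Finset.sum_congr rfl
      intro i _
      rw [he]
      simp only
      unfold SS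
      rw [← Finset.sum_mul, ← Finset.sum_mul]
      ring
    have hipY : ip U Y (v x1) = ip U x (v x1) + f := by
      rw [hfip]
      unfold ip
      rw [← Finset.sum_add_distrib]
      apply Finset.sum_congr rfl
      intro i _
      rw [hY]
      ring
    have hipx : |ip U x (v x1)| ≤ 513 * n1 := by rw [hxm]; exact hip
    have hfab : |f| ≤ 1 / n1 * f ^ 2 + n1 / 4 := by
      have e1 : 1 / n1 * f ^ 2 + n1 / 4 - |f| = (1 / n1) * (|f| - n1 / 2) ^ 2 := by
        rw [← sq_abs f]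
        field_simp
        ring
      have e2 : 0 ≤ (1 / n1) * (|f| - n1 / 2) ^ 2 := mul_nonneg hα (sq_nonneg _)
      linarith
    have hY1 : ∀ s : ℝ, s = 1 ∨ s = -1 →
        nsq U (fun i => Y i + s / 2 * v x1 i) ≤ nsq U x + 197300 * l1 := by
      intro s hs
      rw [nsq_add_smul]
      have hs2 : (s / 2) ^ 2 = 1 / 4 := by
        rcases hs with h | h <;> rw [h] <;> norm_num
      have hs3 : 2 * (s / 2) * ip U Y (v x1) ≤ 513 * n1 + |f| := by
        have e1 : |2 * (s / 2) * ip U Y (v x1)| ≤ |ip U x (v x1)| + |f| := by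
          have : 2 * (s / 2) = s := by ring
          rw [this, hipY]
          rcases hs with h | h <;> rw [h]
          · rw [one_mul]; exact abs_add_le _ _
          · rw [neg_one_mul, abs_neg]; exact abs_add_le _ _
        have := le_abs_self (2 * (s / 2) * ip U Y (v x1))
        linarith
      rw [hs2]
      have hlam : Lam v U G ≤ 128 * l1 := by linarith
      have hineq' : nsq U Y + 1 / n1 * f ^ 2 ≤ nsq U x + Lam v U G +
          1 / n1 * (oo v q ω F x Gr θ a ^ 2 + NN Gr θ a / 2) + 1 / n ^ 35 := hineq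
      linarith
    have hmid := inv_mid hn h
    rw [← hU, ← hxm] at hmid
    have hcc : (cc : ℝ) = 234000 := rfl
    have hfin : ∀ H ⊆ G, x1 ∉ H → ∀ s : ℝ, s = 1 ∨ s = -1 →
        nsq U (fun i => Y i + s / 2 * v x1 i) ≤ bb n * U.card - cc * hh v U H := by
      intro H hH hxH s hs
      have e1 := hY1 s hs
      have e2 := hh_drop v U hH hx1 hxH
      rw [hcc] at hmid ⊢
      linarith
    have hx1G0 : x1 ∉ G0 := by
      intro hcon
      have := hG0 hcon
      rw [hGr, Finset.mem_sdiff] at this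
      exact this.2 (by simp)
    constructor
    · have := hfin (∅ ∪ G0) (by simpa using hG0G) (by simpa using hx1G0) (-1) (Or.inr rfl)
      convert this using 2
      funext i
      rw [SS_singleton, hY, he]
      ring
    · have := hfin (∅ ∪ (Gr \ G0)) (by
        rw [Finset.empty_union]; exact Finset.sdiff_subset.trans hGrG) (by
        rw [Finset.empty_union, Finset.mem_sdiff]
        rintro ⟨hcon, _⟩
        rw [hGr, Finset.mem_sdiff] at hcon
        exact hcon.2 (by simp)) 1 (Or.inl rfl)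
      convert this using 2
      funext i
      rw [SS_singleton, hY, he]
      ring

end Vale.Agent.P262
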