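import Vale.Agent.P262.Split

set_option linter.unusedSectionVars false
set_option linter.unusedVariables false

namespace Vale.Agent.P262

open Finset Real

variable {ι : Type*} [DecidableEq ι] {d : ℕ}

theorem nsq_add_smul (U : Finset (Fin d)) (y w : Fin d → ℝ) (c : ℝ) :
    nsq U (fun i => y i + c * w i) = nsq U y + 2 * c * ip U y w + c ^ 2 * nsq U w := by
  unfold nsq ip
  rw [Finset.mul_sum, Finset.mul_sum, ← Finset.sum_add_distrib, ← Finset.sum_add_distrib]
  apply Finset.sum_congr rfl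
  intro i _
  ring

theorem hh_drop (v : ι → Fin d → ℝ) (U : Finset (Fin d)) {G H : Finset ι} (h : H ⊆ G) {x1 : ι}
    (hx : x1 ∈ G) (hxH : x1 ∉ H) : hh v U H + lev v U G x1 ≤ hh v U G := by
  have h1 := hh_sub v U h
  have h2 : lev v U G x1 ≤ ∑ x ∈ G \ H, lev v U G x :=
    Finset.single_le_sum (f := fun x => lev v U G x) (fun x _ => lev_nonneg v U G x)
      (Finset.mem_sdiff.mpr ⟨hx, hxH⟩)
  linarith

section Facts

variable {n : ℝ} (hn : 10 ^ 6 ≤ n) (hd : (d:ℝ) ≤ n) {v : ι → Fin d → ℝ} {G : Finset ι}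
  (hv : ∀ x ∈ G, ∑ i, v x i ^ 2 ≤ 1) {q : Fin d → ℝ} (hq : ∀ i, 0 ≤ q i) {ω : ℝ}
  {P : Fin d → ℝ} (h : Inv n v q G ω P)

include hn hv hq h in
theorem HQ_of_inv {R : Finset ι} (hR : R ⊆ G) (hc : R.card ≤ 4) :
    ∀ i j, |QQ v (G \ R) i j - (if i = j then ω * q i else 0)| ≤
      2 * n ^ 3 * √(1 + ω * q i) := by
  intro i j
  have e1 := h.i1 i j
  rw [QQ_sdiff v hR]
  have e3 := abs_sub (QQ v G i j - (if i = j then ω * q i else 0)) (QQ v R i j)
  have e4 := abs_QQ_le v hv hR i j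
  have e5 : (R.card : ℝ) ≤ 4 := by exact_mod_cast hc
  have e6 : 4 ≤ n ^ 3 * √(1 + ω * q i) := by
    have h1 := num_sqrt_ge_one (mul_nonneg h.om.le (hq i))
    have h2 : n ^ 1 ≤ n ^ 3 := pow_le_pow_right₀ (one_le_n hn) (by norm_num)
    rw [pow_one] at h2
    have h3 : (4:ℝ) ≤ n := by linarith [show (4:ℝ) ≤ 10 ^ 6 by norm_num]
    nlinarith
  have e7 : QQ v G i j - QQ v R i j - (if i = j then ω * q i else 0) =
      (QQ v G i j - (if i = j then ω * q i else 0)) - QQ v R i j := by ring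
  rw [e7]
  linarith

include hn h in
theorem HxF_of_inv {u : Fin d → ℝ} (hu : ∀ i, |u i| ≤ 3) :
    ∀ i ∈ FF n ω q, |P i + SS v G i / 2 + u i| ≤ n ^ 3 := by
  intro i hi
  have e1 := abs_le.mp (inv_mid_abs h hi)
  have e2 := abs_le.mp (hu i)
  have e4 := ell_le hn
  have h0 := n_pos hn
  have hn2 : (4:ℝ) ≤ n ^ 2 := by nlinarith [show (4:ℝ) ≤ 10 ^ 6 by norm_num]
  have e5 : n + 3 ≤ n ^ 3 := by
    have : n ^ 3 = n * n ^ 2 := by ring
    rw [this]; nlinarith
  rw [abs_le]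
  constructor <;> linarith

include hn in
theorem HF_of_inv : ∀ i ∈ FF n ω q, kap n / 2 ≤ ω * q i := by
  intro i hi
  have := (Finset.mem_filter.mp hi).2
  have := kap_pos hn
  linarith

include hn in
theorem num_35 : 1 / n ^ 35 ≤ eta n / 1000 := by
  have h0 := n_pos hn
  unfold eta
  rw [div_div, div_le_div_iff₀ (by positivity) (by positivity)]
  have h1 : n ^ 35 = n ^ 30 * n ^ 5 := by ring
  have h2 : n ^ 1 ≤ n ^ 5 := pow_le_pow_right₀ (one_le_n hn) (by norm_num)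
  rw [pow_one] at h2
  have h3 : 0 < n ^ 30 := by positivity
  rw [h1]
  nlinarith [show (1000:ℝ) ≤ 10 ^ 6 by norm_num]

include hn in
theorem num_83 : 1 / n ^ 83 ≤ eta n / 1000 := by
  have h0 := n_pos hn
  refine le_trans ?_ (num_35 hn)
  exact one_div_le_one_div_of_le (by positivity) (pow_le_pow_right₀ (one_le_n hn) (by norm_num))

end Facts

/-- Facts about a big element. -/
theorem big_facts (v : ι → Fin d → ℝ) {U : Finset (Fin d)} {G : Finset ι}
    (hv : ∀ x ∈ G, ∑ i, v x i ^ 2 ≤ 1) {x1 : ι} (hx1 : x1 ∈ G)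
    (hmax : ∀ x ∈ G, lev v U G x ≤ lev v U G x1) (hbig : Lam v U G / 128 < lev v U G x1) :
    ∀ x ∈ G, nsq U (v x) ≤ 256 * lev v U G x1 := by
  intro x hx
  by_cases hL : Lam v U G < 1 / 2
  · have h1 := nsq_le_lev v hL x
    have h2 := hmax x hx
    have h3 := lev_nonneg v U G x1
    linarith
  · push Not at hL
    have h1 := nsq_le_one v hv hx U
    linarith

end Vale.Agent.P262
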