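import Mathlib

namespace Vale.Agent.P262

open Finset

variable {ι : Type*} [DecidableEq ι] {d : ℕ}

/-- Squared norm of the part of `x` with coordinates in `U`. -/
def nsq (U : Finset (Fin d)) (x : Fin d → ℝ) : ℝ := ∑ i ∈ U, x i ^ 2

/-- Inner product of the parts with coordinates in `U`. -/
def ip (U : Finset (Fin d)) (x y : Fin d → ℝ) : ℝ := ∑ i ∈ U, x i * y i

/-- Sum of the vectors of the family `G`. -/
def SS (v : ι → Fin d → ℝ) (G : Finset ι) (i : Fin d) : ℝ := ∑ a ∈ G, v a i

/-- Second moments of the family `G`. -/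
def QQ (v : ι → Fin d → ℝ) (G : Finset ι) (i j : Fin d) : ℝ := ∑ a ∈ G, v a i * v a j

/-- The family `G` can be ordered, starting from the point `P`, with all prefix sums of squared
norm at most `R`. -/
def Ord (v : ι → Fin d → ℝ) (G : Finset ι) (P : Fin d → ℝ) (R : ℝ) : Prop :=
  ∃ l : List ι, l.Nodup ∧ l.toFinset = G ∧
    ∀ k, ∑ i, (P i + ((l.take k).map fun a => v a i).sum) ^ 2 ≤ R

end Vale.Agent.P262
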