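import Mathlib

set_option linter.unusedVariables false

namespace Vale.Agent.P262

open Finset
open scoped InnerProductSpace

/-- There is an orthonormal basis diagonalising the second moments. -/
theorem exists_diag {ι : Type*} [Fintype ι] {d : ℕ} (v : ι → EuclideanSpace ℝ (Fin d)) :
    ∃ T : EuclideanSpace ℝ (Fin d) ≃ₗᵢ[ℝ] EuclideanSpace ℝ (Fin d),
      ∀ i j, i ≠ j → ∑ a, (T (v a)) i * (T (v a)) j = 0 := by
  set A : EuclideanSpace ℝ (Fin d) →ₗ[ℝ] EuclideanSpace ℝ (Fin d) :=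
    ∑ a, ((innerₛₗ ℝ (v a)).smulRight (v a)) with hA
  have hAx : ∀ x, A x = ∑ a, ⟪v a, x⟫_ℝ • v a := by
    intro x
    rw [hA]
    simp [LinearMap.sum_apply]
  have hsym : A.IsSymmetric := by
    intro x y
    rw [hAx, hAx, sum_inner, inner_sum]
    apply Finset.sum_congr rfl
    intro a _
    rw [inner_smul_left, inner_smul_right, real_inner_comm (v a) x]
    simp
    ring
  have hfin : Module.finrank ℝ (EuclideanSpace ℝ (Fin d)) = d := by simp
  set b := hsym.eigenvectorBasis hfin with hb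
  refine ⟨b.repr, ?_⟩
  intro i j hij
  have h1 : ∀ a k, (b.repr (v a)) k = ⟪b k, v a⟫_ℝ := fun a k => b.repr_apply_apply (v a) k
  simp only [h1]
  have h2 : ∑ a, ⟪b i, v a⟫_ℝ * ⟪b j, v a⟫_ℝ = ⟪b i, A (b j)⟫_ℝ := by
    rw [hAx, inner_sum]
    apply Finset.sum_congr rfl
    intro a _
    rw [inner_smul_right, real_inner_comm (b j) (v a)]
    ring
  rw [h2, hb, hsym.apply_eigenvectorBasis hfin j, inner_smul_right, ← hb]
  rw [b.orthonormal.2 hij]
  simp

end Vale.Agent.P262
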