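import Vale.Agent.P262.SteinitzDef

set_option linter.unusedVariables false

namespace Vale.Agent.P262

open Finset

theorem exists_eq_of_step (f : ℕ → ℕ) (h0 : f 0 = 0) (hstep : ∀ k, f (k + 1) ≤ f k + 1) (m : ℕ) :
    ∀ n, m ≤ f n → ∃ k ≤ n, f k = m := by
  intro n
  induction n with
  | zero =>
    intro h
    exact ⟨0, le_rfl, by omega⟩
  | succ n ih =>
    intro h
    rcases Nat.lt_or_ge (f n) m with h1 | h1
    · exact ⟨n + 1, le_rfl, by have := hstep n; omega⟩
    · obtain ⟨k, hk, hk2⟩ := ih h1
      exact ⟨k, by omega, hk2⟩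

theorem le_prefixMax {d N : ℕ} (v : Fin N → EuclideanSpace ℝ (Fin d)) {k : ℕ} (hk : k ≤ N) :
    ‖∑ i ∈ univ.filter (fun i : Fin N => (i : ℕ) < k), v i‖ ≤ prefixMax v := by
  unfold prefixMax
  have h := le_ciSup (f := fun k : Fin (N + 1) =>
    ‖∑ i ∈ univ.filter (fun i : Fin N => (i : ℕ) < (k : ℕ)), v i‖)
    (Set.finite_range _).bddAbove ⟨k, by omega⟩
  exact h

/-- The family `e_1, …, e_d` and `d` copies of `-(1/d) ∑ e_i`. -/
noncomputable def lowFam (d : ℕ) : Fin (d + d) → EuclideanSpace ℝ (Fin d) := fun i =>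
  WithLp.toLp 2 (fun j => if (i : ℕ) < d then (if (i : ℕ) = (j : ℕ) then 1 else 0) else -(1 / d))

theorem lowFam_apply (d : ℕ) (i : Fin (d + d)) (j : Fin d) : lowFam d i j =
    if (i : ℕ) < d then (if (i : ℕ) = (j : ℕ) then 1 else 0) else -(1 / (d : ℝ)) := rfl

theorem lowFam_norm {d : ℕ} (hd : 1 ≤ d) (i : Fin (d + d)) : ‖lowFam d i‖ ≤ 1 := by
  have hd' : (1:ℝ) ≤ d := by exact_mod_cast hd
  have h : ‖lowFam d i‖ ^ 2 ≤ 1 := by
    rw [EuclideanSpace.norm_sq_eq]
    simp only [lowFam_apply, Real.norm_eq_abs, sq_abs]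
    by_cases hi : (i : ℕ) < d
    · simp only [hi, if_true]
      rw [Finset.sum_eq_single ⟨i, hi⟩]
      · simp
      · intro j _ hj
        have : (i : ℕ) ≠ j := fun h => hj (Fin.ext h.symm)
        simp [this]
      · intro h; exact absurd (Finset.mem_univ _) h
    · simp only [hi, if_false]
      simp only [Finset.sum_const, Finset.card_univ, Fintype.card_fin, nsmul_eq_mul]
      rw [neg_sq, div_pow, one_pow]
      have : (d:ℝ) * (1 / (d:ℝ) ^ 2) = 1 / d := by field_simp
      rw [this, div_le_one (by linarith)]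
      exact hd'
  have h2 := norm_nonneg (lowFam d i)
  nlinarith

theorem sum_lowFam_coord {d : ℕ} (T : Finset (Fin (d + d))) (j : Fin d) :
    (∑ i ∈ T, lowFam d i) j = (if Fin.castAdd d j ∈ T then 1 else 0) -
      ((T.filter (fun i : Fin (d + d) => ¬ (i : ℕ) < d)).card : ℝ) / d := by
  rw [WithLp.ofLp_sum, Finset.sum_apply]
  simp only [lowFam_apply]
  rw [Finset.sum_ite]
  have h1 : ∑ x ∈ T.filter (fun x : Fin (d + d) => (x : ℕ) < d), (if (x : ℕ) = (j : ℕ) then (1:ℝ) else 0) =
      if Fin.castAdd d j ∈ T then 1 else 0 := by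
    by_cases hj : Fin.castAdd d j ∈ T
    · rw [if_pos hj, Finset.sum_eq_single (Fin.castAdd d j)]
      · simp
      · intro x _ hx
        have : (x : ℕ) ≠ j := fun h => hx (Fin.ext h)
        simp [this]
      · intro h
        exact absurd (Finset.mem_filter.mpr ⟨hj, by simp⟩) h
    · rw [if_neg hj]
      apply Finset.sum_eq_zero
      intro x hx
      have : (x : ℕ) ≠ j := by
        intro h
        apply hj
        have h2 : x = Fin.castAdd d j := Fin.ext h
        rw [← h2]
        exact (Finset.mem_filter.mp hx).1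
      simp [this]
  rw [h1, Finset.sum_const, nsmul_eq_mul]
  ring

theorem card_low {d : ℕ} (T : Finset (Fin (d + d))) :
    ∑ j : Fin d, (if Fin.castAdd d j ∈ T then (1:ℝ) else 0) =
      (T.filter (fun i : Fin (d + d) => (i : ℕ) < d)).card := by
  rw [Finset.sum_boole]
  congr 1
  apply Finset.card_bij (fun j _ => Fin.castAdd d j)
  · intro j hj
    rw [Finset.mem_filter] at hj ⊢
    exact ⟨hj.2, by simp⟩
  · intro j _ j' _ h
    exact Fin.castAdd_injective d d h
  · intro i hi
    rw [Finset.mem_filter] at hi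
    refine ⟨⟨i, hi.2⟩, ?_, rfl⟩
    rw [Finset.mem_filter]
    exact ⟨Finset.mem_univ _, hi.1⟩

theorem lowFam_sum {d : ℕ} (hd : 1 ≤ d) : ∑ i, lowFam d i = 0 := by
  have hd' : (d:ℝ) ≠ 0 := by positivity
  ext j
  rw [sum_lowFam_coord]
  have h1 : ((univ : Finset (Fin (d + d))).filter (fun i : Fin (d + d) => ¬ (i : ℕ) < d)).card = d := by
    have h2 := Finset.card_filter_add_card_filter_not (s := (univ : Finset (Fin (d + d))))
      (fun i : Fin (d + d) => (i : ℕ) < d)
    have h3 : ((univ : Finset (Fin (d + d))).filter (fun i : Fin (d + d) => (i : ℕ) < d)).card = d := by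
      have h4 := card_low (univ : Finset (Fin (d + d)))
      simp only [Finset.mem_univ, if_true] at h4
      simp only [Finset.sum_const, Finset.card_univ, Fintype.card_fin, nsmul_eq_mul,
        mul_one] at h4
      exact_mod_cast h4.symm
    rw [h3] at h2
    simp only [Finset.card_univ, Fintype.card_fin] at h2
    omega
  rw [h1]
  simp [hd']

theorem sq_norm_lowFam {d : ℕ} (hd : 1 ≤ d) (T : Finset (Fin (d + d))) :
    ((T.filter (fun i : Fin (d + d) => (i : ℕ) < d)).card : ℝ) *
      (d - (T.filter (fun i : Fin (d + d) => (i : ℕ) < d)).card) / d ≤ ‖∑ i ∈ T, lowFam d i‖ ^ 2 := by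
  have hd' : (0:ℝ) < d := by exact_mod_cast hd
  rw [EuclideanSpace.norm_sq_eq]
  simp only [sum_lowFam_coord, Real.norm_eq_abs, sq_abs]
  set a : ℝ := ((T.filter (fun i : Fin (d + d) => (i : ℕ) < d)).card : ℝ) with ha
  set b : ℝ := ((T.filter (fun i : Fin (d + d) => ¬ (i : ℕ) < d)).card : ℝ) with hb
  have h1 : ∀ j : Fin d, ((if Fin.castAdd d j ∈ T then (1:ℝ) else 0) - b / d) ^ 2 =
      (1 - 2 * (b / d)) * (if Fin.castAdd d j ∈ T then (1:ℝ) else 0) + (b / d) ^ 2 := by
    intro j
    split_ifs <;> ring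
  rw [Finset.sum_congr rfl (fun j _ => h1 j), Finset.sum_add_distrib, ← Finset.mul_sum, card_low,
    ← ha]
  simp only [Finset.sum_const, Finset.card_univ, Fintype.card_fin, nsmul_eq_mul]
  rw [div_le_iff₀ hd']
  have h2 : ((1 - 2 * (b / d)) * a + d * (b / d) ^ 2) * d = a * (d - a) + (a - b) ^ 2 := by
    field_simp
    ring
  rw [h2]
  nlinarith [sq_nonneg (a - b)]

theorem lower_prefix {d : ℕ} (hd : 1 ≤ d) (π : Equiv.Perm (Fin (d + d))) :
    √((d:ℝ) / 8) ≤ prefixMax (fun i => lowFam d (π i)) := by
  have hd' : (1:ℝ) ≤ d := by exact_mod_cast hd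
  -- it suffices to find a good prefix
  have hred : ∀ k ≤ d + d, (d:ℝ) / 8 ≤
      ‖∑ i ∈ univ.filter (fun i : Fin (d + d) => (i : ℕ) < k), lowFam d (π i)‖ ^ 2 →
      √((d:ℝ) / 8) ≤ prefixMax (fun i => lowFam d (π i)) := by
    intro k hk h
    refine le_trans ?_ (le_prefixMax (fun i => lowFam d (π i)) hk)
    exact Real.sqrt_le_iff.mpr ⟨norm_nonneg _, h⟩
  set pre : ℕ → Finset (Fin (d + d)) := fun k =>
    (univ.filter (fun i : Fin (d + d) => (i : ℕ) < k)).map π.toEmbedding with hpre
  have hsum : ∀ k, ∑ i ∈ univ.filter (fun i : Fin (d + d) => (i : ℕ) < k), lowFam d (π i) =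
      ∑ i ∈ pre k, lowFam d i := by
    intro k
    rw [hpre]
    simp [Finset.sum_map]
  rcases Nat.lt_or_ge 1 d with h2 | h2
  · -- `d ≥ 2`
    have h2' : (2:ℝ) ≤ d := by exact_mod_cast h2
    set f : ℕ → ℕ := fun k => ((pre k).filter (fun i : Fin (d + d) => (i : ℕ) < d)).card with hf
    have hf0 : f 0 = 0 := by simp [hf, hpre]
    have hstep : ∀ k, f (k + 1) ≤ f k + 1 := by
      intro k
      by_cases hk : k < d + d
      · have h3 : pre (k + 1) = insert (π ⟨k, hk⟩) (pre k) := by
          rw [hpre]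
          ext y
          simp only [Finset.mem_map_equiv, Finset.mem_filter, Finset.mem_univ, true_and,
            Finset.mem_insert]
          constructor
          · intro h
            rcases Nat.lt_succ_iff_lt_or_eq.mp h with h | h
            · exact Or.inr h
            · left
              have : π.symm y = ⟨k, hk⟩ := Fin.ext h
              rw [← this]
              simp
          · rintro (h | h)
            · rw [h]; simp
            · omega
        simp only [hf]
        rw [h3, Finset.filter_insert]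
        split_ifs
        · exact (Finset.card_insert_le _ _)
        · omega
      · have h3 : pre (k + 1) = pre k := by
          rw [hpre]
          simp only
          congr 1
          ext y
          simp only [Finset.mem_filter, Finset.mem_univ, true_and]
          have := y.2
          omega
        simp only [hf]
        rw [h3]
        omega
    have hfull : d / 2 ≤ f (d + d) := by
      have h3 : pre (d + d) = univ := by
        rw [hpre]
        simp
      simp only [hf]
      rw [h3]
      have h4 := card_low (univ : Finset (Fin (d + d)))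
      simp only [Finset.mem_univ, if_true] at h4
      simp only [Finset.sum_const, Finset.card_univ, Fintype.card_fin, nsmul_eq_mul,
        mul_one] at h4
      have h5 : ((univ : Finset (Fin (d + d))).filter (fun i : Fin (d + d) => (i : ℕ) < d)).card = d := by
        exact_mod_cast h4.symm
      rw [h5]
      omega
    obtain ⟨k, hk, hfk⟩ := exists_eq_of_step f hf0 hstep (d / 2) (d + d) hfull
    apply hred k hk
    rw [hsum]
    refine le_trans ?_ (sq_norm_lowFam hd (pre k))
    have h6 : ((pre k).filter (fun i : Fin (d + d) => (i : ℕ) < d)).card = d / 2 := hfk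
    rw [h6]
    have h7 : ((d / 2 : ℕ) : ℝ) ≤ d / 2 := Nat.cast_div_le
    have h8 : ((d:ℝ) - 1) / 2 ≤ ((d / 2 : ℕ) : ℝ) := by
      have h9 : d ≤ 2 * (d / 2) + 1 := by omega
      have h10 : (d:ℝ) ≤ 2 * ((d / 2 : ℕ) : ℝ) + 1 := by exact_mod_cast h9
      linarith
    rw [le_div_iff₀ (by linarith)]
    nlinarith
  · -- `d = 1`
    have h1 : d = 1 := by omega
    subst h1
    apply hred 1 (by norm_num)
    rw [hsum, EuclideanSpace.norm_sq_eq]
    simp only [sum_lowFam_coord, Real.norm_eq_abs, sq_abs]
    simp only [Finset.univ_unique, Finset.sum_singleton]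
    have hcard : (pre 1).card = 1 := by
      rw [hpre]
      simp only [Finset.card_map]
      decide
    obtain ⟨y, hy⟩ := Finset.card_eq_one.mp hcard
    rw [hy]
    fin_cases y
    · simp [Finset.filter_singleton]
      norm_num
    · simp [Finset.filter_singleton]
      norm_num

theorem lower_beta {d : ℕ} (hd : 1 ≤ d) : √((d:ℝ) / 8) ≤ beta (lowFam d) := by
  unfold beta
  exact le_ciInf (fun π => lower_prefix hd π)

end Vale.Agent.P262
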