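import Vale.Agent.P262.Main
import Vale.Agent.P262.Diag
import Vale.Agent.P262.Lower

set_option linter.unusedVariables false

namespace Vale.Agent.P262

open Finset

theorem beta_le_of_list {d N : ℕ} (v : Fin N → EuclideanSpace ℝ (Fin d)) (l : List (Fin N))
    (hl : l.Nodup) (hl2 : l.toFinset = univ) {R : ℝ}
    (hR : ∀ k, ‖((l.take k).map v).sum‖ ≤ R) : beta v ≤ R := by
  have hmem : ∀ x, x ∈ l := fun x => by
    rw [← List.mem_toFinset, hl2]
    exact Finset.mem_univ x
  have hlen : l.length = N := by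
    have h1 := List.toFinset_card_of_nodup hl
    rw [hl2, Finset.card_univ, Fintype.card_fin] at h1
    exact h1.symm
  set π : Equiv.Perm (Fin N) := (finCongr hlen.symm).trans (hl.getEquivOfForallMemList l hmem)
    with hπ
  have hπl : List.ofFn (fun i => π i) = l := by
    apply List.ext_getElem
    · simp [hlen]
    · intro i h1 h2
      rw [List.getElem_ofFn]
      simp [hπ]
  have hle : beta v ≤ prefixMax (fun i => v (π i)) := by
    unfold beta
    exact ciInf_le (Set.finite_range _).bddBelow π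
  refine hle.trans ?_
  unfold prefixMax
  apply ciSup_le
  intro k
  have h1 : ∑ i ∈ univ.filter (fun i : Fin N => (i : ℕ) < (k : ℕ)), v (π i) =
      ((l.take k).map v).sum := by
    have h2 := List.sum_take_ofFn (fun i => v (π i)) (k : ℕ)
    rw [← h2]
    congr 1
    rw [← hπl, List.map_take, List.map_ofFn]
    rfl
  rw [h1]
  exact hR k

theorem upper_beta : ∃ C : ℝ, 0 < C ∧ ∀ d : ℕ, 1 ≤ d → ∀ (N : ℕ)
    (v : Fin N → EuclideanSpace ℝ (Fin d)), (∀ i, ‖v i‖ ≤ 1) → ∑ i, v i = 0 →
    beta v ≤ C * √(d * Real.log (d + 1)) := by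
  obtain ⟨C, hC, hcore⟩ := core
  refine ⟨√C, Real.sqrt_pos.mpr hC, ?_⟩
  intro d hd N v hv hsum
  obtain ⟨T, hT⟩ := exists_diag v
  have hnormT : ∀ x, ∑ i, (T x) i ^ 2 = ‖x‖ ^ 2 := by
    intro x
    rw [← T.norm_map x, EuclideanSpace.norm_sq_eq]
    simp
  have hsumT : ∀ (s : List (Fin N)) (i : Fin d),
      (T ((s.map v).sum)) i = (s.map fun a => (T (v a)) i).sum := by
    intro s i
    induction s with
    | nil => simp
    | cons a s ih =>
      simp only [List.map_cons, List.sum_cons, map_add]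
      rw [PiLp.add_apply, ih]
  obtain ⟨l, hl1, hl2, hl3⟩ := hcore d hd N (fun a i => (T (v a)) i)
    (by
      intro a
      rw [hnormT]
      have h1 := hv a
      have h2 := norm_nonneg (v a)
      nlinarith)
    (by
      intro i
      have h1 : (T (∑ a, v a)) i = ∑ a, (T (v a)) i := by
        rw [map_sum, WithLp.ofLp_sum, Finset.sum_apply]
      rw [← h1, hsum, map_zero]
      rfl)
    (fun i j hij => hT i j hij)
  apply beta_le_of_list v l hl1 hl2
  intro k
  have h1 := hl3 k
  have h2 : ∑ i, ((l.take k).map fun a => (T (v a)) i).sum ^ 2 =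
      ‖((l.take k).map v).sum‖ ^ 2 := by
    rw [← hnormT]
    apply Finset.sum_congr rfl
    intro i _
    rw [hsumT]
  rw [h2] at h1
  rw [← Real.sqrt_mul hC.le]
  exact Real.le_sqrt_of_sq_le h1

theorem steinitz_bounds : ∃ c C : ℝ, 0 < c ∧ 0 < C ∧ ∀ d : ℕ, 1 ≤ d →
    BddAbove (steinitzValues d) ∧ c * √d ≤ steinitzConst d ∧
      steinitzConst d ≤ C * √(d * Real.log (d + 1)) := by
  obtain ⟨C, hC, hub⟩ := upper_beta
  refine ⟨√(1 / 8), C, Real.sqrt_pos.mpr (by norm_num), hC, ?_⟩
  intro d hd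
  have hbdd : BddAbove (steinitzValues d) := by
    refine ⟨C * √(d * Real.log (d + 1)), ?_⟩
    rintro t ⟨N, v, hv, hs, rfl⟩
    exact hub d hd N v hv hs
  have hmem : beta (lowFam d) ∈ steinitzValues d :=
    ⟨d + d, lowFam d, lowFam_norm hd, lowFam_sum hd, rfl⟩
  refine ⟨hbdd, ?_, ?_⟩
  · have h1 := lower_beta hd
    have h2 : √(1 / 8 : ℝ) * √d = √((d:ℝ) / 8) := by
      rw [← Real.sqrt_mul (by norm_num)]
      congr 1
      ring
    rw [h2]
    exact h1.trans (le_csSup hbdd hmem)
  · unfold steinitzConst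
    apply csSup_le ⟨_, hmem⟩
    rintro t ⟨N, v, hv, hs, rfl⟩
    exact hub d hd N v hv hs

end Vale.Agent.P262
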