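import Mathlib

set_option linter.unusedSectionVars false
set_option linter.unusedVariables false

namespace Vale.Agent.P262

open Finset Real
open scoped InnerProductSpace

section Scalar

/-- `M z β = (cosh β + z sinh β) e^{-β z}` is the moment generating function of a centred
two-valued variable. -/
noncomputable def MM (z b : ℝ) : ℝ := (cosh b + z * sinh b) * exp (-(b * z))

theorem c0_pos {z b : ℝ} (hz : |z| ≤ 1) : 0 < cosh b + z * sinh b := by
  have h1 : |sinh b| < cosh b := by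
    rw [abs_lt]
    constructor
    · have := Real.cosh_add_sinh b
      have := exp_pos b
      linarith
    · have := Real.cosh_sub_sinh b
      have := exp_pos (-b)
      linarith
  have h2 : |z * sinh b| ≤ |sinh b| := by
    rw [abs_mul]
    have := mul_le_mul_of_nonneg_right hz (abs_nonneg (sinh b))
    linarith
  have h3 := neg_abs_le (z * sinh b)
  linarith

theorem MM_pos {z b : ℝ} (hz : |z| ≤ 1) : 0 < MM z b := mul_pos (c0_pos hz) (exp_pos _)

theorem exp_neg_mul_le {z b : ℝ} (hz : |z| ≤ 1) : exp (-(b * z)) ≤ cosh b - z * sinh b := by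
  have hz' := abs_le.mp hz
  have h := convexOn_exp.2 (Set.mem_univ b) (Set.mem_univ (-b))
    (show 0 ≤ (1 - z) / 2 by linarith) (show 0 ≤ (1 + z) / 2 by linarith) (by ring)
  simp only [smul_eq_mul] at h
  have e1 : (1 - z) / 2 * b + (1 + z) / 2 * -b = -(b * z) := by ring
  rw [e1] at h
  rw [Real.cosh_eq, Real.sinh_eq]
  linarith

theorem MM_le {z b : ℝ} (hz : |z| ≤ 1) : MM z b ≤ exp (b ^ 2) := by
  unfold MM
  have h1 := exp_neg_mul_le (b := b) hz
  have h2 := c0_pos (b := b) hz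
  have h3 : (cosh b + z * sinh b) * exp (-(b * z)) ≤
      (cosh b + z * sinh b) * (cosh b - z * sinh b) := mul_le_mul_of_nonneg_left h1 h2.le
  have h4 : (cosh b + z * sinh b) * (cosh b - z * sinh b) ≤ cosh b ^ 2 := by
    nlinarith [sq_nonneg (z * sinh b)]
  have h5 : cosh b ≤ exp (b ^ 2 / 2) := Real.cosh_le_exp_half_sq b
  have h6 : cosh b ^ 2 ≤ exp (b ^ 2 / 2) ^ 2 := by
    have := (Real.cosh_pos b).le
    exact pow_le_pow_left₀ this h5 2
  have h7 : exp (b ^ 2 / 2) ^ 2 = exp (b ^ 2) := by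
    rw [← Real.exp_nat_mul]
    congr 1
    push_cast
    ring
  linarith

theorem MM_one (b : ℝ) : MM 1 b = 1 := by
  unfold MM
  rw [one_mul, Real.cosh_add_sinh, ← Real.exp_add]
  simp

theorem MM_neg_one (b : ℝ) : MM (-1) b = 1 := by
  unfold MM
  have : cosh b + -1 * sinh b = exp (-b) := by rw [← Real.cosh_sub_sinh]; ring
  rw [this, ← Real.exp_add]
  simp

theorem abs_sinh_le (b : ℝ) : |sinh b| ≤ |b| * cosh b := by
  have key : ∀ x : ℝ, 0 ≤ x → sinh x ≤ x * cosh x := by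
    intro x hx
    have hmono : MonotoneOn (fun x : ℝ => x * cosh x - sinh x) (Set.Ici 0) := by
      apply monotoneOn_of_deriv_nonneg (convex_Ici 0)
      · fun_prop
      · fun_prop
      · intro y hy
        simp only [interior_Ici, Set.mem_Ioi] at hy
        have hd : HasDerivAt (fun x : ℝ => x * cosh x - sinh x)
            (1 * cosh y + y * sinh y - cosh y) y := by
          exact ((hasDerivAt_id y).mul (Real.hasDerivAt_cosh y)).sub (Real.hasDerivAt_sinh y)
        rw [hd.deriv]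
        have := Real.sinh_pos_iff.mpr hy
        nlinarith [mul_pos hy this]
    have := hmono (Set.mem_Ici.mpr le_rfl) (Set.mem_Ici.mpr hx) hx
    simp at this
    linarith
  rcases le_total 0 b with hb | hb
  · rw [abs_of_nonneg (Real.sinh_nonneg_iff.mpr hb), abs_of_nonneg hb]
    exact key b hb
  · have := key (-b) (by linarith)
    rw [abs_of_nonpos (Real.sinh_nonpos_iff.mpr hb), abs_of_nonpos hb]
    simpa using this

/-- change of `β`. -/
theorem MM_add_le {z b b' : ℝ} (hz : |z| ≤ 1) :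
    MM z (b + b') ≤ MM z b * exp (2 * |b * b'| + b' ^ 2) := by
  set C := cosh b + z * sinh b with hC
  set S := sinh b + z * cosh b with hS
  have hCpos : 0 < C := c0_pos hz
  have hz' := abs_le.mp hz
  have hSC : |S / C| ≤ 1 := by
    rw [abs_div, abs_of_pos hCpos, div_le_one hCpos, abs_le]
    have e1 := exp_pos b
    have e2 := exp_pos (-b)
    rw [hC, hS, Real.cosh_eq, Real.sinh_eq]
    constructor <;> nlinarith
  have hprod : MM z (b + b') = MM z b * (MM (S / C) b' * exp (b' * (S / C - z))) := by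
    unfold MM
    have h1 : cosh (b + b') + z * sinh (b + b') = C * (cosh b' + S / C * sinh b') := by
      rw [Real.cosh_add, Real.sinh_add]
      have : C * (cosh b' + S / C * sinh b') = C * cosh b' + S * sinh b' := by
        field_simp
      rw [this, hC, hS]
      ring
    rw [h1]
    have h2 : exp (-((b + b') * z)) =
        exp (-(b * z)) * (exp (-(b' * (S / C))) * exp (b' * (S / C - z))) := by
      rw [← Real.exp_add, ← Real.exp_add]
      congr 1
      ring
    rw [h2]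
    ring
  rw [hprod]
  apply mul_le_mul_of_nonneg_left _ (MM_pos hz).le
  have h3 : |S / C - z| ≤ 2 * |b| := by
    have h4 : S / C - z = (1 - z ^ 2) * sinh b / C := by
      field_simp
      rw [hC, hS]
      ring
    rw [h4, abs_div, abs_of_pos hCpos, div_le_iff₀ hCpos, abs_mul]
    have h5 : (1 - |z|) * cosh b ≤ C := by
      have e1 : |sinh b| ≤ cosh b := by
        rw [abs_le]
        constructor
        · have := Real.cosh_add_sinh b
          have := exp_pos b
          linarith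
        · have := Real.cosh_sub_sinh b
          have := exp_pos (-b)
          linarith
      have e2 : |z * sinh b| ≤ |z| * cosh b := by
        rw [abs_mul]
        exact mul_le_mul_of_nonneg_left e1 (abs_nonneg z)
      have e3 := neg_abs_le (z * sinh b)
      rw [hC]
      nlinarith
    have h6 : |1 - z ^ 2| ≤ 2 * (1 - |z|) := by
      have e0 : z ^ 2 = |z| ^ 2 := (sq_abs z).symm
      have e1 := abs_nonneg z
      rw [abs_of_nonneg (by nlinarith)]
      nlinarith
    have h7 := abs_sinh_le b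
    have h8 : 0 ≤ 1 - |z| := by linarith
    calc |1 - z ^ 2| * |sinh b| ≤ (2 * (1 - |z|)) * (|b| * cosh b) :=
          mul_le_mul h6 h7 (abs_nonneg _) (by linarith)
      _ = 2 * |b| * ((1 - |z|) * cosh b) := by ring
      _ ≤ 2 * |b| * C := mul_le_mul_of_nonneg_left h5 (by positivity)
  have h9 : exp (b' * (S / C - z)) ≤ exp (2 * |b * b'|) := by
    apply exp_le_exp.mpr
    calc b' * (S / C - z) ≤ |b' * (S / C - z)| := le_abs_self _
      _ = |b'| * |S / C - z| := abs_mul _ _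
      _ ≤ |b'| * (2 * |b|) := mul_le_mul_of_nonneg_left h3 (abs_nonneg _)
      _ = 2 * |b * b'| := by rw [abs_mul]; ring
  have h10 := MM_le (b := b') hSC
  calc MM (S / C) b' * exp (b' * (S / C - z)) ≤ exp (b' ^ 2) * exp (2 * |b * b'|) :=
        mul_le_mul h10 h9 (exp_pos _).le (exp_pos _).le
    _ = exp (2 * |b * b'| + b' ^ 2) := by rw [← Real.exp_add]; congr 1; ring

/-- the algebraic inequality paying for a change of the residual. -/
theorem key_alg {b b' B B' X X1 : ℝ} (hB : 0 ≤ B) (hB' : 0 ≤ B') (hBB : B + B' ≤ 1)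
    (h0 : B = 0 → b = 0) (h0' : B' = 0 → b' = 0) (hX : b' ^ 2 / B' ≤ X - X1) :
    7 * X1 + 2 * ((b + b') ^ 2 / (B + B')) + (2 * |b * b'| + b' ^ 2) ≤
      7 * X + 2 * (b ^ 2 / B) := by
  rcases eq_or_lt_of_le hB' with h | hB'pos
  · have hb' := h0' h.symm
    subst hb'
    rw [← h] at hX ⊢
    simp at hX ⊢
    linarith
  rcases eq_or_lt_of_le hB with h | hBpos
  · have hb := h0 h.symm
    subst hb
    rw [← h]
    simp only [zero_add, zero_mul, abs_zero, mul_zero, ne_eq, OfNat.ofNat_ne_zero,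
      not_false_eq_true, zero_pow, zero_div, add_zero]
    have h1 : b' ^ 2 ≤ b' ^ 2 / B' := by
      rw [le_div_iff₀ hB'pos]
      nlinarith [sq_nonneg b']
    have h2 : 0 ≤ b' ^ 2 / B' := by positivity
    linarith
  · have hx : b = B * (b / B) := by field_simp
    have hy : b' = B' * (b' / B') := by field_simp
    set x := b / B
    set y := b' / B'
    have e1 : b ^ 2 / B = B * x ^ 2 := by rw [hx]; field_simp
    have e2 : b' ^ 2 / B' = B' * y ^ 2 := by rw [hy]; field_simp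
    have hS : 0 < B + B' := by linarith
    have e3 : (b + b') ^ 2 / (B + B') ≤ B * x ^ 2 + B' * y ^ 2 - B * B' * (x - y) ^ 2 := by
      rw [div_le_iff₀ hS, hx, hy]
      have : (B * x ^ 2 + B' * y ^ 2 - B * B' * (x - y) ^ 2) * (B + B') -
          (B * x + B' * y) ^ 2 = B * B' * (x - y) ^ 2 * (1 - (B + B')) := by ring
      have h2 : 0 ≤ B * B' * (x - y) ^ 2 * (1 - (B + B')) := by
        apply mul_nonneg
        · positivity
        · linarith
      linarith
    have e4 : |b * b'| = B * B' * |x * y| := by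
      rw [hx, hy]
      rw [show B * x * (B' * y) = (B * B') * (x * y) by ring, abs_mul,
        abs_of_pos (mul_pos hBpos hB'pos)]
    have e5 : b' ^ 2 ≤ B' * y ^ 2 := by
      rw [hy, mul_pow]
      have : B' ^ 2 ≤ B' := by nlinarith
      exact mul_le_mul_of_nonneg_right this (sq_nonneg y)
    rw [e1, e4]
    rw [e2] at hX
    have e6 : 2 * (B * B' * |x * y|) ≤ 4 * (B' * y ^ 2) + 2 * (B * B' * (x - y) ^ 2) := by
      have h1 : B * B' * y ^ 2 ≤ B' * y ^ 2 := by
        have : B * B' ≤ B' := by nlinarith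
        exact mul_le_mul_of_nonneg_right this (sq_nonneg y)
      have h2 : 2 * |x * y| ≤ 4 * y ^ 2 + 2 * (x - y) ^ 2 := by
        rcases abs_cases (x * y) with ⟨h, _⟩ | ⟨h, _⟩
        · rw [h]
          nlinarith [sq_nonneg (2 * x - 3 * y), sq_nonneg x, sq_nonneg y]
        · rw [h]
          nlinarith [sq_nonneg (x - y), sq_nonneg (2 * x - y), sq_nonneg x, sq_nonneg y]
      have h3 : 0 ≤ B * B' := by positivity
      nlinarith
    nlinarith

end Scalar

section Walk

variable {E : Type*} [NormedAddCommGroup E] [InnerProductSpace ℝ E] [FiniteDimensional ℝ E]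
variable {ι : Type*} [DecidableEq ι]

/-- Span of the vectors with indices in `A`. -/
def sp (w : ι → E) (A : Finset ι) : Submodule ℝ E := Submodule.span ℝ (w '' (A : Set ι))

/-- Projection on the span. -/
noncomputable def pj (w : ι → E) (A : Finset ι) (θ : E) : E := (sp w A).starProjection θ

/-- Squared length of the projection. -/
noncomputable def XX (w : ι → E) (A : Finset ι) (θ : E) : ℝ := ‖pj w A θ‖ ^ 2

/-- Residual of the pivot. -/
noncomputable def rs (w : ι → E) (A : Finset ι) (p : ι) : E := w p - pj w (A.erase p) (w p)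

theorem sp_mono {w : ι → E} {A B : Finset ι} (h : A ⊆ B) : sp w A ≤ sp w B :=
  Submodule.span_mono (Set.image_mono (by exact_mod_cast h))

theorem pj_mem (w : ι → E) (A : Finset ι) (θ : E) : pj w A θ ∈ sp w A :=
  Submodule.starProjection_apply_mem _ _

theorem inner_sub_pj {w : ι → E} {A : Finset ι} (θ : E) {u : E} (hu : u ∈ sp w A) :
    ⟪θ - pj w A θ, u⟫_ℝ = 0 := Submodule.starProjection_inner_eq_zero _ _ hu

theorem inner_pj {w : ι → E} {A : Finset ι} (θ : E) {u : E} (hu : u ∈ sp w A) :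
    ⟪pj w A θ, u⟫_ℝ = ⟪θ, u⟫_ℝ := by
  have := inner_sub_pj θ hu
  rw [inner_sub_left] at this
  linarith

theorem XX_nonneg (w : ι → E) (A : Finset ι) (θ : E) : 0 ≤ XX w A θ := sq_nonneg _

theorem XX_le (w : ι → E) (A : Finset ι) (θ : E) : XX w A θ ≤ ‖θ‖ ^ 2 := by
  unfold XX pj
  exact pow_le_pow_left₀ (norm_nonneg _) (Submodule.norm_starProjection_apply_le _ _) 2

/-- Pythagoras. -/
theorem norm_pj_sub_sq {w : ι → E} {A B : Finset ι} (h : A ⊆ B) (θ : E) :
    ‖pj w B θ - pj w A θ‖ ^ 2 = XX w B θ - XX w A θ := by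
  have h1 : ⟪pj w B θ, pj w A θ⟫_ℝ = ‖pj w A θ‖ ^ 2 := by
    rw [inner_pj θ (sp_mono h (pj_mem w A θ)), ← inner_pj θ (pj_mem w A θ),
      real_inner_self_eq_norm_sq]
  rw [norm_sub_sq_real, h1]
  unfold XX
  ring

theorem XX_mono {w : ι → E} {A B : Finset ι} (h : A ⊆ B) (θ : E) : XX w A θ ≤ XX w B θ := by
  have := norm_pj_sub_sq h θ (w := w)
  have h2 := sq_nonneg ‖pj w B θ - pj w A θ‖
  linarith

theorem inner_sq_le {w : ι → E} {A B : Finset ι} (h : A ⊆ B) (θ : E) {b : E}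
    (hb : b ∈ sp w B) (hbA : ∀ u ∈ sp w A, ⟪u, b⟫_ℝ = 0) :
    ⟪θ, b⟫_ℝ ^ 2 ≤ ‖b‖ ^ 2 * (XX w B θ - XX w A θ) := by
  have h1 : ⟪θ, b⟫_ℝ = ⟪pj w B θ - pj w A θ, b⟫_ℝ := by
    rw [inner_sub_left, hbA _ (pj_mem w A θ), inner_pj θ hb, sub_zero]
  rw [h1, ← norm_pj_sub_sq h θ]
  have h2 := abs_real_inner_le_norm (pj w B θ - pj w A θ) b
  have h3 := abs_nonneg ⟪pj w B θ - pj w A θ, b⟫_ℝ
  rw [← sq_abs]
  calc |⟪pj w B θ - pj w A θ, b⟫_ℝ| ^ 2 ≤ (‖pj w B θ - pj w A θ‖ * ‖b‖) ^ 2 :=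
        pow_le_pow_left₀ h3 h2 2
    _ = ‖b‖ ^ 2 * ‖pj w B θ - pj w A θ‖ ^ 2 := by ring

theorem w_mem_sp {w : ι → E} {A : Finset ι} {p : ι} (hp : p ∈ A) : w p ∈ sp w A :=
  Submodule.subset_span ⟨p, by exact_mod_cast hp, rfl⟩

theorem rs_mem {w : ι → E} {A : Finset ι} {p : ι} (hp : p ∈ A) : rs w A p ∈ sp w A :=
  Submodule.sub_mem _ (w_mem_sp hp) (sp_mono (A.erase_subset p) (pj_mem _ _ _))

theorem rs_orth {w : ι → E} {A : Finset ι} {p : ι} :
    ∀ u ∈ sp w (A.erase p), ⟪u, rs w A p⟫_ℝ = 0 := by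
  intro u hu
  rw [real_inner_comm]
  exact inner_sub_pj (w p) hu

theorem rs_inner_sq {w : ι → E} {A : Finset ι} {p : ι} (hp : p ∈ A) (θ : E) :
    ⟪θ, rs w A p⟫_ℝ ^ 2 ≤ ‖rs w A p‖ ^ 2 * (XX w A θ - XX w (A.erase p) θ) :=
  inner_sq_le (A.erase_subset p) θ (rs_mem hp) rs_orth

theorem norm_rs_le {w : ι → E} {A : Finset ι} {p : ι} (hw : ‖w p‖ ≤ 1) :
    ‖rs w A p‖ ^ 2 ≤ 1 := by
  have h1 : ‖w p‖ ^ 2 = ‖rs w A p‖ ^ 2 + ‖pj w (A.erase p) (w p)‖ ^ 2 := by
    have h2 : w p = rs w A p + pj w (A.erase p) (w p) := by unfold rs; abel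
    conv_lhs => rw [h2]
    rw [norm_add_sq_real, real_inner_comm, rs_orth _ (pj_mem _ _ _)]
    ring
  have h3 : ‖w p‖ ^ 2 ≤ 1 := by
    have := norm_nonneg (w p)
    nlinarith
  nlinarith [sq_nonneg ‖pj w (A.erase p) (w p)‖]

/-- Potential for squares. -/
noncomputable def Psi (w : ι → E) (A : Finset ι) (p : ι) (zp : ℝ) (θ : E) : ℝ :=
  XX w (A.erase p) θ + (1 - zp ^ 2) * (XX w A θ - XX w (A.erase p) θ)

/-- Exponent of the potential for exponentials, without the `MM` factor. -/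
noncomputable def Ex (w : ι → E) (A : Finset ι) (p : ι) (θ : E) : ℝ :=
  7 * XX w (A.erase p) θ + 2 * (⟪θ, rs w A p⟫_ℝ ^ 2 / ‖rs w A p‖ ^ 2)

/-- Potential for exponentials. -/
noncomputable def Phi (w : ι → E) (A : Finset ι) (p : ι) (zp : ℝ) (θ : E) : ℝ :=
  exp (Ex w A p θ) * MM zp ⟪θ, rs w A p⟫_ℝ

theorem inner_rs_eq_zero {w : ι → E} {A : Finset ι} {p : ι} {θ : E} (h : ‖rs w A p‖ ^ 2 = 0) :
    ⟪θ, rs w A p⟫_ℝ = 0 := by
  have : rs w A p = 0 := by
    have := pow_eq_zero_iff (two_ne_zero) |>.mp h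
    exact norm_eq_zero.mp this
  rw [this, inner_zero_right]

theorem div_rs_le {w : ι → E} {A : Finset ι} {p : ι} (hp : p ∈ A) (θ : E) :
    ⟪θ, rs w A p⟫_ℝ ^ 2 / ‖rs w A p‖ ^ 2 ≤ XX w A θ - XX w (A.erase p) θ := by
  have h1 := rs_inner_sq hp θ (w := w)
  have h0 := XX_mono (A.erase_subset p) θ (w := w)
  rcases eq_or_lt_of_le (sq_nonneg ‖rs w A p‖) with h | h
  · rw [← h]
    simp
    linarith
  · rw [div_le_iff₀ h]
    linarith

/-- New pivot. -/
theorem Phi_new {w : ι → E} {A : Finset ι} {p : ι} (hw : ‖w p‖ ≤ 1) (hp : p ∈ A) {z : ℝ}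
    (hz : |z| ≤ 1) (θ : E) : Phi w A p z θ ≤ exp (7 * XX w A θ) := by
  unfold Phi Ex
  have h1 := MM_le (b := ⟪θ, rs w A p⟫_ℝ) hz
  have h2 := div_rs_le hp θ (w := w)
  have h3 := norm_rs_le (A := A) hw
  have h4 : ⟪θ, rs w A p⟫_ℝ ^ 2 ≤ ⟪θ, rs w A p⟫_ℝ ^ 2 / ‖rs w A p‖ ^ 2 := by
    rcases eq_or_lt_of_le (sq_nonneg ‖rs w A p‖) with h | h
    · rw [inner_rs_eq_zero h.symm]
      simp
    · rw [le_div_iff₀ h]
      nlinarith [sq_nonneg ⟪θ, rs w A p⟫_ℝ]
  calc exp (7 * XX w (A.erase p) θ + 2 * (⟪θ, rs w A p⟫_ℝ ^ 2 / ‖rs w A p‖ ^ 2)) *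
        MM z ⟪θ, rs w A p⟫_ℝ
      ≤ exp (7 * XX w (A.erase p) θ + 2 * (⟪θ, rs w A p⟫_ℝ ^ 2 / ‖rs w A p‖ ^ 2)) *
        exp (⟪θ, rs w A p⟫_ℝ ^ 2) := mul_le_mul_of_nonneg_left h1 (exp_pos _).le
    _ = exp (7 * XX w (A.erase p) θ + 2 * (⟪θ, rs w A p⟫_ℝ ^ 2 / ‖rs w A p‖ ^ 2) +
        ⟪θ, rs w A p⟫_ℝ ^ 2) := by rw [← Real.exp_add]
    _ ≤ exp (7 * XX w A θ) := by
        apply exp_le_exp.mpr
        have h0 := XX_mono (A.erase_subset p) θ (w := w)
        linarith

/-- Same pivot, smaller alive set. -/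
theorem Phi_same {w : ι → E} {A A1 : Finset ι} {p : ι} (hw : ‖w p‖ ≤ 1) (hA : A1 ⊆ A)
    (hp : p ∈ A1) {z : ℝ} (hz : |z| ≤ 1) (θ : E) : Phi w A1 p z θ ≤ Phi w A p z θ := by
  have hE : A1.erase p ⊆ A.erase p := Finset.erase_subset_erase p hA
  set b := rs w A p with hb
  set b1 := rs w A1 p with hb1
  set b' := b1 - b with hb'
  have hb'eq : b' = pj w (A.erase p) (w p) - pj w (A1.erase p) (w p) := by
    rw [hb', hb1, hb]; unfold rs; abel
  have hb'mem : b' ∈ sp w (A.erase p) := by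
    rw [hb'eq]
    exact Submodule.sub_mem _ (pj_mem _ _ _) (sp_mono hE (pj_mem _ _ _))
  have hb'orth : ∀ u ∈ sp w (A1.erase p), ⟪u, b'⟫_ℝ = 0 := by
    intro u hu
    rw [hb', inner_sub_right, rs_orth u hu, rs_orth u (sp_mono hE hu), sub_zero]
  have hbb' : ⟪b', b⟫_ℝ = 0 := rs_orth _ hb'mem
  have hnorm : ‖b1‖ ^ 2 = ‖b‖ ^ 2 + ‖b'‖ ^ 2 := by
    have : b1 = b' + b := by rw [hb']; abel
    rw [this, norm_add_sq_real, hbb']
    ring
  have hX := inner_sq_le hE θ hb'mem hb'orth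
  have hbeta : ⟪θ, b1⟫_ℝ = ⟪θ, b⟫_ℝ + ⟪θ, b'⟫_ℝ := by
    rw [hb', inner_sub_right]; ring
  have h1 : ‖b1‖ ^ 2 ≤ 1 := norm_rs_le hw
  have hmono := XX_mono hE θ (w := w)
  have hkey := key_alg (b := ⟪θ, b⟫_ℝ) (b' := ⟪θ, b'⟫_ℝ) (B := ‖b‖ ^ 2) (B' := ‖b'‖ ^ 2)
    (X := XX w (A.erase p) θ) (X1 := XX w (A1.erase p) θ) (sq_nonneg _) (sq_nonneg _)
    (by linarith) (fun h => by
      have : b = 0 := norm_eq_zero.mp (pow_eq_zero_iff (two_ne_zero) |>.mp h)
      rw [this, inner_zero_right]) (fun h => by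
      have : b' = 0 := norm_eq_zero.mp (pow_eq_zero_iff (two_ne_zero) |>.mp h)
      rw [this, inner_zero_right]) (by
      rcases eq_or_lt_of_le (sq_nonneg ‖b'‖) with h | h
      · rw [← h]
        simp
        linarith
      · rw [div_le_iff₀ h]
        linarith)
  unfold Phi Ex
  rw [← hb, ← hb1, hbeta, hnorm]
  have h2 := MM_add_le (b := ⟪θ, b⟫_ℝ) (b' := ⟪θ, b'⟫_ℝ) hz
  calc exp (7 * XX w (A1.erase p) θ +
        2 * ((⟪θ, b⟫_ℝ + ⟪θ, b'⟫_ℝ) ^ 2 / (‖b‖ ^ 2 + ‖b'‖ ^ 2))) *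
        MM z (⟪θ, b⟫_ℝ + ⟪θ, b'⟫_ℝ)
      ≤ exp (7 * XX w (A1.erase p) θ +
        2 * ((⟪θ, b⟫_ℝ + ⟪θ, b'⟫_ℝ) ^ 2 / (‖b‖ ^ 2 + ‖b'‖ ^ 2))) *
        (MM z ⟪θ, b⟫_ℝ * exp (2 * |⟪θ, b⟫_ℝ * ⟪θ, b'⟫_ℝ| + ⟪θ, b'⟫_ℝ ^ 2)) :=
        mul_le_mul_of_nonneg_left h2 (exp_pos _).le
    _ = exp (7 * XX w (A1.erase p) θ +
        2 * ((⟪θ, b⟫_ℝ + ⟪θ, b'⟫_ℝ) ^ 2 / (‖b‖ ^ 2 + ‖b'‖ ^ 2)) +
        (2 * |⟪θ, b⟫_ℝ * ⟪θ, b'⟫_ℝ| + ⟪θ, b'⟫_ℝ ^ 2)) * MM z ⟪θ, b⟫_ℝ := by
        rw [Real.exp_add _ (2 * |⟪θ, b⟫_ℝ * ⟪θ, b'⟫_ℝ| + ⟪θ, b'⟫_ℝ ^ 2)]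
        ring
    _ ≤ exp (7 * XX w (A.erase p) θ + 2 * (⟪θ, b⟫_ℝ ^ 2 / ‖b‖ ^ 2)) * MM z ⟪θ, b⟫_ℝ := by
        apply mul_le_mul_of_nonneg_right _ (MM_pos hz).le
        exact exp_le_exp.mpr hkey

theorem exists_move {A : Finset ι} {z u : ι → ℝ} (hz : ∀ i ∈ A, |z i| < 1)
    (hu : ∃ i ∈ A, u i ≠ 0) :
    ∃ δ : ℝ, 0 < δ ∧ (∀ i ∈ A, |z i + δ * u i| ≤ 1) ∧ ∃ i ∈ A, |z i + δ * u i| = 1 := by
  classical
  set B := A.filter (fun i => u i ≠ 0) with hB
  have hBne : B.Nonempty := by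
    obtain ⟨i, hi, hui⟩ := hu
    exact ⟨i, by simp [hB, hi, hui]⟩
  obtain ⟨k, hk, hmin⟩ := Finset.exists_min_image B (fun i => (|u i| - u i * z i) / (u i) ^ 2) hBne
  have hkA : k ∈ A := (Finset.mem_filter.mp hk).1
  have hku : u k ≠ 0 := (Finset.mem_filter.mp hk).2
  have hpos : ∀ i ∈ A, u i ≠ 0 → 0 < (|u i| - u i * z i) / (u i) ^ 2 := by
    intro i hi hui
    apply div_pos _ (by positivity)
    have h1 : u i * z i ≤ |u i| * |z i| := by
      rw [← abs_mul]; exact le_abs_self _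
    have h2 : 0 < |u i| := abs_pos.mpr hui
    have h3 := hz i hi
    nlinarith
  refine ⟨(|u k| - u k * z k) / (u k) ^ 2, hpos k hkA hku, ?_, k, hkA, ?_⟩
  · intro i hi
    by_cases hui : u i = 0
    · rw [hui]
      simpa using (hz i hi).le
    · have hle := hmin i (by simp [hB, hi, hui])
      set δ := (|u k| - u k * z k) / (u k) ^ 2
      have hδ : 0 < δ := hpos k hkA hku
      have h2 : 0 < (u i) ^ 2 := by positivity
      have h3 : δ * (u i) ^ 2 ≤ |u i| - u i * z i := by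
        have := (le_div_iff₀ h2).mp hle
        exact this
      have h4 := hz i hi
      have h5 := abs_lt.mp h4
      rcases lt_or_gt_of_ne hui with hneg | hpos'
      · rw [abs_of_neg hneg] at h3
        have h6 : -1 ≤ z i + δ * u i := by
          by_contra hcon
          push Not at hcon
          nlinarith
        have h7 : z i + δ * u i ≤ 1 := by nlinarith
        exact abs_le.mpr ⟨h6, h7⟩
      · rw [abs_of_pos hpos'] at h3
        have h6 : z i + δ * u i ≤ 1 := by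
          by_contra hcon
          push Not at hcon
          nlinarith
        have h7 : -1 ≤ z i + δ * u i := by nlinarith
        exact abs_le.mpr ⟨h7, h6⟩
  · have h1 : z k + (|u k| - u k * z k) / (u k) ^ 2 * u k = |u k| / u k := by
      field_simp
      ring
    rw [h1, abs_div, abs_abs]
    exact div_self (abs_ne_zero.mpr hku)

/-- Value of the functional. -/
noncomputable def Fv {J K : Type*} [Fintype J] [Fintype K] (α : J → ℝ) (θ : J → E) (β : K → ℝ)
    (ξ : K → E) (φ : J → ℝ) (ψ : K → ℝ) (e : E) : ℝ :=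
  ∑ j, α j * (φ j + ⟪θ j, e⟫_ℝ) ^ 2 + ∑ k, β k * exp (ψ k + ⟪ξ k, e⟫_ℝ)

theorem Psi_nonneg_of {w : ι → E} {A : Finset ι} {p : ι} {z : ℝ} (θ : E) :
    Psi w A p z θ = z ^ 2 * XX w (A.erase p) θ + (1 - z ^ 2) * XX w A θ := by
  unfold Psi; ring

theorem Psi_le {w : ι → E} {A : Finset ι} {p : ι} {z : ℝ} (hz : |z| ≤ 1) (θ : E) :
    Psi w A p z θ ≤ XX w A θ := by
  rw [Psi_nonneg_of]
  have h1 := XX_mono (A.erase_subset p) θ (w := w)
  have h2 : z ^ 2 ≤ 1 := by
    have := abs_le.mp hz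
    nlinarith
  nlinarith [sq_nonneg z]

theorem gsw_aux {J K : Type*} [Fintype J] [Fintype K] (w : ι → E) (hw : ∀ i, ‖w i‖ ≤ 1)
    (α : J → ℝ) (hα : ∀ j, 0 ≤ α j) (θ : J → E) (β : K → ℝ) (hβ : ∀ k, 0 ≤ β k) (ξ : K → E) :
    ∀ (m : ℕ) (A : Finset ι), A.card = m → ∀ (z : ι → ℝ), (∀ i ∈ A, |z i| < 1) → ∀ p ∈ A,
      ∀ (φ : J → ℝ) (ψ : K → ℝ), ∃ ε : ι → ℝ, (∀ i ∈ A, ε i = 1 ∨ ε i = -1) ∧
        Fv α θ β ξ φ ψ (∑ i ∈ A, (ε i - z i) • w i) ≤
          ∑ j, α j * (φ j ^ 2 + Psi w A p (z p) (θ j)) +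
            ∑ k, β k * (exp (ψ k) * Phi w A p (z p) (ξ k)) := by
  intro m
  induction m using Nat.strong_induction_on with
  | _ m ih =>
  intro A hAm z hz p hp φ ψ
  -- coefficients of the projection
  obtain ⟨c, hc⟩ : ∃ c : ι → ℝ, ∑ i ∈ A.erase p, c i • w i = pj w (A.erase p) (w p) := by
    have h := pj_mem w (A.erase p) (w p)
    unfold sp at h
    rw [Submodule.mem_span_image_finset_iff_exists_fun] at h
    obtain ⟨c, hc⟩ := h
    refine ⟨fun i => if h : i ∈ A.erase p then c ⟨i, h⟩ else 0, ?_⟩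
    rw [← hc, ← Finset.sum_coe_sort]
    apply Finset.sum_congr rfl
    intro i _
    have hi := i.2
    simp only [hi, dif_pos]
  set u : ι → ℝ := fun i => if i = p then 1 else -c i with hu
  have hup : u p = 1 := by simp [hu]
  set b := rs w A p with hb
  have hsum : ∑ i ∈ A, u i • w i = b := by
    rw [← Finset.add_sum_erase A _ hp, hup, one_smul]
    have : ∑ i ∈ A.erase p, u i • w i = -∑ i ∈ A.erase p, c i • w i := by
      rw [← Finset.sum_neg_distrib]
      apply Finset.sum_congr rfl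
      intro i hi
      have : i ≠ p := Finset.ne_of_mem_erase hi
      simp [hu, this]
    rw [this, hc, hb]
    unfold rs
    abel
  -- the value after a move
  set T : ℝ → ℝ := fun δ =>
    ∑ j, α j * ((φ j + δ * ⟪θ j, b⟫_ℝ) ^ 2 + (XX w (A.erase p) (θ j) +
      (1 - (z p + δ) ^ 2) * (XX w A (θ j) - XX w (A.erase p) (θ j)))) +
    ∑ k, β k * (exp (ψ k + δ * ⟪ξ k, b⟫_ℝ) * (exp (Ex w A p (ξ k)) *
      MM (z p + δ) ⟪ξ k, b⟫_ℝ)) with hT
  have next : ∀ δ : ℝ, (∀ i ∈ A, |z i + δ * u i| ≤ 1) → (∃ i ∈ A, |z i + δ * u i| = 1) →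
      ∃ ε : ι → ℝ, (∀ i ∈ A, ε i = 1 ∨ ε i = -1) ∧
        Fv α θ β ξ φ ψ (∑ i ∈ A, (ε i - z i) • w i) ≤ T δ := by
    intro δ hle hex
    set z' : ι → ℝ := fun i => z i + δ * u i with hz'
    set A' := A.filter (fun i => |z' i| < 1) with hA'
    have hA'A : A' ⊆ A := Finset.filter_subset _ _
    have hfro : ∀ i ∈ A, i ∉ A' → z' i = 1 ∨ z' i = -1 := by
      intro i hi hni
      have h1 : |z' i| = 1 := by
        have h2 : ¬ |z' i| < 1 := fun h => hni (by simp [hA', hi, h])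
        exact le_antisymm (hle i hi) (not_lt.mp h2)
      rcases abs_cases (z' i) with ⟨h, _⟩ | ⟨h, _⟩
      · left; linarith
      · right; linarith
    have hzp : z' p = z p + δ := by simp [hz', hup]
    have hzpabs : |z p + δ| ≤ 1 := by rw [← hzp]; exact hle p hp
    have hδsum : ∑ i ∈ A, (z' i - z i) • w i = δ • b := by
      rw [← hsum, Finset.smul_sum]
      apply Finset.sum_congr rfl
      intro i _
      rw [smul_smul]
      congr 1
      simp [hz']
    by_cases hne : A'.Nonempty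
    · -- choose a pivot
      have hcard : A'.card < m := by
        rw [← hAm]
        apply Finset.card_lt_card
        refine ⟨hA'A, fun hcon => ?_⟩
        obtain ⟨i, hi, hi1⟩ := hex
        have := (Finset.mem_filter.mp (hcon hi)).2
        rw [hz'] at this
        simp only at this
        linarith
      obtain ⟨p', hp', hpp⟩ : ∃ p' ∈ A', (p ∈ A' → p' = p) := by
        by_cases h : p ∈ A'
        · exact ⟨p, h, fun _ => rfl⟩
        · obtain ⟨q, hq⟩ := hne
          exact ⟨q, hq, fun h' => absurd h' h⟩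
      obtain ⟨ε', hε', hF⟩ := ih A'.card hcard A' rfl z' (fun i hi => (Finset.mem_filter.mp hi).2)
        p' hp' (fun j => φ j + δ * ⟪θ j, b⟫_ℝ) (fun k => ψ k + δ * ⟪ξ k, b⟫_ℝ)
      refine ⟨fun i => if i ∈ A' then ε' i else z' i, ?_, ?_⟩
      · intro i hi
        by_cases h : i ∈ A'
        · simp only [h, if_true]; exact hε' i h
        · simp only [h, if_false]; exact hfro i hi h
      · have hsplit : ∑ i ∈ A, ((if i ∈ A' then ε' i else z' i) - z i) • w i =
            ∑ i ∈ A', (ε' i - z' i) • w i + δ • b := by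
          rw [← hδsum]
          have h1 : ∑ i ∈ A', (ε' i - z' i) • w i =
              ∑ i ∈ A, (if i ∈ A' then (ε' i - z' i) • w i else 0) := by
            rw [Finset.sum_ite_mem, Finset.inter_eq_right.mpr hA'A]
          rw [h1, ← Finset.sum_add_distrib]
          apply Finset.sum_congr rfl
          intro i _
          by_cases h : i ∈ A'
          · simp only [h, if_true]
            rw [← add_smul]
            congr 1
            ring
          · simp only [h, if_false, zero_add]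
        rw [hsplit]
        have hFv : Fv α θ β ξ φ ψ (∑ i ∈ A', (ε' i - z' i) • w i + δ • b) =
            Fv α θ β ξ (fun j => φ j + δ * ⟪θ j, b⟫_ℝ) (fun k => ψ k + δ * ⟪ξ k, b⟫_ℝ)
              (∑ i ∈ A', (ε' i - z' i) • w i) := by
          unfold Fv
          congr 1
          · apply Finset.sum_congr rfl
            intro j _
            rw [inner_add_right, inner_smul_right]
            ring
          · apply Finset.sum_congr rfl
            intro k _
            rw [inner_add_right, inner_smul_right]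
            congr 2
            ring
        rw [hFv]
        refine hF.trans ?_
        rw [hT]
        apply add_le_add
        · apply Finset.sum_le_sum
          intro j _
          apply mul_le_mul_of_nonneg_left _ (hα j)
          have : Psi w A' p' (z' p') (θ j) ≤ XX w (A.erase p) (θ j) +
              (1 - (z p + δ) ^ 2) * (XX w A (θ j) - XX w (A.erase p) (θ j)) := by
            by_cases h : p ∈ A'
            · have hpp' := hpp h
              rw [hpp', hzp, Psi_nonneg_of]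
              have h1 := XX_mono hA'A (θ j) (w := w)
              have h2 := XX_mono (Finset.erase_subset_erase p hA'A) (θ j) (w := w)
              have h3 : (z p + δ) ^ 2 ≤ 1 := by
                have := abs_le.mp hzpabs
                nlinarith
              nlinarith [sq_nonneg (z p + δ)]
            · have h1 : (z p + δ) ^ 2 = 1 := by
                rw [← hzp]
                rcases hfro p hp h with h | h <;> rw [h] <;> norm_num
              rw [h1]
              have h2 : A' ⊆ A.erase p := by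
                intro i hi
                refine Finset.mem_erase.mpr ⟨fun hip => h (hip ▸ hi), hA'A hi⟩
              have h3 := Psi_le (w := w) (A := A') (p := p') (z := z' p')
                (hle p' (hA'A hp')) (θ j)
              have h4 := XX_mono h2 (θ j) (w := w)
              linarith
          linarith
        · apply Finset.sum_le_sum
          intro k _
          apply mul_le_mul_of_nonneg_left _ (hβ k)
          apply mul_le_mul_of_nonneg_left _ (exp_pos _).le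
          by_cases h : p ∈ A'
          · have hpp' := hpp h
            rw [hpp', hzp]
            have := Phi_same (hw p) hA'A h hzpabs (ξ k) (w := w)
            unfold Phi at this ⊢
            exact this
          · have h1 : MM (z p + δ) ⟪ξ k, b⟫_ℝ = 1 := by
              rw [← hzp]
              rcases hfro p hp h with h | h <;> rw [h]
              · exact MM_one _
              · exact MM_neg_one _
            rw [h1, mul_one]
            have h2 : A' ⊆ A.erase p := by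
              intro i hi
              refine Finset.mem_erase.mpr ⟨fun hip => h (hip ▸ hi), hA'A hi⟩
            refine (Phi_new (hw p') hp' (hle p' (hA'A hp')) (ξ k)).trans ?_
            apply exp_le_exp.mpr
            unfold Ex
            have h4 := XX_mono h2 (ξ k) (w := w)
            have h5 : 0 ≤ ⟪ξ k, rs w A p⟫_ℝ ^ 2 / ‖rs w A p‖ ^ 2 := by positivity
            linarith
    · -- everything is frozen
      have hemp : A' = ∅ := Finset.not_nonempty_iff_eq_empty.mp hne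
      refine ⟨z', fun i hi => hfro i hi (by rw [hemp]; simp), ?_⟩
      rw [hδsum]
      unfold Fv
      rw [hT]
      have hz1 : z' p = 1 ∨ z' p = -1 := hfro p hp (by rw [hemp]; simp)
      apply add_le_add
      · apply Finset.sum_le_sum
        intro j _
        apply mul_le_mul_of_nonneg_left _ (hα j)
        rw [inner_smul_right]
        have h1 : (z p + δ) ^ 2 = 1 := by
          rw [← hzp]
          rcases hz1 with h | h <;> rw [h] <;> norm_num
        rw [h1]
        have := XX_nonneg w (A.erase p) (θ j)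
        linarith
      · apply Finset.sum_le_sum
        intro k _
        apply mul_le_mul_of_nonneg_left _ (hβ k)
        rw [inner_smul_right]
        have h1 : MM (z p + δ) ⟪ξ k, b⟫_ℝ = 1 := by
          rw [← hzp]
          rcases hz1 with h | h <;> rw [h]
          · exact MM_one _
          · exact MM_neg_one _
        rw [h1, mul_one]
        have h2 : 1 ≤ exp (Ex w A p (ξ k)) := by
          apply Real.one_le_exp
          unfold Ex
          have := XX_nonneg w (A.erase p) (ξ k)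
          positivity
        have h3 := exp_pos (ψ k + δ * ⟪ξ k, b⟫_ℝ)
        nlinarith
  -- the two moves
  obtain ⟨δ1, hδ1, hle1, hex1⟩ := exists_move (u := u) hz ⟨p, hp, by rw [hup]; exact one_ne_zero⟩
  obtain ⟨δ2, hδ2, hle2, hex2⟩ := exists_move (u := fun i => -u i) hz
    ⟨p, hp, by simp [hup]⟩
  have hle2' : ∀ i ∈ A, |z i + (-δ2) * u i| ≤ 1 := by
    intro i hi
    have := hle2 i hi
    simpa using this
  have hex2' : ∃ i ∈ A, |z i + (-δ2) * u i| = 1 := by
    obtain ⟨i, hi, h⟩ := hex2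
    exact ⟨i, hi, by simpa using h⟩
  set T0 := ∑ j, α j * (φ j ^ 2 + Psi w A p (z p) (θ j)) +
    ∑ k, β k * (exp (ψ k) * Phi w A p (z p) (ξ k)) with hT0
  have havg : δ2 * T δ1 + δ1 * T (-δ2) ≤ (δ1 + δ2) * T0 := by
    have e1 : δ2 * T δ1 + δ1 * T (-δ2) =
        ∑ j, α j * (δ2 * ((φ j + δ1 * ⟪θ j, b⟫_ℝ) ^ 2 + (XX w (A.erase p) (θ j) +
          (1 - (z p + δ1) ^ 2) * (XX w A (θ j) - XX w (A.erase p) (θ j)))) +
          δ1 * ((φ j + (-δ2) * ⟪θ j, b⟫_ℝ) ^ 2 + (XX w (A.erase p) (θ j) +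
          (1 - (z p + (-δ2)) ^ 2) * (XX w A (θ j) - XX w (A.erase p) (θ j))))) +
        ∑ k, β k * (δ2 * (exp (ψ k + δ1 * ⟪ξ k, b⟫_ℝ) * (exp (Ex w A p (ξ k)) *
          MM (z p + δ1) ⟪ξ k, b⟫_ℝ)) + δ1 * (exp (ψ k + (-δ2) * ⟪ξ k, b⟫_ℝ) *
          (exp (Ex w A p (ξ k)) * MM (z p + (-δ2)) ⟪ξ k, b⟫_ℝ))) := by
      rw [hT]
      simp only
      rw [mul_add δ2, mul_add δ1, Finset.mul_sum, Finset.mul_sum, Finset.mul_sum, Finset.mul_sum,
        add_add_add_comm, ← Finset.sum_add_distrib, ← Finset.sum_add_distrib]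
      congr 1
      · apply Finset.sum_congr rfl; intro j _; ring
      · apply Finset.sum_congr rfl; intro k _; ring
    have e2 : (δ1 + δ2) * T0 = ∑ j, α j * ((δ1 + δ2) * (φ j ^ 2 + Psi w A p (z p) (θ j))) +
        ∑ k, β k * ((δ1 + δ2) * (exp (ψ k) * Phi w A p (z p) (ξ k))) := by
      rw [hT0, mul_add, Finset.mul_sum, Finset.mul_sum]
      congr 1
      · apply Finset.sum_congr rfl; intro j _; ring
      · apply Finset.sum_congr rfl; intro k _; ring
    rw [e1, e2]
    apply add_le_add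
    · apply Finset.sum_le_sum
      intro j _
      apply mul_le_mul_of_nonneg_left _ (hα j)
      have h1 := rs_inner_sq hp (θ j) (w := w)
      have h2 := norm_rs_le (A := A) (hw p)
      have h3 := XX_mono (A.erase_subset p) (θ j) (w := w)
      rw [← hb] at h1 h2
      have h4 : ⟪θ j, b⟫_ℝ ^ 2 ≤ XX w A (θ j) - XX w (A.erase p) (θ j) := by
        nlinarith
      unfold Psi
      have h5 : 0 ≤ δ1 * δ2 * (δ1 + δ2) := by positivity
      nlinarith [mul_nonneg h5 (sub_nonneg.mpr h4)]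
    · apply Finset.sum_le_sum
      intro k _
      apply mul_le_mul_of_nonneg_left _ (hβ k)
      apply le_of_eq
      unfold Phi MM
      rw [← hb]
      have f1 : ∀ δ : ℝ, exp (ψ k + δ * ⟪ξ k, b⟫_ℝ) * (exp (Ex w A p (ξ k)) *
          ((cosh ⟪ξ k, b⟫_ℝ + (z p + δ) * sinh ⟪ξ k, b⟫_ℝ) *
            exp (-(⟪ξ k, b⟫_ℝ * (z p + δ))))) =
          exp (ψ k) * exp (Ex w A p (ξ k)) * exp (-(⟪ξ k, b⟫_ℝ * z p)) *
            (cosh ⟪ξ k, b⟫_ℝ + (z p + δ) * sinh ⟪ξ k, b⟫_ℝ) := by
        intro δ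
        have g1 : exp (ψ k + δ * ⟪ξ k, b⟫_ℝ) * exp (-(⟪ξ k, b⟫_ℝ * (z p + δ))) =
            exp (ψ k) * exp (-(⟪ξ k, b⟫_ℝ * z p)) := by
          rw [← Real.exp_add, ← Real.exp_add]
          congr 1
          ring
        calc exp (ψ k + δ * ⟪ξ k, b⟫_ℝ) * (exp (Ex w A p (ξ k)) *
              ((cosh ⟪ξ k, b⟫_ℝ + (z p + δ) * sinh ⟪ξ k, b⟫_ℝ) *
              exp (-(⟪ξ k, b⟫_ℝ * (z p + δ)))))
            = (exp (ψ k + δ * ⟪ξ k, b⟫_ℝ) * exp (-(⟪ξ k, b⟫_ℝ * (z p + δ)))) *
              exp (Ex w A p (ξ k)) * (cosh ⟪ξ k, b⟫_ℝ + (z p + δ) * sinh ⟪ξ k, b⟫_ℝ) := by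
              ring
          _ = _ := by rw [g1]; ring
      rw [f1 δ1, f1 (-δ2)]
      ring
  by_cases hcase : T δ1 ≤ T0
  · obtain ⟨ε, h1, h2⟩ := next δ1 hle1 hex1
    exact ⟨ε, h1, h2.trans hcase⟩
  · have hcase2 : T (-δ2) ≤ T0 := by
      push Not at hcase
      by_contra hcon
      push Not at hcon
      nlinarith
    obtain ⟨ε, h1, h2⟩ := next (-δ2) hle2' hex2'
    exact ⟨ε, h1, h2.trans hcase2⟩

/-- The Gram–Schmidt walk rounding theorem. -/
theorem gsw {J K : Type*} [Fintype J] [Fintype K] (w : ι → E) (hw : ∀ i, ‖w i‖ ≤ 1)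
    (α : J → ℝ) (hα : ∀ j, 0 ≤ α j) (θ : J → E) (β : K → ℝ) (hβ : ∀ k, 0 ≤ β k) (ξ : K → E)
    (A : Finset ι) (z : ι → ℝ) (hz : ∀ i ∈ A, |z i| ≤ 1) (φ : J → ℝ) (ψ : K → ℝ) :
    ∃ ε : ι → ℝ, (∀ i ∈ A, ε i = 1 ∨ ε i = -1) ∧
      Fv α θ β ξ φ ψ (∑ i ∈ A, (ε i - z i) • w i) ≤
        ∑ j, α j * (φ j ^ 2 + ‖θ j‖ ^ 2) + ∑ k, β k * (exp (ψ k) * exp (7 * ‖ξ k‖ ^ 2)) := by
  set A' := A.filter (fun i => |z i| < 1) with hA'
  have hA'A : A' ⊆ A := Finset.filter_subset _ _
  have hfro : ∀ i ∈ A, i ∉ A' → z i = 1 ∨ z i = -1 := by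
    intro i hi hni
    have h1 : |z i| = 1 := by
      have h2 : ¬ |z i| < 1 := fun h => hni (by simp [hA', hi, h])
      exact le_antisymm (hz i hi) (not_lt.mp h2)
    rcases abs_cases (z i) with ⟨h, _⟩ | ⟨h, _⟩
    · left; linarith
    · right; linarith
  by_cases hne : A'.Nonempty
  · obtain ⟨p, hp⟩ := hne
    obtain ⟨ε', hε', hF⟩ := gsw_aux w hw α hα θ β hβ ξ A'.card A' rfl z
      (fun i hi => (Finset.mem_filter.mp hi).2) p hp φ ψ
    refine ⟨fun i => if i ∈ A' then ε' i else z i, ?_, ?_⟩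
    · intro i hi
      by_cases h : i ∈ A'
      · simp only [h, if_true]; exact hε' i h
      · simp only [h, if_false]; exact hfro i hi h
    · have hsplit : ∑ i ∈ A, ((if i ∈ A' then ε' i else z i) - z i) • w i =
          ∑ i ∈ A', (ε' i - z i) • w i := by
        have h1 : ∑ i ∈ A', (ε' i - z i) • w i =
            ∑ i ∈ A, (if i ∈ A' then (ε' i - z i) • w i else 0) := by
          rw [Finset.sum_ite_mem, Finset.inter_eq_right.mpr hA'A]
        rw [h1]
        apply Finset.sum_congr rfl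
        intro i _
        by_cases h : i ∈ A'
        · simp only [h, if_true]
        · simp only [h, if_false, sub_self, zero_smul]
      rw [hsplit]
      refine hF.trans ?_
      apply add_le_add
      · apply Finset.sum_le_sum
        intro j _
        apply mul_le_mul_of_nonneg_left _ (hα j)
        have h1 := Psi_le (w := w) (A := A') (p := p) (z := z p) (hz p (hA'A hp)) (θ j)
        have h2 := XX_le w A' (θ j)
        linarith
      · apply Finset.sum_le_sum
        intro k _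
        apply mul_le_mul_of_nonneg_left _ (hβ k)
        apply mul_le_mul_of_nonneg_left _ (exp_pos _).le
        refine (Phi_new (hw p) hp (hz p (hA'A hp)) (ξ k)).trans ?_
        apply exp_le_exp.mpr
        have h2 := XX_le w A' (ξ k)
        linarith
  · have hemp : A' = ∅ := Finset.not_nonempty_iff_eq_empty.mp hne
    refine ⟨z, fun i hi => hfro i hi (by rw [hemp]; simp), ?_⟩
    have h0 : ∑ i ∈ A, (z i - z i) • w i = 0 := by
      apply Finset.sum_eq_zero
      intro i _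
      rw [sub_self, zero_smul]
    rw [h0]
    unfold Fv
    apply add_le_add
    · apply Finset.sum_le_sum
      intro j _
      apply mul_le_mul_of_nonneg_left _ (hα j)
      rw [inner_zero_right, add_zero]
      nlinarith [sq_nonneg ‖θ j‖]
    · apply Finset.sum_le_sum
      intro k _
      apply mul_le_mul_of_nonneg_left _ (hβ k)
      rw [inner_zero_right, add_zero]
      have h2 : 1 ≤ exp (7 * ‖ξ k‖ ^ 2) := by
        apply Real.one_le_exp
        positivity
      have h3 := exp_pos (ψ k)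
      nlinarith

end Walk

section Rounding

variable {ι : Type*} [DecidableEq ι]

/-- Rounding of fractional coefficients in `[0,1]`. -/
theorem rounding {J K : Type*} [Fintype J] [Fintype K] {d : ℕ} (v : ι → Fin d → ℝ)
    (A : Finset ι) (hv : ∀ x ∈ A, ∑ i, v x i ^ 2 ≤ 1) (lam : ι → ℝ)
    (hlam : ∀ x ∈ A, 0 ≤ lam x ∧ lam x ≤ 1) (α : J → ℝ) (hα : ∀ j, 0 ≤ α j)
    (θ : J → Fin d → ℝ) (a : J → ι → ℝ) (φ : J → ℝ) (β : K → ℝ) (hβ : ∀ k, 0 ≤ β k)
    (ξ : K → Fin d → ℝ) :
    ∃ B ⊆ A,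
      ∑ j, α j * (φ j + ∑ x ∈ A, ((if x ∈ B then (1 : ℝ) else 0) - lam x) *
          (∑ i, θ j i * v x i + a j x)) ^ 2 +
        ∑ k, β k * exp (∑ x ∈ A, ((if x ∈ B then (1 : ℝ) else 0) - lam x) *
          ∑ i, ξ k i * v x i) ≤
      ∑ j, α j * (φ j ^ 2 + (∑ i, θ j i ^ 2 + ∑ x ∈ A, a j x ^ 2) / 2) +
        ∑ k, β k * exp (7 / 2 * ∑ i, ξ k i ^ 2) := by
  have hs2 : √(2:ℝ) * √2 = 2 := Real.mul_self_sqrt (by norm_num)
  have hs0 : √(2:ℝ) ≠ 0 := by positivity
  have hsq : ∀ x : ℝ, (x / √2) ^ 2 = x ^ 2 / 2 := by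
    intro x
    rw [div_pow, Real.sq_sqrt (by norm_num)]
  have hmul : ∀ x y : ℝ, x / √2 * (y / √2) = x * y / 2 := by
    intro x y
    rw [div_mul_div_comm, hs2]
  set w : ι → EuclideanSpace ℝ (Fin d ⊕ A) := fun x => if x ∈ A then
    WithLp.toLp 2 (Sum.elim (fun i => v x i / √2)
      (fun b : A => if (b : ι) = x then 1 / √2 else 0)) else 0 with hwdef
  set lift : (Fin d → ℝ) → (ι → ℝ) → EuclideanSpace ℝ (Fin d ⊕ A) := fun t c =>
    WithLp.toLp 2 (Sum.elim (fun i => t i / √2) (fun b : A => c b / √2)) with hlift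
  have hw : ∀ x, ‖w x‖ ≤ 1 := by
    intro x
    by_cases hx : x ∈ A
    · have h1 : ‖w x‖ ^ 2 ≤ 1 := by
        rw [EuclideanSpace.norm_sq_eq, Fintype.sum_sum_type]
        simp only [hwdef, hx, if_true, Sum.elim_inl, Sum.elim_inr, Real.norm_eq_abs, sq_abs, hsq]
        have h2 : ∑ b : A, (if (b : ι) = x then 1 / √(2:ℝ) else 0) ^ 2 = 1 / 2 := by
          rw [Finset.sum_eq_single_of_mem (⟨x, hx⟩ : A) (Finset.mem_univ _)]
          · simp
          · intro b _ hb
            have : (b : ι) ≠ x := fun h => hb (Subtype.ext h)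
            simp [this]
        rw [h2, ← Finset.sum_div]
        have := hv x hx
        linarith
      nlinarith [norm_nonneg (w x)]
    · simp [hwdef, hx]
  have hlnorm : ∀ t c, ‖lift t c‖ ^ 2 = (∑ i, t i ^ 2 + ∑ x ∈ A, c x ^ 2) / 2 := by
    intro t c
    rw [EuclideanSpace.norm_sq_eq, Fintype.sum_sum_type]
    simp only [hlift, Sum.elim_inl, Sum.elim_inr, Real.norm_eq_abs, sq_abs, hsq]
    rw [← Finset.sum_div, ← Finset.sum_div, add_div]
    congr 2
    exact Finset.sum_coe_sort A (fun x => c x ^ 2)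
  have hlinner : ∀ t c, ∀ x ∈ A, ⟪lift t c, w x⟫_ℝ = (∑ i, t i * v x i + c x) / 2 := by
    intro t c x hx
    rw [PiLp.inner_apply, Fintype.sum_sum_type]
    simp only [hwdef, hlift, hx, if_true, Sum.elim_inl, Sum.elim_inr]
    have h1 : ∀ i, ⟪t i / √2, v x i / √2⟫_ℝ = t i * v x i / 2 := by
      intro i
      rw [real_inner_comm]
      simp only [RCLike.inner_apply, conj_trivial]
      rw [hmul]
    have h2 : ∑ b : A, ⟪c b / √2, (if (b : ι) = x then 1 / √(2:ℝ) else 0)⟫_ℝ = c x / 2 := by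
      rw [Finset.sum_eq_single_of_mem (⟨x, hx⟩ : A) (Finset.mem_univ _)]
      · simp only [if_true, RCLike.inner_apply, conj_trivial]
        rw [hmul]
        ring
      · intro b _ hb
        have : (b : ι) ≠ x := fun h => hb (Subtype.ext h)
        simp [this]
    rw [h2, Finset.sum_congr rfl (fun i _ => h1 i), ← Finset.sum_div, add_div]
  obtain ⟨ε, hε, hF⟩ := gsw w hw α hα (fun j => lift (θ j) (a j)) β hβ
    (fun k => lift (ξ k) (fun _ => 0)) A (fun x => 2 * lam x - 1) (by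
      intro x hx
      have := hlam x hx
      rw [abs_le]
      constructor <;> linarith) φ (fun _ => 0)
  refine ⟨A.filter (fun x => ε x = 1), Finset.filter_subset _ _, ?_⟩
  have hcoef : ∀ x ∈ A, (if x ∈ A.filter (fun x => ε x = 1) then (1 : ℝ) else 0) - lam x =
      (ε x - (2 * lam x - 1)) / 2 := by
    intro x hx
    rcases hε x hx with h | h
    · simp [hx, h]; ring
    · simp [hx, h]; norm_num; ring
  have hin : ∀ t c, ⟪lift t c, ∑ x ∈ A, (ε x - (2 * lam x - 1)) • w x⟫_ℝ =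
      ∑ x ∈ A, ((if x ∈ A.filter (fun x => ε x = 1) then (1 : ℝ) else 0) - lam x) *
        (∑ i, t i * v x i + c x) := by
    intro t c
    rw [inner_sum]
    apply Finset.sum_congr rfl
    intro x hx
    rw [inner_smul_right, hlinner t c x hx, hcoef x hx]
    ring
  unfold Fv at hF
  simp only [hin, hlnorm, zero_add, Real.exp_zero, one_mul, add_zero] at hF
  convert hF using 2
  apply Finset.sum_congr rfl
  intro k _
  congr 2
  simp
  ring

end Rounding

end Vale.Agent.P262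

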