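import Vale.Agent.P262.Basic

set_option linter.unusedSectionVars false
set_option linter.unusedVariables false

namespace Vale.Agent.P262

open Finset Real

variable {ι : Type*} [DecidableEq ι] {d : ℕ}

theorem UU_FF_sum (n ω : ℝ) (q : Fin d → ℝ) (f : Fin d → ℝ) :
    ∑ i, f i = ∑ i ∈ UU n ω q, f i + ∑ i ∈ FF n ω q, f i := by
  have h : FF n ω q = univ.filter (fun i => ¬ (ω * q i < kap n)) := by
    unfold FF
    congr 1
    ext i
    rw [not_lt]
  rw [h]
  unfold UU
  exact (Finset.sum_filter_add_sum_filter_not _ _ _).symm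

theorem UU_FF_card (n ω : ℝ) (q : Fin d → ℝ) :
    ((UU n ω q).card : ℝ) + (FF n ω q).card = d := by
  have h := UU_FF_sum n ω q (fun _ => 1)
  simp only [Finset.sum_const, nsmul_eq_mul, mul_one, Finset.card_univ, Fintype.card_fin] at h
  exact h.symm

theorem not_mem_FF {n ω : ℝ} {q : Fin d → ℝ} {i : Fin d} (h : i ∈ UU n ω q) :
    i ∉ FF n ω q := by
  unfold UU at h
  unfold FF
  rw [Finset.mem_filter] at h ⊢
  rintro ⟨_, h2⟩
  exact absurd h.2 (not_lt.mpr h2)

theorem inv_norm {n : ℝ} (hn : 10 ^ 6 ≤ n) {v : ι → Fin d → ℝ} {q : Fin d → ℝ} {G : Finset ι}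
    {ω : ℝ} {x : Fin d → ℝ} (hF : ∀ i ∈ FF n ω q, |x i| ≤ ell n)
    (hU : nsq (UU n ω q) x ≤ bb n * (UU n ω q).card - cc * hh v (UU n ω q) G) :
    ∑ i, x i ^ 2 ≤ bb n * d := by
  rw [UU_FF_sum n ω q, ← UU_FF_card n ω q, mul_add]
  have h1 : 0 ≤ cc * hh v (UU n ω q) G :=
    mul_nonneg (by unfold cc; norm_num) (hh_nonneg v _ _)
  have h2 : ∑ i ∈ FF n ω q, x i ^ 2 ≤ bb n * (FF n ω q).card := by
    calc ∑ i ∈ FF n ω q, x i ^ 2 ≤ ∑ i ∈ FF n ω q, bb n := by
          apply Finset.sum_le_sum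
          intro i hi
          have h3 := hF i hi
          have h4 : x i ^ 2 ≤ ell n ^ 2 := by
            rw [← sq_abs]
            exact pow_le_pow_left₀ (abs_nonneg _) h3 2
          have h5 := bb_ge hn
          have h6 : 0 ≤ cc * log (1 + 2 * kap n) := by
            apply mul_nonneg (by unfold cc; norm_num)
            apply Real.log_nonneg
            linarith [kap_pos hn]
          linarith
      _ = bb n * (FF n ω q).card := by
          rw [Finset.sum_const, nsmul_eq_mul]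
          ring
  unfold nsq at hU
  linarith

theorem sqrt_one_add_ge {n : ℝ} (hn : 10 ^ 6 ≤ n) : n ^ 3 * √(1 + kap n) ≤ kap n := by
  have h0 := n_pos hn
  have h1n := one_le_n hn
  have h2 : √(1 + kap n) ≤ 2 * n ^ 50 := by
    apply Real.sqrt_le_iff.mpr
    refine ⟨by positivity, ?_⟩
    have h3 : (2 * n ^ 50) ^ 2 = 4 * kap n := by unfold kap; ring
    rw [h3]
    have h4 : (1:ℝ) ≤ kap n := by unfold kap; exact one_le_pow₀ h1n
    linarith
  calc n ^ 3 * √(1 + kap n) ≤ n ^ 3 * (2 * n ^ 50) := mul_le_mul_of_nonneg_left h2 (by positivity)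
    _ = 2 * n ^ 53 := by ring
    _ ≤ n * n ^ 53 := by
        apply mul_le_mul_of_nonneg_right _ (by positivity)
        linarith [show (2:ℝ) ≤ 10 ^ 6 by norm_num]
    _ = n ^ 54 := by ring
    _ ≤ kap n := by unfold kap; exact pow_le_pow_right₀ h1n (by norm_num)

theorem nsq_enlarge {n : ℝ} (hn : 10 ^ 6 ≤ n) {v : ι → Fin d → ℝ} {q : Fin d → ℝ}
    (hq : ∀ i, 0 ≤ q i) {ω ω' : ℝ} (hω' : 0 < ω') (hle : ω' ≤ ω) {G' : Finset ι}
    (hQ' : ∀ i, QQ v G' i i - ω' * q i ≤ n ^ 3 * √(1 + ω' * q i)) {x : Fin d → ℝ}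
    (hxF : ∀ i ∈ FF n ω q, |x i| ≤ ell n) {t : ℝ}
    (ht : t ≤ (UU n ω' q).card - (UU n ω q).card)
    (hxU : nsq (UU n ω q) x ≤ bb n * (UU n ω q).card - cc * hh v (UU n ω q) G' + t) :
    nsq (UU n ω' q) x ≤ bb n * (UU n ω' q).card - cc * hh v (UU n ω' q) G' := by
  have hsub : UU n ω q ⊆ UU n ω' q := by
    intro i hi
    unfold UU at hi ⊢
    rw [Finset.mem_filter] at hi ⊢
    refine ⟨Finset.mem_univ _, lt_of_le_of_lt ?_ hi.2⟩
    exact mul_le_mul_of_nonneg_right hle (hq i)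
  set N := UU n ω' q \ UU n ω q with hN
  have hcard : ((UU n ω' q).card : ℝ) = (UU n ω q).card + N.card := by
    have := Finset.card_sdiff_add_card_eq_card hsub
    rw [← hN] at this
    have h2 : ((N.card + (UU n ω q).card : ℕ) : ℝ) = (UU n ω' q).card := by rw [this]
    push_cast at h2
    linarith
  have hs1 : nsq (UU n ω' q) x = nsq (UU n ω q) x + ∑ i ∈ N, x i ^ 2 := by
    unfold nsq
    rw [hN, ← Finset.sum_sdiff hsub]
    ring
  have hs2 : hh v (UU n ω' q) G' = hh v (UU n ω q) G' + ∑ i ∈ N, log (1 + QQ v G' i i) := by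
    unfold hh
    rw [hN, ← Finset.sum_sdiff hsub]
    ring
  have hterm : ∑ i ∈ N, (x i ^ 2 + cc * log (1 + QQ v G' i i) + 1) ≤ ∑ i ∈ N, bb n := by
    apply Finset.sum_le_sum
    intro i hi
    have hi1 : ω' * q i < kap n := by
      have := (Finset.mem_sdiff.mp hi).1
      unfold UU at this
      exact (Finset.mem_filter.mp this).2
    have hi2 : i ∈ FF n ω q := by
      have := (Finset.mem_sdiff.mp hi).2
      unfold UU at this
      unfold FF
      rw [Finset.mem_filter] at this ⊢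
      refine ⟨Finset.mem_univ _, ?_⟩
      by_contra hcon
      push Not at hcon
      exact this ⟨Finset.mem_univ _, hcon⟩
    have h4 : x i ^ 2 ≤ ell n ^ 2 := by
      rw [← sq_abs]
      exact pow_le_pow_left₀ (abs_nonneg _) (hxF i hi2) 2
    have h5 := bb_ge hn
    have h6 : QQ v G' i i ≤ 2 * kap n := by
      have h7 := hQ' i
      have h8 : √(1 + ω' * q i) ≤ √(1 + kap n) := Real.sqrt_le_sqrt (by linarith)
      have h9 := sqrt_one_add_ge hn
      have h10 : n ^ 3 * √(1 + ω' * q i) ≤ n ^ 3 * √(1 + kap n) :=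
        mul_le_mul_of_nonneg_left h8 (by have := n_pos hn; positivity)
      linarith
    have h7 : log (1 + QQ v G' i i) ≤ log (1 + 2 * kap n) :=
      Real.log_le_log (by linarith [QQ_nonneg v G' i]) (by linarith)
    have h8 : cc * log (1 + QQ v G' i i) ≤ cc * log (1 + 2 * kap n) :=
      mul_le_mul_of_nonneg_left h7 (by unfold cc; norm_num)
    linarith
  simp only [Finset.sum_add_distrib, Finset.sum_const, nsmul_eq_mul, mul_one,
    ← Finset.mul_sum] at hterm
  rw [hs1, hs2, hcard]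
  rw [hcard] at ht
  nlinarith

theorem inv_child {n : ℝ} (hn : 10 ^ 6 ≤ n) {v : ι → Fin d → ℝ} {q : Fin d → ℝ}
    (hq : ∀ i, 0 ≤ q i) {G : Finset ι} {ω : ℝ} {P : Fin d → ℝ} (h : Inv n v q G ω P)
    {G' : Finset ι} {P' : Fin d → ℝ}
    (hQ : ∀ i j, |QQ v G' i j - QQ v G i j / 2| ≤ 8 * n ^ 2 * √(1 + ω * q i))
    (hPF : ∀ i ∈ FF n ω q, |P' i| ≤ ell n) (hEF : ∀ i ∈ FF n ω q, |P' i + SS v G' i| ≤ ell n)
    (hPU : nsq (UU n ω q) P' ≤ bb n * (UU n ω q).card - cc * hh v (UU n ω q) G')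
    (hEU : nsq (UU n ω q) (fun i => P' i + SS v G' i) ≤
      bb n * (UU n ω q).card - cc * hh v (UU n ω q) G') :
    Inv n v q G' (ω / 2) P' := by
  have h0 := n_pos hn
  have hω := h.om
  have hi1 : ∀ i j, |QQ v G' i j - (if i = j then ω / 2 * q i else 0)| ≤
      n ^ 3 * √(1 + ω / 2 * q i) := by
    intro i j
    have h1 := hQ i j
    have h2 := h.i1 i j
    have h3 : QQ v G' i j - (if i = j then ω / 2 * q i else 0) =
        (QQ v G' i j - QQ v G i j / 2) + (QQ v G i j - (if i = j then ω * q i else 0)) / 2 := by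
      split_ifs <;> ring
    have h4 : √(1 + ω * q i) ≤ 3 / 2 * √(1 + ω / 2 * q i) := by
      have h5 : 0 ≤ ω * q i := mul_nonneg hω.le (hq i)
      apply Real.sqrt_le_iff.mpr
      refine ⟨by positivity, ?_⟩
      rw [mul_pow, Real.sq_sqrt (by linarith)]
      linarith
    have h6 : 0 ≤ √(1 + ω / 2 * q i) := Real.sqrt_nonneg _
    rw [h3]
    refine (abs_add_le _ _).trans ?_
    rw [abs_div, abs_two]
    have h7 : (8:ℝ) * 10 ≤ n := by linarith [show (80:ℝ) ≤ 10 ^ 6 by norm_num]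
    have h8 : n ^ 3 = n * n ^ 2 := by ring
    have h9 : 0 < n ^ 2 := by positivity
    have h10 : 80 * n ^ 2 ≤ n ^ 3 := by rw [h8]; nlinarith
    calc |QQ v G' i j - QQ v G i j / 2| + |QQ v G i j - (if i = j then ω * q i else 0)| / 2
        ≤ 8 * n ^ 2 * √(1 + ω * q i) + n ^ 3 * √(1 + ω * q i) / 2 := by linarith
      _ = (8 * n ^ 2 + n ^ 3 / 2) * √(1 + ω * q i) := by ring
      _ ≤ (n ^ 3 / 10 + n ^ 3 / 2) * √(1 + ω * q i) := by
          apply mul_le_mul_of_nonneg_right _ (Real.sqrt_nonneg _)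
          linarith
      _ ≤ (n ^ 3 / 10 + n ^ 3 / 2) * (3 / 2 * √(1 + ω / 2 * q i)) :=
          mul_le_mul_of_nonneg_left h4 (by positivity)
      _ = (9 / 10 * n ^ 3) * √(1 + ω / 2 * q i) := by ring
      _ ≤ n ^ 3 * √(1 + ω / 2 * q i) := by
          apply mul_le_mul_of_nonneg_right _ h6
          have : 0 < n ^ 3 := by positivity
          linarith
  have hFsub : ∀ i ∈ FF n (ω / 2) q, i ∈ FF n ω q := by
    intro i hi
    unfold FF at hi ⊢
    rw [Finset.mem_filter] at hi ⊢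
    refine ⟨Finset.mem_univ _, hi.2.trans ?_⟩
    exact mul_le_mul_of_nonneg_right (by linarith) (hq i)
  have hcard : (0:ℝ) ≤ (UU n (ω / 2) q).card - (UU n ω q).card := by
    have hsub : UU n ω q ⊆ UU n (ω / 2) q := by
      intro i hi
      unfold UU at hi ⊢
      rw [Finset.mem_filter] at hi ⊢
      refine ⟨Finset.mem_univ _, lt_of_le_of_lt ?_ hi.2⟩
      exact mul_le_mul_of_nonneg_right (by linarith) (hq i)
    have := Finset.card_le_card hsub
    have h2 : ((UU n ω q).card : ℝ) ≤ (UU n (ω / 2) q).card := by exact_mod_cast this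
    linarith
  have hQ' : ∀ i, QQ v G' i i - ω / 2 * q i ≤ n ^ 3 * √(1 + ω / 2 * q i) := by
    intro i
    have := hi1 i i
    rw [if_pos rfl] at this
    exact (le_abs_self _).trans this
  exact
    { om := by linarith
      i1 := hi1
      i2P := fun i hi => hPF i (hFsub i hi)
      i2E := fun i hi => hEF i (hFsub i hi)
      i3P := nsq_enlarge hn hq (by linarith) (by linarith) hQ' hPF hcard (by linarith)
      i3E := nsq_enlarge hn hq (by linarith) (by linarith) hQ' hEF hcard (by linarith) }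

/-- The midpoint satisfies the same bound. -/
theorem inv_mid {n : ℝ} (hn : 10 ^ 6 ≤ n) {v : ι → Fin d → ℝ} {q : Fin d → ℝ} {G : Finset ι}
    {ω : ℝ} {P : Fin d → ℝ} (h : Inv n v q G ω P) :
    nsq (UU n ω q) (fun i => P i + SS v G i / 2) ≤
      bb n * (UU n ω q).card - cc * hh v (UU n ω q) G := by
  have h1 := h.i3P
  have h2 := h.i3E
  have h3 : nsq (UU n ω q) (fun i => P i + SS v G i / 2) ≤
      (nsq (UU n ω q) P + nsq (UU n ω q) (fun i => P i + SS v G i)) / 2 := by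
    unfold nsq
    rw [← Finset.sum_add_distrib, Finset.sum_div]
    apply Finset.sum_le_sum
    intro i _
    nlinarith [sq_nonneg (SS v G i)]
  linarith

theorem inv_mid_abs {n : ℝ} {v : ι → Fin d → ℝ} {q : Fin d → ℝ} {G : Finset ι}
    {ω : ℝ} {P : Fin d → ℝ} (h : Inv n v q G ω P) {i : Fin d} (hi : i ∈ FF n ω q) :
    |P i + SS v G i / 2| ≤ ell n := by
  have h1 := abs_le.mp (h.i2P i hi)
  have h2 := abs_le.mp (h.i2E i hi)
  rw [abs_le]
  constructor <;> linarith

end Vale.Agent.P262
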