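import Mathlib

namespace Vale.Agent.P262

open Finset

/-! ### Linear relations, vertices of boxes cut by hyperplanes -/

theorem exists_rel {ι κ : Type*} [DecidableEq ι] [Fintype κ] (F : Finset ι) (x : ι → κ → ℝ)
    (h : Fintype.card κ < F.card) :
    ∃ c : ι → ℝ, (∃ v ∈ F, c v ≠ 0) ∧ (∀ i, ∑ v ∈ F, c v * x v i = 0) := by
  have hdep : ¬ LinearIndependent ℝ (fun v : F => x v) := by
    intro hli
    have := hli.fintype_card_le_finrank
    rw [Module.finrank_fintype_fun_eq_card, Fintype.card_coe] at this
    omega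
  rw [Fintype.not_linearIndependent_iff] at hdep
  obtain ⟨g, hg, ⟨w, hw⟩⟩ := hdep
  refine ⟨fun v => if hv : v ∈ F then g ⟨v, hv⟩ else 0, ⟨w, w.2, by simpa using hw⟩, fun i => ?_⟩
  have h1 := congrFun hg i
  simp only [Finset.sum_apply, Pi.smul_apply, smul_eq_mul, Pi.zero_apply] at h1
  rw [← h1, ← Finset.sum_coe_sort F]
  refine Finset.sum_congr rfl fun v _ => ?_
  simp

theorem exists_vertex {ι κ : Type*} [DecidableEq ι] [Fintype κ] (G : Finset ι) (x : ι → κ → ℝ)
    (lam : ι → ℝ) (h : ∀ v ∈ G, 0 ≤ lam v ∧ lam v ≤ 1) :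
    ∃ mu : ι → ℝ, (∀ v ∈ G, 0 ≤ mu v ∧ mu v ≤ 1) ∧
      (∀ i, ∑ v ∈ G, mu v * x v i = ∑ v ∈ G, lam v * x v i) ∧
      (G.filter (fun v => 0 < mu v ∧ mu v < 1)).card ≤ Fintype.card κ := by
  classical
  -- strong induction on the number of fractional entries
  suffices H : ∀ n : ℕ, ∀ lam : ι → ℝ, (∀ v ∈ G, 0 ≤ lam v ∧ lam v ≤ 1) →
      (G.filter (fun v => 0 < lam v ∧ lam v < 1)).card ≤ n →
      ∃ mu : ι → ℝ, (∀ v ∈ G, 0 ≤ mu v ∧ mu v ≤ 1) ∧
      (∀ i, ∑ v ∈ G, mu v * x v i = ∑ v ∈ G, lam v * x v i) ∧
      (G.filter (fun v => 0 < mu v ∧ mu v < 1)).card ≤ Fintype.card κ from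
    H _ lam h le_rfl
  intro n
  induction n with
  | zero =>
    intro lam h hn
    exact ⟨lam, h, fun _ => rfl, hn.trans (Nat.zero_le _)⟩
  | succ n ih =>
    intro lam h hn
    set F := G.filter (fun v => 0 < lam v ∧ lam v < 1) with hF
    by_cases hcard : F.card ≤ Fintype.card κ
    · exact ⟨lam, h, fun _ => rfl, hcard⟩
    · obtain ⟨c, ⟨w, hwF, hw⟩, hc⟩ := exists_rel F x (not_le.1 hcard)
      -- the step length
      let t : ι → ℝ := fun v => if 0 < c v then (1 - lam v) / c v else - lam v / c v
      have hFne : (F.filter (fun v => c v ≠ 0)).Nonempty := ⟨w, by simp [hwF, hw]⟩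
      obtain ⟨a, ha, hmin⟩ := Finset.exists_min_image (F.filter (fun v => c v ≠ 0)) t hFne
      obtain ⟨haF, hca⟩ := Finset.mem_filter.1 ha
      have hlF : ∀ v ∈ F, 0 < lam v ∧ lam v < 1 := fun v hv => (Finset.mem_filter.1 hv).2
      have hta : 0 < t a := by
        simp only [t]
        split_ifs with hpos
        · exact div_pos (by linarith [(hlF a haF).2]) hpos
        · have hneg : c a < 0 := lt_of_le_of_ne (not_lt.1 hpos) hca
          exact div_pos_of_neg_of_neg (by linarith [(hlF a haF).1]) hneg
      let mu : ι → ℝ := fun v => if v ∈ F then lam v + t a * c v else lam v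
      have hmuF : ∀ v ∈ F, 0 ≤ mu v ∧ mu v ≤ 1 := by
        intro v hv
        simp only [mu, if_pos hv]
        by_cases hcv : c v = 0
        · rw [hcv, mul_zero, add_zero]
          exact ⟨(hlF v hv).1.le, (hlF v hv).2.le⟩
        · have hle := hmin v (Finset.mem_filter.2 ⟨hv, hcv⟩)
          have htv : t v = if 0 < c v then (1 - lam v) / c v else - lam v / c v := rfl
          rw [htv] at hle
          split_ifs at hle with hpos
          · rw [le_div_iff₀ hpos] at hle
            have : 0 ≤ t a * c v := by positivity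
            exact ⟨by linarith [(hlF v hv).1], by linarith⟩
          · have hneg : c v < 0 := lt_of_le_of_ne (not_lt.1 hpos) hcv
            rw [le_div_iff_of_neg hneg] at hle
            have : t a * c v ≤ 0 := mul_nonpos_of_nonneg_of_nonpos hta.le hneg.le
            exact ⟨by linarith, by linarith [(hlF v hv).2]⟩
      have hmu : ∀ v ∈ G, 0 ≤ mu v ∧ mu v ≤ 1 := by
        intro v hv
        by_cases hvF : v ∈ F
        · exact hmuF v hvF
        · simp only [mu, if_neg hvF]; exact h v hv
      have hmua : mu a = 0 ∨ mu a = 1 := by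
        simp only [mu, if_pos haF]
        have hta' : t a = if 0 < c a then (1 - lam a) / c a else - lam a / c a := rfl
        rw [hta']
        split_ifs with hpos
        · right; field_simp; ring
        · left
          field_simp
          ring
      have hsum : ∀ i, ∑ v ∈ G, mu v * x v i = ∑ v ∈ G, lam v * x v i := by
        intro i
        have hsplit : ∀ v ∈ G, mu v * x v i =
            lam v * x v i + (if v ∈ F then t a * (c v * x v i) else 0) := by
          intro v _
          simp only [mu]
          split_ifs <;> ring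
        rw [Finset.sum_congr rfl hsplit, Finset.sum_add_distrib, ← Finset.sum_filter]
        have hGF : G.filter (fun v => v ∈ F) = F := by
          ext v
          simp only [Finset.mem_filter, hF]
          tauto
        rw [hGF, ← Finset.mul_sum, hc i, mul_zero, add_zero]
      have hcount : (G.filter (fun v => 0 < mu v ∧ mu v < 1)).card ≤ n := by
        have hsub : G.filter (fun v => 0 < mu v ∧ mu v < 1) ⊆ F.erase a := by
          intro v hv
          obtain ⟨hvG, hv1, hv2⟩ := Finset.mem_filter.1 hv
          rw [Finset.mem_erase]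
          constructor
          · rintro rfl
            rcases hmua with h0 | h0 <;> rw [h0] at hv1 hv2 <;> linarith
          · by_contra hvF
            simp only [mu, if_neg hvF] at hv1 hv2
            exact hvF (Finset.mem_filter.2 ⟨hvG, hv1, hv2⟩)
        have := Finset.card_le_card hsub
        rw [Finset.card_erase_of_mem haF] at this
        omega
      obtain ⟨nu, hnu1, hnu2, hnu3⟩ := ih mu hmu hcount
      exact ⟨nu, hnu1, fun i => (hnu2 i).trans (hsum i), hnu3⟩

/-! ### The Grinberg-Sevastyanov ordering -/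

/-- the Grinberg-Sevastyanov condition -/
def GSGood {ι κ : Type*} [Fintype κ] (y : ι → κ → ℝ) (A : Finset ι) : Prop :=
  ∃ lam : ι → ℝ, (∀ v ∈ A, 0 ≤ lam v ∧ lam v ≤ 1) ∧ (∀ i, ∑ v ∈ A, lam v * y v i = 0) ∧
    ∑ v ∈ A, lam v = (A.card : ℝ) - Fintype.card κ

theorem GSGood.sum_le {ι κ : Type*} [Fintype κ] {y : ι → κ → ℝ} {A : Finset ι}
    (h : GSGood y A) {B : ℝ} (hy : ∀ v ∈ A, ∀ i, |y v i| ≤ B) (i : κ) :
    |∑ v ∈ A, y v i| ≤ B * Fintype.card κ := by
  obtain ⟨lam, h1, h2, h3⟩ := h
  have e : ∑ v ∈ A, y v i = ∑ v ∈ A, (1 - lam v) * y v i := by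
    have : ∀ v ∈ A, (1 - lam v) * y v i = y v i - lam v * y v i := fun v _ => by ring
    rw [Finset.sum_congr rfl this, Finset.sum_sub_distrib, h2 i, sub_zero]
  rw [e]
  calc |∑ v ∈ A, (1 - lam v) * y v i| ≤ ∑ v ∈ A, |(1 - lam v) * y v i| :=
        Finset.abs_sum_le_sum_abs _ _
    _ ≤ ∑ v ∈ A, (1 - lam v) * B := by
        refine Finset.sum_le_sum fun v hv => ?_
        rw [abs_mul, abs_of_nonneg (by linarith [(h1 v hv).2])]
        exact mul_le_mul_of_nonneg_left (hy v hv i) (by linarith [(h1 v hv).2])
    _ = B * Fintype.card κ := by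
        rw [← Finset.sum_mul, Finset.sum_sub_distrib, h3]
        simp
        ring

theorem GSGood.step {ι κ : Type*} [DecidableEq ι] [Fintype κ] {y : ι → κ → ℝ} {A : Finset ι}
    (h : GSGood y A) (hA : Fintype.card κ < A.card) : ∃ a ∈ A, GSGood y (A.erase a) := by
  classical
  obtain ⟨lam, h1, h2, h3⟩ := h
  set D := Fintype.card κ with hD
  have hkD : (0 : ℝ) < (A.card : ℝ) - D := by
    have : (D : ℝ) < A.card := by exact_mod_cast hA
    linarith
  have hkD1 : (1 : ℝ) ≤ (A.card : ℝ) - D := by
    have : ((D + 1 : ℕ) : ℝ) ≤ A.card := by exact_mod_cast hA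
    push_cast at this
    linarith
  set s : ℝ := ((A.card : ℝ) - D - 1) / ((A.card : ℝ) - D) with hs
  have hs0 : 0 ≤ s := div_nonneg (by linarith) hkD.le
  have hs1 : s ≤ 1 := by rw [hs, div_le_one hkD]; linarith
  obtain ⟨mu, m1, m2, m3⟩ := exists_vertex A
    (fun (v : ι) (o : Option κ) => (o.elim 1 (fun i => y v i) : ℝ)) (fun v => s * lam v)
    (fun v hv => ⟨mul_nonneg hs0 (h1 v hv).1, by nlinarith [(h1 v hv).1, (h1 v hv).2]⟩)
  have hsum0 : ∀ i, ∑ v ∈ A, mu v * y v i = 0 := by
    intro i
    have := m2 (some i)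
    simp only [Option.elim_some] at this
    rw [this]
    have e : ∀ v ∈ A, s * lam v * y v i = s * (lam v * y v i) := fun v _ => by ring
    rw [Finset.sum_congr rfl e, ← Finset.mul_sum, h2 i, mul_zero]
  have hsum1 : ∑ v ∈ A, mu v = (A.card : ℝ) - D - 1 := by
    have := m2 none
    simp only [Option.elim_none, mul_one] at this
    rw [this, ← Finset.mul_sum, h3, hs]
    field_simp
  have hex : ∃ a ∈ A, mu a = 0 := by
    by_contra hcon
    push Not at hcon
    have hpos : ∀ v ∈ A, 0 < mu v := fun v hv => lt_of_le_of_ne (m1 v hv).1 (hcon v hv).symm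
    set F := A.filter (fun v => 0 < mu v ∧ mu v < 1) with hF
    have hFc : F.card ≤ D + 1 := by rw [hD]; simpa using m3
    have hone : ∀ v ∈ A.filter (fun v => ¬ (0 < mu v ∧ mu v < 1)), mu v = 1 := by
      intro v hv
      obtain ⟨hvA, hv'⟩ := Finset.mem_filter.1 hv
      by_contra hne
      exact hv' ⟨hpos v hvA, lt_of_le_of_ne (m1 v hvA).2 hne⟩
    have hsplit := Finset.sum_filter_add_sum_filter_not A (fun v => 0 < mu v ∧ mu v < 1) mu
    rw [Finset.sum_congr rfl hone, Finset.sum_const, nsmul_eq_mul, mul_one, hsum1] at hsplit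
    have hcards := Finset.card_filter_add_card_filter_not (s := A)
      (fun v => 0 < mu v ∧ mu v < 1)
    have hcards' : ((F.card : ℝ)) + ((A.filter (fun v => ¬ (0 < mu v ∧ mu v < 1))).card : ℝ) =
        A.card := by exact_mod_cast hcards
    rcases F.eq_empty_or_nonempty with hFe | hFne
    · rw [← hF, hFe] at hsplit
      rw [hFe] at hcards'
      simp only [Finset.sum_empty, Finset.card_empty, Nat.cast_zero, zero_add] at hsplit hcards'
      have : (0 : ℝ) ≤ D := by positivity
      linarith
    · have hFpos : 0 < ∑ v ∈ F, mu v :=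
        Finset.sum_pos (fun v hv => (Finset.mem_filter.1 hv).2.1) hFne
      have hFc' : (F.card : ℝ) ≤ D + 1 := by exact_mod_cast hFc
      rw [← hF] at hsplit
      linarith
  obtain ⟨a, haA, ha⟩ := hex
  refine ⟨a, haA, mu, fun v hv => m1 v (Finset.mem_of_mem_erase hv), fun i => ?_, ?_⟩
  · rw [← hsum0 i, ← Finset.sum_erase_add A _ haA, ha, zero_mul, add_zero]
  · rw [← Finset.sum_erase_add A _ haA, ha, add_zero] at hsum1
    rw [hsum1, Finset.card_erase_of_mem haA]
    have : 1 ≤ A.card := Finset.card_pos.2 ⟨a, haA⟩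
    push_cast [Nat.cast_sub this]
    ring

theorem gs_order {ι κ : Type*} [DecidableEq ι] [Fintype κ] (y : ι → κ → ℝ) (B : ℝ) (hB : 0 ≤ B)
    (n : ℕ) : ∀ A : Finset ι, A.card = n → (∀ v ∈ A, ∀ i, |y v i| ≤ B) →
      (A.card ≤ Fintype.card κ ∨ GSGood y A) →
      ∃ l : List ι, l.Nodup ∧ l.toFinset = A ∧
        ∀ k, ∀ i, |((l.take k).map (fun v => y v i)).sum| ≤ B * Fintype.card κ := by
  induction n with
  | zero =>
    intro A hA _ _
    rw [Finset.card_eq_zero] at hA
    subst hA
    refine ⟨[], List.nodup_nil, by simp, fun k i => ?_⟩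
    simp only [List.take_nil, List.map_nil, List.sum_nil, abs_zero]
    positivity
  | succ n ih =>
    intro A hA hy hgood
    have hsmall : ∀ l : List ι, l.Nodup → l.toFinset = A → A.card ≤ Fintype.card κ →
        ∀ k, ∀ i, |((l.take k).map (fun v => y v i)).sum| ≤ B * Fintype.card κ := by
      intro l hl hlA hc k i
      have hlen : l.length = A.card := by rw [← hlA, List.toFinset_card_of_nodup hl]
      have hbound : ∀ m : List ι, (∀ v ∈ m, v ∈ A) →
          |(m.map (fun v => y v i)).sum| ≤ B * m.length := by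
        intro m
        induction m with
        | nil => intro _; simp
        | cons a m ihm =>
          intro hm
          rw [List.map_cons, List.sum_cons]
          have h1 := hy a (hm a (by simp)) i
          have h2 := ihm (fun v hv => hm v (by simp [hv]))
          calc |y a i + (m.map (fun v => y v i)).sum| ≤ |y a i| + |(m.map (fun v => y v i)).sum| :=
                abs_add_le _ _
            _ ≤ B + B * m.length := add_le_add h1 h2
            _ = B * (a :: m).length := by push_cast [List.length_cons]; ring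
      refine (hbound (l.take k) ?_).trans ?_
      · intro v hv
        rw [← hlA, List.mem_toFinset]
        exact List.mem_of_mem_take hv
      · apply mul_le_mul_of_nonneg_left _ hB
        have h1 : (l.take k).length ≤ l.length := by rw [List.length_take]; omega
        exact_mod_cast (h1.trans (by omega))
    by_cases hc : A.card ≤ Fintype.card κ
    · exact ⟨A.toList, A.nodup_toList, A.toList_toFinset,
        hsmall A.toList A.nodup_toList A.toList_toFinset hc⟩
    · have hgood' : GSGood y A := hgood.resolve_left hc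
      obtain ⟨a, haA, hgA⟩ := hgood'.step (not_le.1 hc)
      obtain ⟨l, hl1, hl2, hl3⟩ := ih (A.erase a) (by rw [Finset.card_erase_of_mem haA]; omega)
        (fun v hv => hy v (Finset.mem_of_mem_erase hv)) (Or.inr hgA)
      have hal : a ∉ l := by
        intro h
        rw [← List.mem_toFinset, hl2] at h
        exact Finset.notMem_erase a A h
      have hnd : (l ++ [a]).Nodup := by
        rw [List.nodup_append]
        refine ⟨hl1, List.nodup_singleton a, ?_⟩
        intro b hb c hc
        rw [List.mem_singleton] at hc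
        subst hc
        rintro rfl
        exact hal hb
      have htf : (l ++ [a]).toFinset = A := by
        rw [List.toFinset_append, hl2]
        ext v
        simp only [Finset.mem_union, Finset.mem_erase, List.toFinset_cons, List.toFinset_nil,
          insert_empty_eq, Finset.mem_singleton]
        constructor
        · rintro (h | h)
          · exact h.2
          · rw [h]; exact haA
        · intro h
          by_cases hva : v = a
          · exact Or.inr hva
          · exact Or.inl ⟨hva, h⟩
      refine ⟨l ++ [a], hnd, htf, fun k i => ?_⟩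
      by_cases hk : k ≤ l.length
      · rw [List.take_append_of_le_length hk]
        exact hl3 k i
      · rw [List.take_of_length_le (by rw [List.length_append, List.length_singleton]; omega)]
        have hsumeq : ((l ++ [a]).map (fun v => y v i)).sum = ∑ v ∈ A, y v i := by
          rw [← htf, List.sum_toFinset _ hnd]
        rw [hsumeq]
        exact hgood'.sum_le hy i

theorem steinitz_order {ι κ : Type*} [DecidableEq ι] [Fintype κ] (G : Finset ι) (x : ι → κ → ℝ)
    (hx : ∀ v ∈ G, ∀ i, |x v i| ≤ 1) :
    ∃ l : List ι, l.Nodup ∧ l.toFinset = G ∧ ∀ k ≤ l.length, ∀ i,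
      |((l.take k).map (fun v => x v i)).sum - ((k : ℝ) / l.length) * ∑ v ∈ G, x v i| ≤
        2 * Fintype.card κ := by
  classical
  set m : κ → ℝ := fun i => (∑ v ∈ G, x v i) / G.card with hm
  rcases G.eq_empty_or_nonempty with hG | hG
  · subst hG
    refine ⟨[], List.nodup_nil, by simp, fun k _ i => ?_⟩
    simp
  have hGpos : (0 : ℝ) < G.card := by exact_mod_cast hG.card_pos
  have hmle : ∀ i, |m i| ≤ 1 := by
    intro i
    simp only [hm]
    rw [abs_div, abs_of_pos hGpos, div_le_one hGpos]
    calc |∑ v ∈ G, x v i| ≤ ∑ v ∈ G, |x v i| := Finset.abs_sum_le_sum_abs _ _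
      _ ≤ ∑ v ∈ G, (1 : ℝ) := Finset.sum_le_sum fun v hv => hx v hv i
      _ = G.card := by simp
  have hy : ∀ v ∈ G, ∀ i, |x v i - m i| ≤ 2 := by
    intro v hv i
    have h1 := abs_le.1 (hx v hv i)
    have h2 := abs_le.1 (hmle i)
    rw [abs_le]
    constructor <;> linarith
  have hgood : G.card ≤ Fintype.card κ ∨ GSGood (fun v i => x v i - m i) G := by
    by_cases hc : G.card ≤ Fintype.card κ
    · exact Or.inl hc
    · right
      have hc' : ((Fintype.card κ : ℕ) : ℝ) ≤ G.card := by exact_mod_cast (not_le.1 hc).le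
      refine ⟨fun _ => ((G.card : ℝ) - Fintype.card κ) / G.card, fun v _ => ⟨?_, ?_⟩,
        fun i => ?_, ?_⟩
      · exact div_nonneg (by linarith) hGpos.le
      · rw [div_le_one hGpos]
        have : (0 : ℝ) ≤ Fintype.card κ := by positivity
        linarith
      · rw [← Finset.mul_sum, Finset.sum_sub_distrib]
        simp only [hm, Finset.sum_const, nsmul_eq_mul]
        field_simp
        ring
      · rw [Finset.sum_const, nsmul_eq_mul]
        field_simp
  obtain ⟨l, hl1, hl2, hl3⟩ := gs_order (fun v i => x v i - m i) 2 (by norm_num) G.card G rfl hy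
    hgood
  refine ⟨l, hl1, hl2, fun k hk i => ?_⟩
  have hlen : l.length = G.card := by rw [← hl2, List.toFinset_card_of_nodup hl1]
  have h1 := hl3 k i
  have hsum : ∀ L : List ι, (L.map (fun v => x v i - m i)).sum =
      (L.map (fun v => x v i)).sum - L.length * m i := by
    intro L
    induction L with
    | nil => simp
    | cons a L ih => simp only [List.map_cons, List.sum_cons, ih, List.length_cons]; push_cast; ring
  rw [hsum, List.length_take, min_eq_left hk] at h1
  rw [hlen]
  have e : (k : ℝ) * m i = (k : ℝ) / G.card * ∑ v ∈ G, x v i := by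
    simp only [hm]
    ring
  rw [← e]
  exact h1

end Vale.Agent.P262
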