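import Vale.Agent.P262.Halving
import Vale.Agent.P262.Inv
import Vale.Agent.P262.Steinitz

set_option linter.unusedSectionVars false
set_option linter.unusedVariables false

namespace Vale.Agent.P262

open Finset Real

variable {ι : Type*} [DecidableEq ι] {d : ℕ}

theorem UU_eq (n ω : ℝ) (q : Fin d → ℝ) : UU n ω q = (FF n ω q)ᶜ := by
  ext i
  simp [UU, FF]

theorem mem_UU {n ω : ℝ} {q : Fin d → ℝ} {i : Fin d} : i ∈ UU n ω q ↔ ω * q i < kap n := by
  simp [UU]

theorem mem_FF {n ω : ℝ} {q : Fin d → ℝ} {i : Fin d} : i ∈ FF n ω q ↔ kap n ≤ ω * q i := by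
  simp [FF]

theorem nsq_sdiff {U U' : Finset (Fin d)} (h : U ⊆ U') (X : Fin d → ℝ) :
    nsq U' X = nsq (U' \ U) X + nsq U X := (Finset.sum_sdiff h).symm

theorem hh_sdiff (v : ι → Fin d → ℝ) {U U' : Finset (Fin d)} (h : U ⊆ U') (G : Finset ι) :
    hh v U' G = hh v (U' \ U) G + hh v U G := (Finset.sum_sdiff h).symm

theorem sqrt_scale {T a : ℝ} (hT : 1 ≤ T) : √(1 + a) ≤ √T * √(1 + a / T) := by
  rw [← Real.sqrt_mul (by linarith)]
  apply Real.sqrt_le_sqrt
  have : T * (1 + a / T) = T + a := by field_simp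
  rw [this]
  linarith

section Child

variable {n : ℝ} (hn : 10 ^ 6 ≤ n)
include hn

/-- the third invariant of a child, if at least one new coordinate became slow -/
theorem gap_i3_child {v : ι → Fin d → ℝ} {U U' : Finset (Fin d)} {G N : Finset ι} (hUU' : U ⊆ U')
    (hne : (U' \ U).Nonempty) (hNG : N ⊆ G) {X : Fin d → ℝ}
    (hX : nsq U X ≤ bb n * U.card - cc * hh v U G + 1) (hX' : ∀ i ∈ U' \ U, |X i| ≤ ell n)
    (hq : ∀ i ∈ U' \ U, QQ v N i i ≤ 2 * kap n) :
    nsq U' X ≤ bb n * U'.card - cc * hh v U' N := by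
  have h1 : nsq (U' \ U) X ≤ (U' \ U).card * ell n ^ 2 := by
    unfold nsq
    calc ∑ i ∈ U' \ U, X i ^ 2 ≤ ∑ i ∈ U' \ U, ell n ^ 2 := by
          refine Finset.sum_le_sum fun i hi => ?_
          rw [← sq_abs]
          exact pow_le_pow_left₀ (abs_nonneg _) (hX' i hi) 2
      _ = (U' \ U).card * ell n ^ 2 := by rw [Finset.sum_const, nsmul_eq_mul]
  have h2 : hh v (U' \ U) N ≤ (U' \ U).card * log (1 + 2 * kap n) := by
    unfold hh
    calc ∑ i ∈ U' \ U, log (1 + QQ v N i i) ≤ ∑ i ∈ U' \ U, log (1 + 2 * kap n) := by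
          refine Finset.sum_le_sum fun i hi => ?_
          apply Real.log_le_log (by linarith [QQ_nonneg v N i])
          linarith [hq i hi]
      _ = (U' \ U).card * log (1 + 2 * kap n) := by rw [Finset.sum_const, nsmul_eq_mul]
  have h3 : hh v U N ≤ hh v U G := hh_mono v U hNG
  have h4 : (1 : ℝ) ≤ (U' \ U).card := by exact_mod_cast hne.card_pos
  have h5 := bb_ge hn
  have h6 : (U'.card : ℝ) = (U' \ U).card + U.card := by
    have := Finset.card_sdiff_add_card_eq_card hUU'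
    exact_mod_cast this.symm
  rw [nsq_sdiff hUU', hh_sdiff v hUU', h6]
  have hcc : (0 : ℝ) ≤ cc := by unfold cc; norm_num
  have h7 : ((U' \ U).card : ℝ) * (ell n ^ 2 + cc * log (1 + 2 * kap n) + 1) ≤
      (U' \ U).card * bb n := mul_le_mul_of_nonneg_left h5 (by linarith)
  have h8 : cc * hh v (U' \ U) N ≤ cc * ((U' \ U).card * log (1 + 2 * kap n)) :=
    mul_le_mul_of_nonneg_left h2 hcc
  have h9 : cc * hh v U N ≤ cc * hh v U G := mul_le_mul_of_nonneg_left h3 hcc
  nlinarith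

theorem gap_sqrt_kap_le : n ^ 3 * √(1 + kap n) ≤ kap n := by
  have h1 := one_le_n hn
  have h2 : 1 + kap n ≤ (2 * n ^ 50) ^ 2 := by
    unfold kap
    have h3 : (1 : ℝ) ≤ n ^ 100 := one_le_pow₀ h1
    have h4 : (2 * n ^ 50) ^ 2 = 4 * n ^ 100 := by ring
    rw [h4]; linarith
  have h3 : √(1 + kap n) ≤ 2 * n ^ 50 := by
    rw [Real.sqrt_le_left (by positivity)]
    exact h2
  calc n ^ 3 * √(1 + kap n) ≤ n ^ 3 * (2 * n ^ 50) := mul_le_mul_of_nonneg_left h3 (by positivity)
    _ = 2 * n ^ 53 := by ring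
    _ ≤ n * n ^ 53 := by
        apply mul_le_mul_of_nonneg_right _ (by positivity)
        linarith [show (2 : ℝ) ≤ 10 ^ 6 by norm_num]
    _ = n ^ 54 := by ring
    _ ≤ kap n := by unfold kap; exact pow_le_pow_right₀ h1 (by norm_num)

theorem QQ_le_two_kap {v : ι → Fin d → ℝ} {N : Finset ι} {ω : ℝ} {q : Fin d → ℝ}
    (h1 : ∀ i j, |QQ v N i j - (if i = j then ω * q i else 0)| ≤ n ^ 3 * √(1 + ω * q i))
    {i : Fin d} (hi : i ∈ UU n ω q) : QQ v N i i ≤ 2 * kap n := by
  have h2 := h1 i i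
  rw [if_pos rfl, abs_le] at h2
  have h3 := mem_UU.1 hi
  have h4 : √(1 + ω * q i) ≤ √(1 + kap n) := Real.sqrt_le_sqrt (by linarith)
  have h5 : n ^ 3 * √(1 + ω * q i) ≤ n ^ 3 * √(1 + kap n) :=
    mul_le_mul_of_nonneg_left h4 (by have := n_pos hn; positivity)
  have h6 := gap_sqrt_kap_le hn
  linarith [h2.2]

/-- the invariant for a child of scale at most `ω / 2` in the small leverage case -/
theorem gap_inv_child {v : ι → Fin d → ℝ} {q : Fin d → ℝ} {G N : Finset ι} {ω ω' : ℝ}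
    {P' : Fin d → ℝ} (hNG : N ⊆ G) (hω' : 0 < ω') (hωω' : ω' ≤ ω)
    (hI1 : ∀ i j, |QQ v N i j - (if i = j then ω' * q i else 0)| ≤ n ^ 3 * √(1 + ω' * q i))
    (hstar : ∃ i, i ∈ FF n ω q ∧ i ∈ UU n ω' q)
    (hP : ∀ i ∈ FF n ω q, |P' i| ≤ ell n) (hE : ∀ i ∈ FF n ω q, |P' i + SS v N i| ≤ ell n)
    (hP3 : nsq (UU n ω q) P' ≤ bb n * (UU n ω q).card - cc * hh v (UU n ω q) G + 1)
    (hE3 : nsq (UU n ω q) (fun i => P' i + SS v N i) ≤
      bb n * (UU n ω q).card - cc * hh v (UU n ω q) G + 1) : Inv n v q N ω' P' := by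
  have hk := kap_pos hn
  have hFF : FF n ω' q ⊆ FF n ω q := by
    intro i hi
    rw [mem_FF] at hi ⊢
    have hq : 0 < q i := by
      by_contra hcon
      push Not at hcon
      have : ω' * q i ≤ 0 := mul_nonpos_of_nonneg_of_nonpos hω'.le hcon
      linarith
    have : ω' * q i ≤ ω * q i := mul_le_mul_of_nonneg_right hωω' hq.le
    linarith
  have hUU : UU n ω q ⊆ UU n ω' q := by
    rw [UU_eq, UU_eq]
    exact Finset.compl_subset_compl.2 hFF
  have hsd : ∀ i ∈ UU n ω' q \ UU n ω q, i ∈ FF n ω q := by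
    intro i hi
    rw [Finset.mem_sdiff, UU_eq n ω, Finset.mem_compl, not_not] at hi
    exact hi.2
  have hne : (UU n ω' q \ UU n ω q).Nonempty := by
    obtain ⟨i, hi1, hi2⟩ := hstar
    refine ⟨i, ?_⟩
    rw [Finset.mem_sdiff, UU_eq n ω, Finset.mem_compl, not_not]
    exact ⟨hi2, hi1⟩
  have hq2 : ∀ i ∈ UU n ω' q \ UU n ω q, QQ v N i i ≤ 2 * kap n := fun i hi =>
    QQ_le_two_kap hn hI1 (Finset.mem_sdiff.1 hi).1
  exact ⟨hω', hI1, fun i hi => hP i (hFF hi), fun i hi => hE i (hFF hi),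
    gap_i3_child hn hUU hne hNG hP3 (fun i hi => hP i (hsd i hi)) hq2,
    gap_i3_child hn hUU hne hNG hE3 (fun i hi => hE i (hsd i hi)) hq2⟩

/-- a child of scale at most `ω / 2` is a proper subfamily, if there is a fast coordinate -/
theorem gap_ne_child {v : ι → Fin d → ℝ} {q : Fin d → ℝ} {G N : Finset ι} {ω ω' : ℝ}
    (hωω' : ω' ≤ ω / 2) (hG : ∀ i j, |QQ v G i j - (if i = j then ω * q i else 0)| ≤
      n ^ 3 * √(1 + ω * q i)) (hω : 0 < ω)
    (hI1 : ∀ i j, |QQ v N i j - (if i = j then ω' * q i else 0)| ≤ n ^ 3 * √(1 + ω' * q i))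
    (hstar : ∃ i, i ∈ FF n ω q) : N ≠ G := by
  rintro rfl
  obtain ⟨i, hi⟩ := hstar
  rw [mem_FF] at hi
  have hk := kap_pos hn
  have hn0 := n_pos hn
  have h1 := abs_le.1 (hG i i)
  have h2 := abs_le.1 (hI1 i i)
  rw [if_pos rfl] at h1 h2
  have hq : 0 < q i := by
    by_contra hcon
    push Not at hcon
    have : ω * q i ≤ 0 := mul_nonpos_of_nonneg_of_nonpos hω.le hcon
    linarith
  have h3 : ω' * q i ≤ ω * q i / 2 := by nlinarith
  set z := ω * q i with hz
  have h4 : √(1 + ω' * q i) ≤ √(1 + z) := Real.sqrt_le_sqrt (by linarith)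
  have h5 : n ^ 3 * √(1 + ω' * q i) ≤ n ^ 3 * √(1 + z) :=
    mul_le_mul_of_nonneg_left h4 (by positivity)
  have h6 : z / 2 ≤ 2 * (n ^ 3 * √(1 + z)) := by linarith [h1.1, h2.2]
  have hz1 : 1 ≤ z := by
    have : (1 : ℝ) ≤ kap n := by unfold kap; exact one_le_pow₀ (one_le_n hn)
    linarith
  have h7 : √(1 + z) ≤ 2 * √z := by
    clear_value z
    apply Real.sqrt_le_iff.mpr
    refine ⟨by positivity, ?_⟩
    rw [mul_pow, Real.sq_sqrt (by linarith)]
    linarith
  have h8 : √z * √z = z := Real.mul_self_sqrt (by linarith)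
  have hsz : 0 < √z := Real.sqrt_pos.2 (by linarith)
  have h9 : √z ≤ 8 * n ^ 3 := by
    have h10 : z / 2 ≤ 4 * n ^ 3 * √z := by
      calc z / 2 ≤ 2 * (n ^ 3 * √(1 + z)) := h6
        _ ≤ 2 * (n ^ 3 * (2 * √z)) := by
            apply mul_le_mul_of_nonneg_left _ (by norm_num)
            exact mul_le_mul_of_nonneg_left h7 (by positivity)
        _ = 4 * n ^ 3 * √z := by ring
    have h11 : √z * √z ≤ (8 * n ^ 3) * √z := by rw [h8]; linarith
    exact le_of_mul_le_mul_right h11 hsz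
  have h12 : n ^ 50 ≤ √z := by
    apply Real.le_sqrt_of_sq_le
    calc (n ^ 50) ^ 2 = kap n := by unfold kap; ring
      _ ≤ z := hi
  have h13 : 8 * n ^ 3 < n ^ 50 := by
    calc 8 * n ^ 3 < n * n ^ 3 := by
          apply mul_lt_mul_of_pos_right _ (by positivity)
          linarith [show (8 : ℝ) < 10 ^ 6 by norm_num]
      _ = n ^ 4 := by ring
      _ ≤ n ^ 50 := pow_le_pow_right₀ (one_le_n hn) (by norm_num)
  linarith

end Child


/-! ### Case C1: no fast coordinate -/

theorem small_coord {n : ℝ} (hn : 10 ^ 6 ≤ n) {v : ι → Fin d → ℝ} {G : Finset ι}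
    {U : Finset (Fin d)} (hL : Lam v U G < eta n) {z : ι} (hz : z ∈ G) {i : Fin d} (hi : i ∈ U) :
    |v z i| ≤ 2 / n ^ 15 := by
  have hn0 := n_pos hn
  have h1 : Lam v U G < 1 / 2 := by
    have := eta_le hn
    linarith [show (1 : ℝ) / 10 ^ 6 < 1 / 2 by norm_num]
  have h2 := nsq_le_lev v h1 z
  have h3 : lev v U G z ≤ Lam v U G := by
    rw [← sum_lev v U G]
    exact Finset.single_le_sum (f := fun x => lev v U G x) (fun x _ => lev_nonneg v U G x) hz
  have h4 : v z i ^ 2 ≤ nsq U (v z) :=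
    Finset.single_le_sum (f := fun i => v z i ^ 2) (fun i _ => sq_nonneg _) hi
  have h5 : v z i ^ 2 ≤ (2 / n ^ 15) ^ 2 := by
    have e : (2 / n ^ 15) ^ 2 = 4 * eta n := by unfold eta; field_simp; ring
    rw [e]
    have := eta_pos hn
    linarith
  exact abs_le_of_sq_le_sq h5 (by positivity)

/-- ordering of `G` in which prefix sums and prefix second moments grow linearly -/
theorem gap_cut {v : ι → Fin d → ℝ} {G : Finset ι}
    (hv : ∀ x ∈ G, ∑ i, v x i ^ 2 ≤ 1) (U : Finset (Fin d)) {s : ℝ} (hs : 0 < s)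
    (hsmall : ∀ z ∈ G, ∀ i ∈ U, |v z i| ≤ s) :
    ∃ l : List ι, l.Nodup ∧ l.toFinset = G ∧ ∀ k ≤ l.length,
      (∀ i, |SS v (l.take k).toFinset i - (k : ℝ) / l.length * SS v G i| ≤
        2 * (d + d * d) * (if i ∈ U then s else 1)) ∧
      (∀ i j, |QQ v (l.take k).toFinset i j - (k : ℝ) / l.length * QQ v G i j| ≤
        2 * (d + d * d)) := by
  obtain ⟨l, hl1, hl2, hl3⟩ := steinitz_order (κ := Fin d ⊕ (Fin d × Fin d)) G
    (fun z => Sum.elim (fun i => v z i / (if i ∈ U then s else 1))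
      (fun p => v z p.1 * v z p.2)) (by
      intro z hz i
      rcases i with i | p
      · simp only [Sum.elim_inl]
        split_ifs with h
        · rw [abs_div, abs_of_pos hs, div_le_one hs]
          exact hsmall z hz i h
        · rw [div_one]
          exact abs_v_le v hv hz i
      · simp only [Sum.elim_inr]
        exact abs_vv_le v hv hz p.1 p.2)
  have hcard : ((Fintype.card (Fin d ⊕ (Fin d × Fin d)) : ℕ) : ℝ) = d + d * d := by
    simp
  refine ⟨l, hl1, hl2, fun k hk => ⟨fun i => ?_, fun i j => ?_⟩⟩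
  · have h1 := hl3 k hk (Sum.inl i)
    rw [hcard] at h1
    simp only [Sum.elim_inl] at h1
    set c : ℝ := if i ∈ U then s else 1 with hc
    have hcpos : 0 < c := by rw [hc]; split_ifs <;> [exact hs; norm_num]
    have e1 : ((l.take k).map (fun z => v z i / c)).sum = SS v (l.take k).toFinset i / c := by
      rw [← sum_map_eq (hl1.sublist (List.take_sublist k l))]
      simp only [div_eq_mul_inv]
      rw [List.sum_map_mul_right]
    have e2 : ∑ z ∈ G, v z i / c = SS v G i / c := (Finset.sum_div _ _ _).symm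
    rw [e1, e2] at h1
    have e3 : SS v (l.take k).toFinset i / c - (k : ℝ) / l.length * (SS v G i / c) =
        (SS v (l.take k).toFinset i - (k : ℝ) / l.length * SS v G i) / c := by ring
    rw [e3, abs_div, abs_of_pos hcpos, div_le_iff₀ hcpos] at h1
    exact h1
  · have h1 := hl3 k hk (Sum.inr (i, j))
    rw [hcard] at h1
    simp only [Sum.elim_inr] at h1
    have e1 : ((l.take k).map (fun z => v z i * v z j)).sum = QQ v (l.take k).toFinset i j := by
      unfold QQ
      exact (List.sum_toFinset _ (hl1.sublist (List.take_sublist k l))).symm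
    rw [e1] at h1
    exact h1

theorem caseC1 {n : ℝ} (hn : 10 ^ 6 ≤ n) (hd : (d:ℝ) ≤ n) {v : ι → Fin d → ℝ} {G : Finset ι}
    (hv : ∀ x ∈ G, ∑ i, v x i ^ 2 ≤ 1) {q : Fin d → ℝ} (hq : ∀ i, 0 ≤ q i) {ω : ℝ}
    {P : Fin d → ℝ} (h : Inv n v q G ω P) (hL : Lam v (UU n ω q) G < eta n)
    (hF : FF n ω q = ∅) : Ord v G P (RR n d) := by
  have hn0 := n_pos hn
  have hU : UU n ω q = univ := by rw [UU_eq, hF, Finset.compl_empty]
  set s : ℝ := 2 / n ^ 15 with hs
  have hspos : 0 < s := by positivity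
  obtain ⟨l, hl1, hl2, hl3⟩ := gap_cut hv univ hspos
    (fun z hz i hi => small_coord hn hL hz (by rw [hU]; exact hi))
  have hPn : ∑ i, P i ^ 2 ≤ bb n * d := inv_norm hn h.i2P h.i3P
  have hEn : ∑ i, (P i + SS v G i) ^ 2 ≤ bb n * d := inv_norm hn h.i2E h.i3E
  refine ⟨l, hl1, hl2, fun k => ?_⟩
  have hred : l.take k = l.take (min k l.length) := by
    rcases le_total k l.length with h | h
    · rw [min_eq_left h]
    · rw [min_eq_right h, List.take_of_length_le h, List.take_of_length_le le_rfl]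
  rw [hred]
  set k' := min k l.length with hk'
  have hk'l : k' ≤ l.length := min_le_right _ _
  obtain ⟨h1, -⟩ := hl3 k' hk'l
  set θ : ℝ := (k' : ℝ) / l.length with hθ
  have hθ0 : 0 ≤ θ := by positivity
  have hθ1 : θ ≤ 1 := by
    rw [hθ]
    apply div_le_one_of_le₀ _ (by positivity)
    exact_mod_cast hk'l
  have hsum : ∀ i, ((l.take k').map fun a => v a i).sum = SS v (l.take k').toFinset i := fun i =>
    sum_map_eq (hl1.sublist (List.take_sublist k' l)) i
  simp only [hsum]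
  set ε : ℝ := 2 * (d + d * d) * s with hε
  have hterm : ∀ i, (P i + SS v (l.take k').toFinset i) ^ 2 ≤
      2 * ((1 - θ) * P i ^ 2 + θ * (P i + SS v G i) ^ 2) + 2 * ε ^ 2 := by
    intro i
    have h2 := h1 i
    rw [if_pos (Finset.mem_univ i), ← hε] at h2
    set D := SS v (l.take k').toFinset i - θ * SS v G i with hD
    have h3 : D ^ 2 ≤ ε ^ 2 := by
      rw [← sq_abs D]
      exact pow_le_pow_left₀ (abs_nonneg _) h2 2
    have h4 : P i + SS v (l.take k').toFinset i = (P i + θ * SS v G i) + D := by rw [hD]; ring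
    rw [h4]
    have h5 : (P i + θ * SS v G i) ^ 2 ≤ (1 - θ) * P i ^ 2 + θ * (P i + SS v G i) ^ 2 := by
      nlinarith [mul_nonneg (mul_nonneg hθ0 (sub_nonneg.2 hθ1)) (sq_nonneg (SS v G i))]
    nlinarith [sq_nonneg ((P i + θ * SS v G i) - D)]
  calc ∑ i, (P i + SS v (l.take k').toFinset i) ^ 2
      ≤ ∑ i, (2 * ((1 - θ) * P i ^ 2 + θ * (P i + SS v G i) ^ 2) + 2 * ε ^ 2) :=
        Finset.sum_le_sum fun i _ => hterm i
    _ = 2 * ((1 - θ) * ∑ i, P i ^ 2 + θ * ∑ i, (P i + SS v G i) ^ 2) + d * (2 * ε ^ 2) := by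
        rw [Finset.sum_add_distrib, ← Finset.mul_sum, Finset.sum_add_distrib, ← Finset.mul_sum,
          ← Finset.mul_sum, Finset.sum_const, Finset.card_univ, Fintype.card_fin, nsmul_eq_mul]
    _ ≤ RR n d := by
        unfold RR
        have h6 : (1 - θ) * ∑ i, P i ^ 2 + θ * ∑ i, (P i + SS v G i) ^ 2 ≤ bb n * d := by
          have a1 := mul_le_mul_of_nonneg_left hPn (sub_nonneg.2 hθ1)
          have a2 := mul_le_mul_of_nonneg_left hEn hθ0
          linarith
        have hd0 : (0 : ℝ) ≤ d := Nat.cast_nonneg d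
        have h7 : ε ≤ 8 / n ^ 13 := by
          have a1 : 2 * ((d : ℝ) + d * d) ≤ 4 * n ^ 2 := by
            have := one_le_n hn
            nlinarith
          calc ε ≤ 4 * n ^ 2 * s := mul_le_mul_of_nonneg_right a1 hspos.le
            _ = 8 / n ^ 13 := by rw [hs]; field_simp; ring
        have hε0 : 0 ≤ ε := by rw [hε]; positivity
        have h8 : (d : ℝ) * (2 * ε ^ 2) ≤ 2 := by
          have a1 : ε ^ 2 ≤ (8 / n ^ 13) ^ 2 := pow_le_pow_left₀ hε0 h7 2
          calc (d : ℝ) * (2 * ε ^ 2) ≤ n * (2 * (8 / n ^ 13) ^ 2) := by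
                apply mul_le_mul hd _ (by positivity) hn0.le
                linarith
            _ = 128 / n ^ 25 := by field_simp; ring
            _ ≤ 2 := by
                rw [div_le_iff₀ (by positivity)]
                have a2 : n ≤ n ^ 25 := by
                  calc n = n ^ 1 := (pow_one n).symm
                    _ ≤ n ^ 25 := pow_le_pow_right₀ (one_le_n hn) (by norm_num)
                linarith [show (128 : ℝ) ≤ 10 ^ 6 by norm_num]
        linarith

/-! ### Case C2: jump over a gap -/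

/-- cut `G` in `T` blocks `B (t + 1) \ B t` of equal size -/
theorem gap_blocks {n : ℝ} (hn : 10 ^ 6 ≤ n) (hd : (d:ℝ) ≤ n) {v : ι → Fin d → ℝ}
    {G : Finset ι} (hv : ∀ x ∈ G, ∑ i, v x i ^ 2 ≤ 1) (U : Finset (Fin d)) {s : ℝ} (hs : 0 < s)
    (hsmall : ∀ z ∈ G, ∀ i ∈ U, |v z i| ≤ s) {T : ℕ} (hT : 0 < T) :
    ∃ B : ℕ → Finset ι, B 0 = ∅ ∧ B T = G ∧ (∀ t, B t ⊆ B (t + 1)) ∧ ∀ t ≤ T, B t ⊆ G ∧
      (∀ i, |SS v (B t) i - (t : ℝ) / T * SS v G i| ≤ 3 * n ^ 2 * (if i ∈ U then s else 1)) ∧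
      (∀ i j, |QQ v (B t) i j - (t : ℝ) / T * QQ v G i j| ≤ 3 * n ^ 2) := by
  obtain ⟨l, hl1, hl2, hl3⟩ := gap_cut hv U hs hsmall
  set N := l.length with hN
  have hNG : N = G.card := by rw [← hl2, List.toFinset_card_of_nodup hl1]
  have hTr : (0 : ℝ) < T := by exact_mod_cast hT
  refine ⟨fun t => (l.take (t * N / T)).toFinset, by simp, ?_, ?_, ?_⟩
  · have : T * N / T = N := Nat.mul_div_cancel_left N hT
    change (l.take (T * N / T)).toFinset = G
    rw [this, hN, List.take_length]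
    exact hl2
  · intro t z hz
    simp only [List.mem_toFinset] at hz ⊢
    have : t * N / T ≤ (t + 1) * N / T := by
      apply Nat.div_le_div_right
      apply Nat.mul_le_mul_right
      omega
    exact (List.take_sublist_take_left this).subset hz
  · intro t ht
    set k := t * N / T with hk
    have hkN : k ≤ N := by
      calc k ≤ T * N / T := Nat.div_le_div_right (Nat.mul_le_mul_right N ht)
        _ = N := Nat.mul_div_cancel_left N hT
    obtain ⟨h1, h2⟩ := hl3 k hkN
    have hsub : (l.take k).toFinset ⊆ G := by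
      rw [← hl2]
      intro z hz
      rw [List.mem_toFinset] at hz ⊢
      exact List.mem_of_mem_take hz
    -- `|k / N - t / T| * N ≤ 1`
    have hfrac : ∀ a : ℝ, |a| ≤ N → |((k : ℝ) / N - (t : ℝ) / T) * a| ≤ 1 := by
      intro a ha
      rcases Nat.eq_zero_or_pos N with h0 | h0
      · rw [h0] at ha
        have : a = 0 := by
          rw [Nat.cast_zero] at ha
          exact abs_eq_zero.1 (le_antisymm ha (abs_nonneg a))
        rw [this]; simp
      · have hNr : (0 : ℝ) < N := by exact_mod_cast h0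
        have hk1 : (k : ℝ) * T ≤ t * N := by
          have : k * T ≤ t * N := Nat.div_mul_le_self _ _
          exact_mod_cast this
        have hk2 : (t : ℝ) * N < (k + 1) * T := by
          have : t * N < (k + 1) * T := by
            exact (Nat.div_lt_iff_lt_mul hT).1 (Nat.lt_succ_self k)
          exact_mod_cast this
        have h3 : |(k : ℝ) / N - (t : ℝ) / T| ≤ 1 / N := by
          have e : (k : ℝ) / N - (t : ℝ) / T = (k * T - t * N) / (N * T) := by field_simp
          rw [e, abs_le]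
          constructor
          · rw [neg_le, ← neg_div, div_le_div_iff₀ (by positivity) hNr]
            nlinarith
          · rw [div_le_div_iff₀ (by positivity) hNr]
            nlinarith
        rw [abs_mul]
        calc |(k : ℝ) / N - (t : ℝ) / T| * |a| ≤ 1 / N * N :=
              mul_le_mul h3 ha (abs_nonneg _) (by positivity)
          _ = 1 := by field_simp
    have hDn : 2 * ((d : ℝ) + d * d) + 1 ≤ 3 * n ^ 2 := by
      have h4 := one_le_n hn
      have hd0 : (0 : ℝ) ≤ d := Nat.cast_nonneg d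
      have h5 : (d : ℝ) * d ≤ n * n := mul_le_mul hd hd hd0 (by linarith)
      nlinarith
    refine ⟨hsub, fun i => ?_, fun i j => ?_⟩
    · set c : ℝ := if i ∈ U then s else 1 with hc
      have hcpos : 0 < c := by rw [hc]; split_ifs <;> [exact hs; norm_num]
      have h3 : |SS v G i / c| ≤ N := by
        rw [abs_div, abs_of_pos hcpos, div_le_iff₀ hcpos]
        unfold SS
        refine (Finset.abs_sum_le_sum_abs _ _).trans ?_
        calc ∑ z ∈ G, |v z i| ≤ ∑ z ∈ G, c := by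
              refine Finset.sum_le_sum fun z hz => ?_
              rw [hc]
              split_ifs with hi
              · exact hsmall z hz i hi
              · exact abs_v_le v hv hz i
          _ = N * c := by rw [Finset.sum_const, nsmul_eq_mul, hNG]
      have h4 := hfrac _ h3
      have h5 : |((k : ℝ) / N - (t : ℝ) / T) * SS v G i| ≤ c := by
        have e : ((k : ℝ) / N - (t : ℝ) / T) * (SS v G i / c) =
            (((k : ℝ) / N - (t : ℝ) / T) * SS v G i) / c := by ring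
        rw [e, abs_div, abs_of_pos hcpos, div_le_iff₀ hcpos, one_mul] at h4
        exact h4
      have e : SS v (l.take k).toFinset i - (t : ℝ) / T * SS v G i =
          (SS v (l.take k).toFinset i - (k : ℝ) / N * SS v G i) +
            ((k : ℝ) / N - (t : ℝ) / T) * SS v G i := by ring
      rw [e]
      refine (abs_add_le _ _).trans ?_
      calc |SS v (l.take k).toFinset i - (k : ℝ) / N * SS v G i| +
            |((k : ℝ) / N - (t : ℝ) / T) * SS v G i| ≤ 2 * (d + d * d) * c + c :=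
            add_le_add (h1 i) h5
        _ = (2 * (d + d * d) + 1) * c := by ring
        _ ≤ 3 * n ^ 2 * c := mul_le_mul_of_nonneg_right hDn hcpos.le
    · have h3 : |QQ v G i j| ≤ N := by
        rw [hNG]
        exact abs_QQ_le v hv (Finset.Subset.refl G) i j
      have h4 := hfrac _ h3
      have e : QQ v (l.take k).toFinset i j - (t : ℝ) / T * QQ v G i j =
          (QQ v (l.take k).toFinset i j - (k : ℝ) / N * QQ v G i j) +
            ((k : ℝ) / N - (t : ℝ) / T) * QQ v G i j := by ring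
      rw [e]
      refine (abs_add_le _ _).trans ?_
      linarith [h2 i j]

/-- the number of blocks -/
theorem gap_T {n ω : ℝ} (hn : 10 ^ 6 ≤ n) {q : Fin d → ℝ} (hq : ∀ i, 0 ≤ q i) (hω : 0 < ω)
    (hF : (FF n ω q).Nonempty) : ∃ T : ℕ, 2 ≤ T ∧ (∃ i, i ∈ FF n ω q ∧ i ∈ UU n (ω / T) q) ∧
      ∀ i ∈ FF n ω q, kap n / 2 ≤ ω / T * q i := by
  obtain ⟨i0, hi0, hmin⟩ := Finset.exists_min_image (FF n ω q) q hF
  have hk := kap_pos hn
  set T := ⌊ω * q i0 / kap n⌋₊ + 1 with hT
  have h1 : kap n ≤ ω * q i0 := mem_FF.1 hi0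
  have h2 : 1 ≤ ω * q i0 / kap n := by rw [le_div_iff₀ hk]; linarith
  have h3 : 1 ≤ ⌊ω * q i0 / kap n⌋₊ := by
    rw [Nat.one_le_floor_iff]
    exact h2
  have h4 : ω * q i0 / kap n < T := by
    rw [hT]; push_cast
    exact Nat.lt_floor_add_one _
  have h5 : (T : ℝ) ≤ 2 * (ω * q i0 / kap n) := by
    have : ((⌊ω * q i0 / kap n⌋₊ : ℕ) : ℝ) ≤ ω * q i0 / kap n := Nat.floor_le (by linarith)
    rw [hT]; push_cast
    linarith
  have hTpos : (0 : ℝ) < T := by rw [hT]; positivity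
  refine ⟨T, by omega, ⟨i0, hi0, ?_⟩, fun i hi => ?_⟩
  · rw [mem_UU]
    rw [div_lt_iff₀ hk] at h4
    rw [div_mul_eq_mul_div, div_lt_iff₀ hTpos]
    linarith
  · have h6 := hmin i hi
    have h7 : ω * q i0 ≤ ω * q i := mul_le_mul_of_nonneg_left h6 hω.le
    rw [div_mul_eq_mul_div, le_div_iff₀ hTpos]
    have h8 : (T : ℝ) * kap n ≤ 2 * (ω * q i0) := by
      have := mul_le_mul_of_nonneg_right h5 hk.le
      have e : 2 * (ω * q i0 / kap n) * kap n = 2 * (ω * q i0) := by field_simp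
      linarith
    linarith

/-- second moments of a node of relative scale `1 / S`, `S ≥ 2` -/
theorem gap_i1 {n : ℝ} (hn : 10 ^ 6 ≤ n) {v : ι → Fin d → ℝ} {q : Fin d → ℝ} (hq : ∀ i, 0 ≤ q i)
    {G N : Finset ι} {ω S : ℝ} (hω : 0 < ω) (hS : 2 ≤ S)
    (hG : ∀ i j, |QQ v G i j - (if i = j then ω * q i else 0)| ≤ n ^ 3 * √(1 + ω * q i))
    (hN : ∀ i j, |QQ v N i j - QQ v G i j / S| ≤ 30 * n ^ 2 * √(1 + ω / S * q i)) (i j : Fin d) :
    |QQ v N i j - (if i = j then ω / S * q i else 0)| ≤ n ^ 3 * √(1 + ω / S * q i) := by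
  have hn0 := n_pos hn
  have h1 := hG i j
  have h2 := hN i j
  have hS0 : (0 : ℝ) < S := by linarith
  have hz : 0 ≤ ω * q i := mul_nonneg hω.le (hq i)
  have e : QQ v N i j - (if i = j then ω / S * q i else 0) =
      (QQ v N i j - QQ v G i j / S) + (QQ v G i j - (if i = j then ω * q i else 0)) / S := by
    split_ifs <;> ring
  rw [e]
  refine (abs_add_le _ _).trans ?_
  rw [abs_div, abs_of_pos hS0]
  -- `√(1 + z) / S ≤ (3 / 4) √(1 + z / S)`
  have h3 : √(1 + ω * q i) ≤ 3 / 4 * S * √(1 + ω / S * q i) := by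
    have hz' : 0 ≤ ω / S * q i := by
      rw [div_mul_eq_mul_div]; positivity
    apply Real.sqrt_le_iff.mpr
    refine ⟨by positivity, ?_⟩
    rw [mul_pow, Real.sq_sqrt (by linarith)]
    have e2 : ω * q i = S * (ω / S * q i) := by field_simp
    rw [e2]
    nlinarith [mul_nonneg (by linarith : (0 : ℝ) ≤ S - 2) hz',
      mul_nonneg (mul_nonneg (by linarith : (0 : ℝ) ≤ S - 2) hS0.le) hz']
  have h4 : |QQ v G i j - (if i = j then ω * q i else 0)| / S ≤
      3 / 4 * n ^ 3 * √(1 + ω / S * q i) := by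
    rw [div_le_iff₀ hS0]
    calc |QQ v G i j - (if i = j then ω * q i else 0)| ≤ n ^ 3 * √(1 + ω * q i) := h1
      _ ≤ n ^ 3 * (3 / 4 * S * √(1 + ω / S * q i)) := mul_le_mul_of_nonneg_left h3 (by positivity)
      _ = 3 / 4 * n ^ 3 * √(1 + ω / S * q i) * S := by ring
  have h5 : 30 * n ^ 2 ≤ 1 / 4 * n ^ 3 := by
    have : 120 * n ^ 2 ≤ n * n ^ 2 := by
      apply mul_le_mul_of_nonneg_right _ (by positivity)
      linarith [show (120 : ℝ) ≤ 10 ^ 6 by norm_num]
    have e3 : n ^ 3 = n * n ^ 2 := by ring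
    linarith
  have h6 : 30 * n ^ 2 * √(1 + ω / S * q i) ≤ 1 / 4 * n ^ 3 * √(1 + ω / S * q i) :=
    mul_le_mul_of_nonneg_right h5 (Real.sqrt_nonneg _)
  linarith

/-- halving one block -/
theorem gap_half {n : ℝ} (hn : 10 ^ 6 ≤ n) (hd : (d:ℝ) ≤ n) {v : ι → Fin d → ℝ}
    {G : Finset ι} (hv : ∀ x ∈ G, ∑ i, v x i ^ 2 ≤ 1) {q : Fin d → ℝ} (hq : ∀ i, 0 ≤ q i) {ω : ℝ}
    {P : Fin d → ℝ} (h : Inv n v q G ω P) (hL : Lam v (UU n ω q) G < eta n) {T : ℕ} (hT : 2 ≤ T)
    (hTF : ∀ i ∈ FF n ω q, kap n / 2 ≤ ω / T * q i) {A B : Finset ι} (hAB : A ⊆ B) (hBG : B ⊆ G)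
    {t : ℕ} (ht : t < T)
    (hA1 : ∀ i, |SS v A i - (t : ℝ) / T * SS v G i| ≤
      3 * n ^ 2 * (if i ∈ UU n ω q then 2 / n ^ 15 else 1))
    (hA2 : ∀ i j, |QQ v A i j - (t : ℝ) / T * QQ v G i j| ≤ 3 * n ^ 2)
    (hB1 : ∀ i, |SS v B i - ((t + 1 : ℕ) : ℝ) / T * SS v G i| ≤
      3 * n ^ 2 * (if i ∈ UU n ω q then 2 / n ^ 15 else 1))
    (hB2 : ∀ i j, |QQ v B i j - ((t + 1 : ℕ) : ℝ) / T * QQ v G i j| ≤ 3 * n ^ 2) :
    ∃ L ⊆ B \ A,
      nsq (UU n ω q) (fun i => P i + SS v A i + SS v L i) ≤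
        bb n * (UU n ω q).card - cc * hh v (UU n ω q) G + 1 ∧
      (∀ i ∈ FF n ω q, |P i + SS v A i + SS v L i| ≤ ell n) ∧
      ∀ i j, |QQ v L i j - QQ v (B \ A) i j / 2| ≤ 3 * n ^ 2 * √(1 + ω / T * q i) := by
  have hn0 := n_pos hn
  have hn1 := one_le_n hn
  have hω := h.om
  have hTr : (2 : ℝ) ≤ T := by exact_mod_cast hT
  have hT0 : (0 : ℝ) < T := by linarith
  set U := UU n ω q with hU
  set F := FF n ω q with hF
  set θ : ℝ := ((t : ℝ) + 1 / 2) / T with hθ
  have hθ0 : 0 ≤ θ := by positivity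
  have hθ1 : θ ≤ 1 := by
    rw [hθ, div_le_one hT0]
    have : ((t + 1 : ℕ) : ℝ) ≤ T := by exact_mod_cast ht
    push_cast at this
    linarith
  set x : Fin d → ℝ := fun i => P i + (SS v A i + SS v B i) / 2 with hx
  -- deviation from the segment
  have hdev : ∀ i, |x i - (P i + θ * SS v G i)| ≤ 3 * n ^ 2 * (if i ∈ U then 2 / n ^ 15 else 1) := by
    intro i
    have e : x i - (P i + θ * SS v G i) = ((SS v A i - (t : ℝ) / T * SS v G i) +
        (SS v B i - ((t + 1 : ℕ) : ℝ) / T * SS v G i)) / 2 := by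
      simp only [hx, hθ]
      push_cast
      field_simp
      ring
    rw [e, abs_div, abs_two]
    have := abs_add_le (SS v A i - (t : ℝ) / T * SS v G i)
      (SS v B i - ((t + 1 : ℕ) : ℝ) / T * SS v G i)
    linarith [hA1 i, hB1 i]
  have hQW : ∀ i j, |QQ v (B \ A) i j - QQ v G i j / T| ≤ 6 * n ^ 2 := by
    intro i j
    rw [QQ_sdiff v hAB]
    have e : QQ v B i j - QQ v A i j - QQ v G i j / T =
        (QQ v B i j - ((t + 1 : ℕ) : ℝ) / T * QQ v G i j) -
          (QQ v A i j - (t : ℝ) / T * QQ v G i j) := by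
      push_cast
      field_simp
      ring
    rw [e]
    refine (abs_sub _ _).trans ?_
    linarith [hA2 i j, hB2 i j]
  have hsq1 : ∀ i, 1 ≤ √(1 + ω / T * q i) := by
    intro i
    apply Real.le_sqrt_of_sq_le
    have : 0 ≤ ω / T * q i := mul_nonneg (by positivity) (hq i)
    linarith
  have hQ : ∀ i j, |QQ v (B \ A) i j - (if i = j then ω / T * q i else 0)| ≤
      2 * n ^ 3 * √(1 + ω / T * q i) := by
    intro i j
    have h1 := gap_i1 hn hq hω hTr h.i1 (N := B \ A) (fun i j => by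
      refine (hQW i j).trans ?_
      have := hsq1 i
      have h2 : 0 ≤ n ^ 2 := by positivity
      nlinarith) i j
    have h2 : 0 ≤ n ^ 3 * √(1 + ω / T * q i) := by positivity
    linarith
  have hP2 := h.i2P
  have hE2 := h.i2E
  have hP3 := h.i3P
  have hE3 := h.i3E
  rw [← hF] at hP2 hE2
  rw [← hU] at hP3 hE3
  set X := bb n * U.card - cc * hh v U G with hX
  have hXn : X ≤ n ^ 4 / 16 := by
    have h1 := bb_d hn hd
    have h2 : bb n * U.card ≤ bb n * d := by
      apply mul_le_mul_of_nonneg_left _ (bb_nonneg hn)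
      have := Finset.card_le_univ U
      rw [Fintype.card_fin] at this
      exact_mod_cast this
    have h3 : 0 ≤ cc * hh v U G := mul_nonneg (by unfold cc; norm_num) (hh_nonneg v U G)
    linarith
  have hellF : ∀ i ∈ F, |P i + θ * SS v G i| ≤ ell n := by
    intro i hi
    have h1 := abs_le.1 (hP2 i hi)
    have h2 := abs_le.1 (hE2 i hi)
    have e : P i + θ * SS v G i = (1 - θ) * P i + θ * (P i + SS v G i) := by ring
    rw [e, abs_le]
    have h3 : 0 ≤ 1 - θ := by linarith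
    constructor
    · nlinarith [mul_le_mul_of_nonneg_left h1.1 h3, mul_le_mul_of_nonneg_left h2.1 hθ0]
    · nlinarith [mul_le_mul_of_nonneg_left h1.2 h3, mul_le_mul_of_nonneg_left h2.2 hθ0]
  have hxF : ∀ i ∈ F, |x i| ≤ n ^ 3 := by
    intro i hi
    have hiU : i ∉ U := fun hiU => not_mem_FF hiU hi
    have h1 := hdev i
    rw [if_neg hiU, mul_one] at h1
    have h2 := hellF i hi
    have h3 : |x i| ≤ |x i - (P i + θ * SS v G i)| + |P i + θ * SS v G i| := by
      have := abs_add_le (x i - (P i + θ * SS v G i)) (P i + θ * SS v G i)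
      rwa [sub_add_cancel] at this
    have h4 := ell_le hn
    have h5 : n + 3 * n ^ 2 ≤ n ^ 3 := by
      have e1 : n ^ 3 = n * n ^ 2 := by ring
      have e2 : n ≤ n ^ 2 := by nlinarith
      have e3 : 4 * n ^ 2 ≤ n * n ^ 2 := by
        apply mul_le_mul_of_nonneg_right _ (by positivity)
        linarith [show (4 : ℝ) ≤ 10 ^ 6 by norm_num]
      linarith
    linarith
  set a : Fin d → ℝ := fun i => P i + θ * SS v G i with ha
  have haU : nsq U a ≤ X := by
    have h1 : nsq U a ≤ (1 - θ) * nsq U P + θ * nsq U (fun i => P i + SS v G i) := by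
      unfold nsq
      rw [Finset.mul_sum, Finset.mul_sum, ← Finset.sum_add_distrib]
      refine Finset.sum_le_sum fun i _ => ?_
      simp only [ha]
      nlinarith [mul_nonneg (mul_nonneg hθ0 (sub_nonneg.2 hθ1)) (sq_nonneg (SS v G i))]
    have a1 := mul_le_mul_of_nonneg_left hP3 (sub_nonneg.2 hθ1)
    have a2 := mul_le_mul_of_nonneg_left hE3 hθ0
    linarith
  have hxU : nsq U x ≤ X + 1 / 2 := by
    set ε : ℝ := 6 / n ^ 13 with hε
    have hε0 : 0 < ε := by positivity
    have hterm : ∀ i ∈ U, x i ^ 2 ≤ a i ^ 2 + (2 * n ^ 2 * ε + ε ^ 2) := by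
      intro i hi
      have h1 := hdev i
      rw [if_pos hi] at h1
      have h2 : |x i - a i| ≤ ε := by
        refine h1.trans (le_of_eq ?_)
        rw [hε]; field_simp; ring
      have h3 : |a i| ≤ n ^ 2 := by
        have h4 : a i ^ 2 ≤ nsq U a :=
          Finset.single_le_sum (f := fun i => a i ^ 2) (fun i _ => sq_nonneg _) hi
        apply abs_le_of_sq_le_sq _ (by positivity)
        have e : (n ^ 2) ^ 2 = n ^ 4 := by ring
        have : 0 ≤ n ^ 4 := by positivity
        rw [e]; linarith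
      have h4 : x i ^ 2 = a i ^ 2 + 2 * (a i * (x i - a i)) + (x i - a i) ^ 2 := by ring
      have h5 : a i * (x i - a i) ≤ n ^ 2 * ε := by
        calc a i * (x i - a i) ≤ |a i * (x i - a i)| := le_abs_self _
          _ = |a i| * |x i - a i| := abs_mul _ _
          _ ≤ n ^ 2 * ε := mul_le_mul h3 h2 (abs_nonneg _) (by positivity)
      have h6 : (x i - a i) ^ 2 ≤ ε ^ 2 := by
        rw [← sq_abs (x i - a i)]
        exact pow_le_pow_left₀ (abs_nonneg _) h2 2
      rw [h4]; linarith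
    have h1 : nsq U x ≤ nsq U a + U.card * (2 * n ^ 2 * ε + ε ^ 2) := by
      unfold nsq
      calc ∑ i ∈ U, x i ^ 2 ≤ ∑ i ∈ U, (a i ^ 2 + (2 * n ^ 2 * ε + ε ^ 2)) :=
            Finset.sum_le_sum hterm
        _ = _ := by rw [Finset.sum_add_distrib, Finset.sum_const, nsmul_eq_mul]
    have h2 : (U.card : ℝ) ≤ n := by
      have := Finset.card_le_univ U
      rw [Fintype.card_fin] at this
      exact le_trans (by exact_mod_cast this) hd
    have h3 : (U.card : ℝ) * (2 * n ^ 2 * ε + ε ^ 2) ≤ 1 / 2 := by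
      calc (U.card : ℝ) * (2 * n ^ 2 * ε + ε ^ 2) ≤ n * (2 * n ^ 2 * ε + ε ^ 2) :=
            mul_le_mul_of_nonneg_right h2 (by positivity)
        _ = 12 / n ^ 10 + 36 / n ^ 25 := by rw [hε]; field_simp; ring
        _ ≤ 12 / n + 36 / n := by
            apply add_le_add
            · apply div_le_div_of_nonneg_left (by norm_num) hn0
              calc n = n ^ 1 := (pow_one n).symm
                _ ≤ n ^ 10 := pow_le_pow_right₀ hn1 (by norm_num)
            · apply div_le_div_of_nonneg_left (by norm_num) hn0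
              calc n = n ^ 1 := (pow_one n).symm
                _ ≤ n ^ 25 := pow_le_pow_right₀ hn1 (by norm_num)
        _ = 48 / n := by ring
        _ ≤ 1 / 2 := by
            rw [div_le_div_iff₀ hn0 (by norm_num)]
            linarith [show (96 : ℝ) ≤ 10 ^ 6 by norm_num]
    linarith
  have hxU4 : nsq U x ≤ n ^ 4 := by
    have : (1 : ℝ) ≤ n ^ 4 := one_le_pow₀ hn1
    linarith
  obtain ⟨L, hLs, hL1, hL2, hL3⟩ := halving hn hd
    (fun z hz => hv z (hBG (Finset.sdiff_subset hz))) hq (by positivity : 0 < ω / T) hQ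
    (U := U) (F := F) (fun i hi => not_mem_FF hi) hTF hxF hxU4 (le_refl (0 : ℝ)) 0 0
    (by rw [zero_mul]; positivity)
  have hM : (fun i => x i + (SS v L i - SS v (B \ A) i / 2)) =
      fun i => P i + SS v A i + SS v L i := by
    funext i
    rw [SS_sdiff v hAB]
    simp only [hx]
    ring
  refine ⟨L, hLs, ?_, fun i hi => ?_, hL3⟩
  · rw [hM] at hL1
    have h1 := sum_min_le v U (G := G) (H := B \ A) (Finset.sdiff_subset.trans hBG)
    have h2 := eta_le hn
    have h3 : 1 / n ^ 35 ≤ 1 / 10 ^ 6 := by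
      apply one_div_le_one_div_of_le (by norm_num)
      calc (10 : ℝ) ^ 6 ≤ n := hn
        _ = n ^ 1 := (pow_one n).symm
        _ ≤ n ^ 35 := pow_le_pow_right₀ hn1 (by norm_num)
    rw [zero_mul, zero_mul, add_zero, add_zero] at hL1
    have h4 : (1 : ℝ) / 10 ^ 6 ≤ 1 / 8 := by norm_num
    linarith
  · have h1 := hL2 i hi
    have h2 : x i + (SS v L i - SS v (B \ A) i / 2) = P i + SS v A i + SS v L i :=
      congrFun hM i
    rw [h2] at h1
    linarith

/-- applying the induction hypothesis to a node of relative scale `1 / S` -/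
theorem gap_node {n : ℝ} (hn : 10 ^ 6 ≤ n) {v : ι → Fin d → ℝ}
    {G : Finset ι} {q : Fin d → ℝ} (hq : ∀ i, 0 ≤ q i) {ω : ℝ}
    {P : Fin d → ℝ} (h : Inv n v q G ω P) {T : ℕ} (hT : 2 ≤ T)
    {i0 : Fin d} (hi0 : i0 ∈ FF n ω q) (hi0' : i0 ∈ UU n (ω / T) q)
    (IH : ∀ G' ⊂ G, ∀ ω' P', Inv n v q G' ω' P' → Ord v G' P' (RR n d))
    {N : Finset ι} (hNG : N ⊆ G) {S : ℝ} (hS : (T : ℝ) ≤ S)
    (hN : ∀ i j, |QQ v N i j - QQ v G i j / S| ≤ 30 * n ^ 2 * √(1 + ω / S * q i))
    {P' E' : Fin d → ℝ} (hE' : ∀ i, P' i + SS v N i = E' i)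
    (hP2 : ∀ i ∈ FF n ω q, |P' i| ≤ ell n) (hE2 : ∀ i ∈ FF n ω q, |E' i| ≤ ell n)
    (hP3 : nsq (UU n ω q) P' ≤ bb n * (UU n ω q).card - cc * hh v (UU n ω q) G + 1)
    (hE3 : nsq (UU n ω q) E' ≤ bb n * (UU n ω q).card - cc * hh v (UU n ω q) G + 1) :
    Ord v N P' (RR n d) := by
  have hω := h.om
  have hT2 : (2 : ℝ) ≤ T := by exact_mod_cast hT
  have hS0 : 0 < S := by linarith
  have hI1 := gap_i1 hn hq hω (by linarith : 2 ≤ S) h.i1 hN
  have hω' : 0 < ω / S := by positivity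
  have hle : ω / S ≤ ω / 2 := div_le_div_of_nonneg_left hω.le (by norm_num) (by linarith)
  have hi0S : i0 ∈ UU n (ω / S) q := by
    rw [mem_UU] at hi0' ⊢
    refine lt_of_le_of_lt ?_ hi0'
    apply mul_le_mul_of_nonneg_right _ (hq i0)
    exact div_le_div_of_nonneg_left hω.le (by linarith) hS
  have hEf : (fun i => P' i + SS v N i) = E' := funext hE'
  have hinv : Inv n v q N (ω / S) P' := by
    refine gap_inv_child hn hNG hω' (by linarith) hI1 ⟨i0, hi0, hi0S⟩ hP2 ?_ hP3 ?_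
    · intro i hi
      rw [hE' i]
      exact hE2 i hi
    · rw [hEf]
      exact hE3
  have hne : N ≠ G := gap_ne_child hn hle h.i1 hω hI1 ⟨i0, hi0⟩
  exact IH N (Finset.ssubset_iff_subset_ne.2 ⟨hNG, hne⟩) _ _ hinv

theorem caseC2 {n : ℝ} (hn : 10 ^ 6 ≤ n) (hd : (d:ℝ) ≤ n) {v : ι → Fin d → ℝ} {G : Finset ι}
    (hv : ∀ x ∈ G, ∑ i, v x i ^ 2 ≤ 1) {q : Fin d → ℝ} (hq : ∀ i, 0 ≤ q i) {ω : ℝ}
    {P : Fin d → ℝ} (h : Inv n v q G ω P) (hL : Lam v (UU n ω q) G < eta n)
    (hF : (FF n ω q).Nonempty)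
    (IH : ∀ G' ⊂ G, ∀ ω' P', Inv n v q G' ω' P' → Ord v G' P' (RR n d)) :
    Ord v G P (RR n d) := by
  have hn0 := n_pos hn
  have hω := h.om
  obtain ⟨T, hT, ⟨i0, hi0, hi0'⟩, hTF⟩ := gap_T hn hq hω hF
  have hT2 : (2 : ℝ) ≤ T := by exact_mod_cast hT
  obtain ⟨B, hB0, hBT, hBmono, hB⟩ := gap_blocks hn hd hv (UU n ω q)
    (by positivity : (0 : ℝ) < 2 / n ^ 15) (fun z hz i hi => small_coord hn hL hz hi)
    (by omega : 0 < T)
  have hex : ∀ t, ∃ L, t < T → L ⊆ B (t + 1) \ B t ∧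
      nsq (UU n ω q) (fun i => P i + SS v (B t) i + SS v L i) ≤
        bb n * (UU n ω q).card - cc * hh v (UU n ω q) G + 1 ∧
      (∀ i ∈ FF n ω q, |P i + SS v (B t) i + SS v L i| ≤ ell n) ∧
      ∀ i j, |QQ v L i j - QQ v (B (t + 1) \ B t) i j / 2| ≤
        3 * n ^ 2 * √(1 + ω / T * q i) := by
    intro t
    by_cases ht : t < T
    · obtain ⟨_, hA1, hA2⟩ := hB t ht.le
      obtain ⟨hBG, hB1, hB2⟩ := hB (t + 1) ht
      obtain ⟨L, h1, h2, h3, h4⟩ := gap_half hn hd hv hq h hL hT hTF (hBmono t) hBG ht hA1 hA2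
        hB1 hB2
      exact ⟨L, fun _ => ⟨h1, h2, h3, h4⟩⟩
    · exact ⟨∅, fun h => absurd h ht⟩
  choose L hLL using hex
  have hsq1 : ∀ i, 1 ≤ √(1 + ω / T * q i) := by
    intro i
    apply Real.le_sqrt_of_sq_le
    have : 0 ≤ ω / T * q i := mul_nonneg (by positivity) (hq i)
    linarith
  have hn2 : 0 ≤ n ^ 2 := by positivity
  -- second moments of blocks
  have hQW : ∀ t < T, ∀ i j, |QQ v (B (t + 1) \ B t) i j - QQ v G i j / T| ≤ 6 * n ^ 2 := by
    intro t ht i j
    obtain ⟨_, _, hA2⟩ := hB t ht.le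
    obtain ⟨_, _, hB2⟩ := hB (t + 1) ht
    rw [QQ_sdiff v (hBmono t)]
    have e : QQ v (B (t + 1)) i j - QQ v (B t) i j - QQ v G i j / T =
        (QQ v (B (t + 1)) i j - ((t + 1 : ℕ) : ℝ) / T * QQ v G i j) -
          (QQ v (B t) i j - (t : ℝ) / T * QQ v G i j) := by
      push_cast
      field_simp
      ring
    rw [e]
    refine (abs_sub _ _).trans ?_
    linarith [hA2 i j, hB2 i j]
  have hdisj : ∀ t < T, Disjoint (B t) (L t) := by
    intro t ht
    have h1 := (hLL t ht).1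
    rw [Finset.disjoint_right]
    intro z hz
    exact (Finset.mem_sdiff.1 (h1 hz)).2
  have hLB : ∀ t < T, L t ⊆ B (t + 1) := fun t ht => (hLL t ht).1.trans Finset.sdiff_subset
  -- half scale nodes
  have hhalf : ∀ N : Finset ι, ∀ t < T,
      (∀ i j, |QQ v N i j - QQ v (B (t + 1) \ B t) i j / 2| ≤ 3 * n ^ 2 * √(1 + ω / T * q i)) →
      ∀ i j, |QQ v N i j - QQ v G i j / (2 * T)| ≤ 30 * n ^ 2 * √(1 + ω / (2 * T) * q i) := by
    intro N t ht hN i j
    have h1 := hN i j
    have h2 := hQW t ht i j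
    have e : QQ v N i j - QQ v G i j / (2 * T) = (QQ v N i j - QQ v (B (t + 1) \ B t) i j / 2) +
        (QQ v (B (t + 1) \ B t) i j - QQ v G i j / T) / 2 := by
      field_simp
      ring
    rw [e]
    refine (abs_add_le _ _).trans ?_
    rw [abs_div, abs_two]
    set y := ω / (2 * T) * q i with hy
    have hy0 : 0 ≤ y := mul_nonneg (by positivity) (hq i)
    have e2 : ω / T * q i = 2 * y := by rw [hy]; field_simp
    have h3 : √(1 + ω / T * q i) ≤ 2 * √(1 + y) := by
      rw [e2]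
      apply Real.sqrt_le_iff.mpr
      refine ⟨by positivity, ?_⟩
      rw [mul_pow, Real.sq_sqrt (by linarith)]
      linarith
    have h4 : 1 ≤ √(1 + y) := by
      apply Real.le_sqrt_of_sq_le
      linarith
    have h5 : 3 * n ^ 2 * √(1 + ω / T * q i) ≤ 3 * n ^ 2 * (2 * √(1 + y)) :=
      mul_le_mul_of_nonneg_left h3 (by positivity)
    have h6 : 3 * n ^ 2 * 1 ≤ 3 * n ^ 2 * √(1 + y) :=
      mul_le_mul_of_nonneg_left h4 (by positivity)
    have h7 : 0 ≤ n ^ 2 * √(1 + y) := by positivity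
    linarith
  have hS2 : (T : ℝ) ≤ 2 * T := by linarith
  have hP3' : nsq (UU n ω q) P ≤ bb n * (UU n ω q).card - cc * hh v (UU n ω q) G + 1 := by
    linarith [h.i3P]
  have hE3' : nsq (UU n ω q) (fun i => P i + SS v G i) ≤
      bb n * (UU n ω q).card - cc * hh v (UU n ω q) G + 1 := by linarith [h.i3E]
  -- the induction
  have hC : ∀ t, t < T → Ord v (B t ∪ L t) P (RR n d) := by
    intro t
    induction t with
    | zero =>
      intro ht
      obtain ⟨a1, a2, a3, a4⟩ := hLL 0 ht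
      rw [hB0, Finset.empty_union]
      refine gap_node hn hq h hT hi0 hi0' IH ((hLB 0 ht).trans (hB 1 ht).1) hS2
        (hhalf (L 0) 0 ht a4) (E' := fun i => P i + SS v (B 0) i + SS v (L 0) i) ?_ h.i2P a3
        hP3' a2
      intro i
      simp only [hB0, SS_empty, add_zero]
    | succ t ih =>
      intro ht
      have ht' : t < T := by omega
      obtain ⟨a1, a2, a3, a4⟩ := hLL t ht'
      obtain ⟨b1, b2, b3, b4⟩ := hLL (t + 1) ht
      set N := ((B (t + 1) \ B t) \ L t) ∪ L (t + 1) with hN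
      have hunion : B (t + 1) ∪ L (t + 1) = (B t ∪ L t) ∪ N := by
        ext z
        simp only [hN, Finset.mem_union, Finset.mem_sdiff]
        have c1 : z ∈ B t → z ∈ B (t + 1) := fun hz => hBmono t hz
        have c2 : z ∈ L t → z ∈ B (t + 1) := fun hz => hLB t ht' hz
        tauto
      have hNd : Disjoint ((B (t + 1) \ B t) \ L t) (L (t + 1)) := by
        rw [Finset.disjoint_left]
        intro z hz hz'
        have c1 := (Finset.mem_sdiff.1 (Finset.mem_sdiff.1 hz).1).1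
        exact (Finset.mem_sdiff.1 (b1 hz')).2 c1
      have hdis : Disjoint (B t ∪ L t) N := by
        rw [Finset.disjoint_left]
        intro z hz hz'
        simp only [hN, Finset.mem_union, Finset.mem_sdiff] at hz hz'
        have c1 : z ∈ B t → z ∈ B (t + 1) := fun hz => hBmono t hz
        have c2 : z ∈ L t → z ∈ B (t + 1) := fun hz => hLB t ht' hz
        have c3 : z ∈ L (t + 1) → z ∉ B (t + 1) := fun hz => (Finset.mem_sdiff.1 (b1 hz)).2
        tauto
      have hNG : N ⊆ G := by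
        intro z hz
        rw [hN, Finset.mem_union] at hz
        rcases hz with hz | hz
        · exact (hB (t + 1) ht.le).1 (Finset.mem_sdiff.1 (Finset.mem_sdiff.1 hz).1).1
        · exact (hB (t + 2) ht).1 (hLB (t + 1) ht hz)
      rw [hunion]
      refine Ord_append hdis (ih ht') ?_
      have hstart : (fun i => P i + SS v (B t ∪ L t) i) =
          fun i => P i + SS v (B t) i + SS v (L t) i := by
        funext i
        rw [SS_union v (hdisj t ht')]
        ring
      rw [hstart]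
      refine gap_node hn hq h hT hi0 hi0' IH hNG le_rfl ?_
        (E' := fun i => P i + SS v (B (t + 1)) i + SS v (L (t + 1)) i) ?_ a3 b3 a2 b2
      · intro i j
        have e : QQ v N i j - QQ v G i j / T =
            -(QQ v (L t) i j - QQ v (B (t + 1) \ B t) i j / 2) +
            (QQ v (L (t + 1)) i j - QQ v (B (t + 1 + 1) \ B (t + 1)) i j / 2) +
            ((QQ v (B (t + 1) \ B t) i j - QQ v G i j / T) / 2 +
            (QQ v (B (t + 1 + 1) \ B (t + 1)) i j - QQ v G i j / T) / 2) := by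
          rw [hN, QQ_union v hNd, QQ_sdiff v a1]
          ring
        rw [e]
        have c1 := abs_le.1 (a4 i j)
        have c2 := abs_le.1 (b4 i j)
        have c3 := abs_le.1 (hQW t ht' i j)
        have c4 := abs_le.1 (hQW (t + 1) ht i j)
        have c5 : n ^ 2 * 1 ≤ n ^ 2 * √(1 + ω / T * q i) :=
          mul_le_mul_of_nonneg_left (hsq1 i) hn2
        rw [abs_le]
        constructor <;> linarith [c1.1, c1.2, c2.1, c2.2, c3.1, c3.2, c4.1, c4.2]
      · intro i
        rw [hN, SS_union v hNd, SS_sdiff v a1, SS_sdiff v (hBmono t)]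
        ring
  -- the last node
  obtain ⟨t, rfl⟩ : ∃ t, T = t + 1 := ⟨T - 1, by omega⟩
  have ht : t < t + 1 := Nat.lt_succ_self t
  obtain ⟨a1, a2, a3, a4⟩ := hLL t ht
  set N := (B (t + 1) \ B t) \ L t with hN
  have hunion : G = (B t ∪ L t) ∪ N := by
    rw [← hBT]
    ext z
    simp only [hN, Finset.mem_union, Finset.mem_sdiff]
    have c1 : z ∈ B t → z ∈ B (t + 1) := fun hz => hBmono t hz
    have c2 : z ∈ L t → z ∈ B (t + 1) := fun hz => hLB t ht hz
    tauto
  have hdis : Disjoint (B t ∪ L t) N := by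
    rw [Finset.disjoint_left]
    intro z hz hz'
    simp only [hN, Finset.mem_union, Finset.mem_sdiff] at hz hz'
    tauto
  have hNG : N ⊆ G := by
    intro z hz
    rw [← hBT]
    exact (Finset.mem_sdiff.1 (Finset.mem_sdiff.1 hz).1).1
  have hstart : (fun i => P i + SS v (B t ∪ L t) i) =
      fun i => P i + SS v (B t) i + SS v (L t) i := by
    funext i
    rw [SS_union v (hdisj t ht)]
    ring
  have hfin : Ord v ((B t ∪ L t) ∪ N) P (RR n d) := by
    refine Ord_append hdis (hC t ht) ?_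
    rw [hstart]
    refine gap_node hn hq h hT hi0 hi0' IH hNG hS2 (hhalf N t ht ?_)
      (E' := fun i => P i + SS v G i) ?_ a3 h.i2E a2 hE3'
    · intro i j
      have e : QQ v N i j - QQ v (B (t + 1) \ B t) i j / 2 =
          -(QQ v (L t) i j - QQ v (B (t + 1) \ B t) i j / 2) := by
        rw [hN, QQ_sdiff v a1]
        ring
      rw [e, abs_neg]
      exact a4 i j
    · intro i
      rw [hN, SS_sdiff v a1, SS_sdiff v (hBmono t), hBT]
      ring
  rw [← hunion] at hfin
  exact hfin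

end Vale.Agent.P262
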