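import Vale.Agent.P262.YLem
import Vale.Agent.P262.GSW
import Vale.Agent.P262.Steinitz

set_option linter.unusedSectionVars false
set_option linter.unusedVariables false

namespace Vale.Agent.P262

open Finset Real

variable {ι : Type*} [DecidableEq ι] {d : ℕ}

/-- The extra functional `⟨θ, v_z⟩ + a_z`. -/
noncomputable def ff (v : ι → Fin d → ℝ) (θ : Fin d → ℝ) (a : ι → ℝ) (z : ι) : ℝ :=
  ∑ i, θ i * v z i + a z

/-- Offset of the extra functional. -/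
noncomputable def oo (v : ι → Fin d → ℝ) (q : Fin d → ℝ) (ω : ℝ) (F : Finset (Fin d))
    (x : Fin d → ℝ) (G : Finset ι) (θ : Fin d → ℝ) (a : ι → ℝ) : ℝ :=
  ∑ z ∈ G, tt v q ω F x z * ff v θ a z

/-- Size of the extra functional. -/
noncomputable def NN (G : Finset ι) (θ : Fin d → ℝ) (a : ι → ℝ) : ℝ :=
  ∑ i, θ i ^ 2 + ∑ z ∈ G, a z ^ 2

theorem round_sum {G B : Finset ι} {mu : ι → ℝ} (hmu : ∀ z ∈ G, 0 ≤ mu z ∧ mu z ≤ 1)
    (hB : B ⊆ G.filter (fun z => 0 < mu z ∧ mu z < 1)) (g : ι → ℝ) :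
    ∑ z ∈ G.filter (fun z => mu z = 1) ∪ B, g z - ∑ z ∈ G, mu z * g z =
      ∑ z ∈ G.filter (fun z => 0 < mu z ∧ mu z < 1),
        ((if z ∈ B then (1 : ℝ) else 0) - mu z) * g z := by
  set Fr := G.filter (fun z => 0 < mu z ∧ mu z < 1) with hFr
  set G0 := G.filter (fun z => mu z = 1) ∪ B with hG0
  have hBG : B ⊆ G := hB.trans (Finset.filter_subset _ _)
  have hG0G : G0 ⊆ G := Finset.union_subset (Finset.filter_subset _ _) hBG
  have h1 : ∑ z ∈ G0, g z = ∑ z ∈ G, (if z ∈ G0 then 1 else 0) * g z := by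
    simp only [ite_mul, one_mul, zero_mul]
    rw [Finset.sum_ite_mem, Finset.inter_eq_right.mpr hG0G]
  rw [h1, ← Finset.sum_sub_distrib]
  have hFrG : Fr ⊆ G := Finset.filter_subset _ _
  rw [← Finset.sum_subset hFrG]
  · apply Finset.sum_congr rfl
    intro z hz
    have h2 := (Finset.mem_filter.mp hz).2
    have h3 : z ∈ G0 ↔ z ∈ B := by
      rw [hG0, Finset.mem_union, Finset.mem_filter]
      constructor
      · rintro (⟨_, h⟩ | h)
        · exact absurd h h2.2.ne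
        · exact h
      · exact fun h => Or.inr h
    simp only [h3]
    ring
  · intro z hz hzF
    have h2 := hmu z hz
    have h3 : z ∉ B := fun h => hzF (hB h)
    have h4 : mu z = 0 ∨ mu z = 1 := by
      by_contra hcon
      push Not at hcon
      exact hzF (Finset.mem_filter.mpr ⟨hz, lt_of_le_of_ne h2.1 (Ne.symm hcon.1),
        lt_of_le_of_ne h2.2 hcon.2⟩)
    rcases h4 with h4 | h4
    · have h5 : z ∉ G0 := by
        rw [hG0, Finset.mem_union, Finset.mem_filter]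
        rintro (⟨_, h⟩ | h)
        · rw [h4] at h; norm_num at h
        · exact h3 h
      simp [h5, h4]
    · have h5 : z ∈ G0 := by
        rw [hG0, Finset.mem_union, Finset.mem_filter]
        exact Or.inl ⟨hz, h4⟩
      simp [h5, h4]

/-! ### Numerical pieces -/

section Num

variable {n : ℝ} (hn : 10 ^ 6 ≤ n)
include hn

theorem num_tiny : 3 / n ^ 39 + (1 / n ^ 36 + 1 / n ^ 36) ≤ 1 / n ^ 35 := by
  have h0 := n_pos hn
  have h1n := one_le_n hn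
  have h2 : 3 / n ^ 39 ≤ 1 / n ^ 36 := by
    rw [div_le_div_iff₀ (by positivity) (by positivity)]
    have h3 : n ^ 39 = n ^ 3 * n ^ 36 := by ring
    have h4 : n ^ 1 ≤ n ^ 3 := pow_le_pow_right₀ h1n (by norm_num)
    rw [pow_one] at h4
    have h5 : (3:ℝ) ≤ n := by linarith [show (3:ℝ) ≤ 10 ^ 6 by norm_num]
    rw [h3]
    have h6 : 0 < n ^ 36 := by positivity
    nlinarith
  have h3 : 3 * (1 / n ^ 36) ≤ 1 / n ^ 35 := by
    rw [← mul_div_assoc, div_le_div_iff₀ (by positivity) (by positivity)]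
    have h4 : n ^ 36 = n * n ^ 35 := by ring
    rw [h4]
    have h5 : (3:ℝ) ≤ n := by linarith [show (3:ℝ) ≤ 10 ^ 6 by norm_num]
    have h6 : 0 < n ^ 35 := by positivity
    nlinarith
  linarith

theorem num_exp {s : ℝ} (hs2 : s ^ 2 = log n) : exp (7 / 2 * s ^ 2) ≤ n ^ 4 := by
  have h0 := n_pos hn
  rw [hs2]
  have h2 : (n:ℝ) ^ 4 = exp (4 * log n) := by
    rw [show (4:ℝ) * log n = ((4:ℕ):ℝ) * log n by norm_num, Real.exp_nat_mul,
      Real.exp_log h0]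
  rw [h2]
  apply exp_le_exp.mpr
  have := log_ge hn
  linarith

theorem num_expb {s : ℝ} (hs2 : s ^ 2 = log n) {r : ℝ} (hr : 1 / n ^ 41 * exp r ≤ n ^ 5) :
    r ≤ 46 * s ^ 2 := by
  have h0 := n_pos hn
  have h2 : exp r ≤ n ^ 46 := by
    rw [one_div, inv_mul_le_iff₀ (by positivity)] at hr
    calc exp r ≤ n ^ 41 * n ^ 5 := hr
      _ = n ^ 46 := by ring
  have h3 : r ≤ log (n ^ 46) := (Real.le_log_iff_exp_le (by positivity)).mpr h2
  rw [Real.log_pow, ← hs2] at h3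
  exact_mod_cast h3

theorem num_shift {x s : ℝ} (hx : x ^ 2 ≤ n ^ 4) (hs : |s| ≤ 1 / n ^ 42) :
    (x - s) ^ 2 ≤ x ^ 2 + 3 / n ^ 40 := by
  have h0 := n_pos hn
  have h1n := one_le_n hn
  have h5 : |x| ≤ n ^ 2 := by
    apply abs_le_of_sq_le_sq _ (by positivity)
    calc x ^ 2 ≤ n ^ 4 := hx
      _ = (n ^ 2) ^ 2 := by ring
  have h6 : |x * s| ≤ 1 / n ^ 40 := by
    rw [abs_mul]
    calc |x| * |s| ≤ n ^ 2 * (1 / n ^ 42) :=
          mul_le_mul h5 hs (abs_nonneg _) (by positivity)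
      _ = 1 / n ^ 40 := by field_simp
  have h7 : s ^ 2 ≤ 1 / n ^ 40 := by
    rw [← sq_abs]
    calc |s| ^ 2 ≤ (1 / n ^ 42) ^ 2 := pow_le_pow_left₀ (abs_nonneg _) hs 2
      _ = 1 / n ^ 84 := by rw [div_pow, one_pow, ← pow_mul]
      _ ≤ 1 / n ^ 40 := one_div_le_one_div_of_le (by positivity)
          (pow_le_pow_right₀ h1n (by norm_num))
  have h8 := neg_abs_le (x * s)
  have h9 : (3:ℝ) / n ^ 40 = 3 * (1 / n ^ 40) := by ring
  rw [h9]
  nlinarith

theorem num_tot {A B : ℝ} (hA : A ≤ n ^ 4) {D : ℝ} (hD : D ≤ n) (hB : B ≤ n ^ 4) :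
    A + D + B + 1 / n ^ 35 ≤ n ^ 5 := by
  have h0 := n_pos hn
  have h1n := one_le_n hn
  have h2 : 1 / n ^ 35 ≤ 1 := by
    rw [div_le_one (by positivity)]
    exact one_le_pow₀ h1n
  have h3 : n ^ 5 = n * n ^ 4 := by ring
  have h4 : n ^ 1 ≤ n ^ 4 := pow_le_pow_right₀ h1n (by norm_num)
  rw [pow_one] at h4
  have h5 : (5:ℝ) ≤ n := by linarith [show (5:ℝ) ≤ 10 ^ 6 by norm_num]
  have h6 : 0 < n ^ 4 := by positivity
  rw [h3]
  nlinarith

theorem num_QQ {r D T : ℝ} (hr : 0 ≤ r) (h4 : |D| ≤ 2 * n ^ 2) (h5 : |T| ≤ √(1 + r)) :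
    |D - T| ≤ 3 * n ^ 2 * √(1 + r) := by
  have h0 := n_pos hn
  have h6 : 1 ≤ √(1 + r) := by
    apply Real.le_sqrt_of_sq_le
    linarith
  have h7 := abs_sub D T
  have h8 : 2 * n ^ 2 ≤ 2 * n ^ 2 * √(1 + r) := le_mul_of_one_le_right (by positivity) h6
  have h9 : √(1 + r) ≤ n ^ 2 * √(1 + r) :=
    le_mul_of_one_le_left (by positivity) (one_le_pow₀ (one_le_n hn))
  have h10 : 3 * n ^ 2 * √(1 + r) = 2 * n ^ 2 * √(1 + r) + n ^ 2 * √(1 + r) := by ring
  rw [h10]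
  linarith

theorem num_fast {s M D : ℝ} (hs2 : s ^ 2 = log n) (hs3 : 3 ≤ s)
    (h2 : 1 / n ^ 41 * exp (s * D) ≤ n ^ 5) (h3 : 1 / n ^ 41 * exp (-s * D) ≤ n ^ 5)
    (hM : |M - D| ≤ 1 / n ^ 42) : |M| ≤ ell n - 1 := by
  have h0 := n_pos hn
  have h1n := one_le_n hn
  have h4 := num_expb hn hs2 h2
  have h5 := num_expb hn hs2 h3
  have h6 : D ≤ 46 * s := by
    by_contra hcon
    push Not at hcon
    nlinarith
  have h7 : -D ≤ 46 * s := by
    by_contra hcon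
    push Not at hcon
    nlinarith
  have h8 := abs_le.mp hM
  have h9 : 1 / n ^ 42 ≤ 1 := by
    rw [div_le_one (by positivity)]
    exact one_le_pow₀ h1n
  have h10 : ell n = 50 * s := by
    unfold ell
    rw [← hs2, Real.sqrt_sq (by linarith)]
  rw [h10, abs_le]
  constructor <;> linarith

theorem card_le_n (hd : (d:ℝ) ≤ n) (U : Finset (Fin d)) : (U.card : ℝ) ≤ n := by
  have h2 := Finset.card_le_univ U
  rw [Fintype.card_fin] at h2
  have h3 : (U.card : ℝ) ≤ d := by exact_mod_cast h2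
  linarith

end Num

section Pieces

variable {n : ℝ} (hn : 10 ^ 6 ≤ n) (hd : (d:ℝ) ≤ n) {v : ι → Fin d → ℝ} {G : Finset ι}
  (hv : ∀ x ∈ G, ∑ i, v x i ^ 2 ≤ 1) {q : Fin d → ℝ} (hq : ∀ i, 0 ≤ q i) {ω : ℝ} (hω : 0 < ω)
  (hQ : ∀ i j, |QQ v G i j - (if i = j then ω * q i else 0)| ≤ 2 * n ^ 3 * √(1 + ω * q i))
  {U F : Finset (Fin d)} (hUF : ∀ i ∈ U, i ∉ F) (hF : ∀ i ∈ F, kap n / 2 ≤ ω * q i)
  {x : Fin d → ℝ} (hxF : ∀ i ∈ F, |x i| ≤ n ^ 3) (hxU : nsq U x ≤ n ^ 4)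

include hn hd hv hq hω hQ hF hxF in
theorem tt_vv (i j : Fin d) :
    |∑ z ∈ G, tt v q ω F x z * (v z i * v z j)| ≤ √(1 + ω * q i) := by
  have h0 := n_pos hn
  have h1n := one_le_n hn
  apply Real.abs_le_sqrt
  refine (tt_mul_sq hn hd hF hxF hQ (fun z => v z i * v z j)).trans ?_
  have h6 : ∑ z ∈ G, (v z i * v z j) ^ 2 ≤ QQ v G i i := by
    unfold QQ
    apply Finset.sum_le_sum
    intro z hz
    have h7 := abs_v_le v hv hz j
    have h8 : v z j ^ 2 ≤ 1 := (sq_le_one_iff_abs_le_one _).mpr h7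
    calc (v z i * v z j) ^ 2 = v z i ^ 2 * v z j ^ 2 := by ring
      _ ≤ v z i ^ 2 * 1 := mul_le_mul_of_nonneg_left h8 (sq_nonneg _)
      _ = v z i * v z i := by ring
  have h7 := abs_le.mp (hQ i i)
  rw [if_pos rfl] at h7
  have h8 : 0 ≤ ω * q i := mul_nonneg hω.le (hq i)
  have h9 : √(1 + ω * q i) ≤ 1 + ω * q i := by
    apply Real.sqrt_le_iff.mpr
    constructor
    · linarith
    · nlinarith
  have h10 : (1:ℝ) ≤ n ^ 3 := one_le_pow₀ h1n
  have h11 : QQ v G i i ≤ 3 * n ^ 3 * (1 + ω * q i) := by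
    have h12 : 2 * n ^ 3 * √(1 + ω * q i) ≤ 2 * n ^ 3 * (1 + ω * q i) :=
      mul_le_mul_of_nonneg_left h9 (by positivity)
    nlinarith
  calc 1 / n ^ 90 * ∑ z ∈ G, (v z i * v z j) ^ 2
      ≤ 1 / n ^ 90 * (3 * n ^ 3 * (1 + ω * q i)) :=
        mul_le_mul_of_nonneg_left (h6.trans h11) (by positivity)
    _ = (3 * n ^ 3 / n ^ 90) * (1 + ω * q i) := by ring
    _ ≤ 1 * (1 + ω * q i) := by
        apply mul_le_mul_of_nonneg_right _ (by linarith)
        rw [div_le_one (by positivity)]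
        have h12 : n ^ 90 = n ^ 87 * n ^ 3 := by ring
        have h13 : n ^ 1 ≤ n ^ 87 := pow_le_pow_right₀ h1n (by norm_num)
        rw [pow_one] at h13
        have h14 : (3:ℝ) ≤ n := by linarith [show (3:ℝ) ≤ 10 ^ 6 by norm_num]
        rw [h12]
        nlinarith
    _ = 1 + ω * q i := one_mul _

include hn hd hxU in
theorem RHS_squares {Fr : Finset ι} (hFrG : Fr ⊆ G) (sh : Fin d → ℝ)
    (hshU : ∀ i ∈ U, |sh i| ≤ 1 / n ^ 42) :
    ∑ i, (if i ∈ U then (1:ℝ) else 0) * ((x i - sh i) ^ 2 +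
      (∑ k, (if QQ v G i i < 1 then (0:ℝ) else if k = i then 1 else 0) ^ 2 +
        ∑ z ∈ Fr, (if QQ v G i i < 1 then v z i else 0) ^ 2) / 2) ≤
      nsq U x + (∑ i ∈ U, min 1 (QQ v G i i)) / 2 + 3 / n ^ 39 := by
  have h0 := n_pos hn
  simp only [ite_mul, one_mul, zero_mul]
  rw [Finset.sum_ite_mem, Finset.univ_inter, Finset.sum_add_distrib]
  have h2 : ∑ i ∈ U, (x i - sh i) ^ 2 ≤ nsq U x + 3 / n ^ 39 := by
    have h3 : ∀ i ∈ U, (x i - sh i) ^ 2 ≤ x i ^ 2 + 3 / n ^ 40 := by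
      intro i hi
      have h6 : x i ^ 2 ≤ nsq U x :=
        Finset.single_le_sum (f := fun i => x i ^ 2) (fun i _ => sq_nonneg _) hi
      exact num_shift hn (h6.trans hxU) (hshU i hi)
    calc ∑ i ∈ U, (x i - sh i) ^ 2 ≤ ∑ i ∈ U, (x i ^ 2 + 3 / n ^ 40) := Finset.sum_le_sum h3
      _ = nsq U x + U.card * (3 / n ^ 40) := by
          rw [Finset.sum_add_distrib]
          simp [nsq]
      _ ≤ nsq U x + n * (3 / n ^ 40) := by
          have h4 : (0:ℝ) ≤ 3 / n ^ 40 := by positivity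
          have h5 := mul_le_mul_of_nonneg_right (card_le_n hn hd U) h4
          linarith
      _ = nsq U x + 3 / n ^ 39 := by
          congr 1
          field_simp
  have h3 : ∑ i ∈ U, (∑ k, (if QQ v G i i < 1 then (0:ℝ) else if k = i then 1 else 0) ^ 2 +
      ∑ z ∈ Fr, (if QQ v G i i < 1 then v z i else 0) ^ 2) / 2 ≤
      (∑ i ∈ U, min 1 (QQ v G i i)) / 2 := by
    rw [Finset.sum_div]
    apply Finset.sum_le_sum
    intro i _
    apply div_le_div_of_nonneg_right _ (by norm_num)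
    by_cases h : QQ v G i i < 1
    · simp only [h, if_true]
      rw [min_eq_right h.le]
      have h4 : ∑ z ∈ Fr, v z i ^ 2 ≤ QQ v G i i := by
        unfold QQ
        calc ∑ z ∈ Fr, v z i ^ 2 ≤ ∑ z ∈ G, v z i ^ 2 :=
              Finset.sum_le_sum_of_subset_of_nonneg hFrG (fun z _ _ => sq_nonneg _)
          _ = _ := Finset.sum_congr rfl (fun z _ => sq _)
      simpa using h4
    · simp only [h, if_false]
      push Not at h
      rw [min_eq_left h]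
      simp
  linarith

include hn hd in
theorem RHS_exp {s : ℝ} (hs2 : s ^ 2 = log n) :
    ∑ i : Fin d, (if i ∈ F then 1 / n ^ 41 else 0) * exp (7 / 2 * s ^ 2) ≤ 1 / n ^ 36 := by
  have h0 := n_pos hn
  simp only [ite_mul, zero_mul]
  rw [Finset.sum_ite_mem, Finset.univ_inter, Finset.sum_const, nsmul_eq_mul]
  calc (F.card : ℝ) * (1 / n ^ 41 * exp (7 / 2 * s ^ 2)) ≤ n * (1 / n ^ 41 * n ^ 4) := by
        apply mul_le_mul (card_le_n hn hd F) _ (by positivity) h0.le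
        exact mul_le_mul_of_nonneg_left (num_exp hn hs2) (by positivity)
    _ = 1 / n ^ 36 := by field_simp

include hv in
theorem Dl_bound {Fr B : Finset ι} (hFrG : Fr ⊆ G) {mu : ι → ℝ}
    (hmu : ∀ z ∈ G, 0 ≤ mu z ∧ mu z ≤ 1) (i j : Fin d) :
    |∑ z ∈ Fr, ((if z ∈ B then (1 : ℝ) else 0) - mu z) * (v z i * v z j)| ≤ Fr.card := by
  refine (Finset.abs_sum_le_sum_abs _ _).trans ?_
  calc ∑ z ∈ Fr, |((if z ∈ B then (1 : ℝ) else 0) - mu z) * (v z i * v z j)|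
      ≤ ∑ z ∈ Fr, (1:ℝ) := by
        apply Finset.sum_le_sum
        intro z hz
        rw [abs_mul]
        have h5 := hmu z (hFrG hz)
        have h6 : |(if z ∈ B then (1 : ℝ) else 0) - mu z| ≤ 1 := by
          rw [abs_le]
          split_ifs <;> constructor <;> linarith
        have h7 := abs_vv_le v hv (hFrG hz) i j
        calc _ ≤ (1:ℝ) * 1 := mul_le_mul h6 h7 (abs_nonneg _) (by norm_num)
          _ = 1 := one_mul 1
    _ = Fr.card := by simp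

end Pieces

theorem halving_pre {n : ℝ} (hn : 10 ^ 6 ≤ n) (hd : (d:ℝ) ≤ n) {v : ι → Fin d → ℝ} {G : Finset ι}
    (hv : ∀ x ∈ G, ∑ i, v x i ^ 2 ≤ 1) {q : Fin d → ℝ} (hq : ∀ i, 0 ≤ q i) {ω : ℝ} (hω : 0 < ω)
    (hQ : ∀ i j, |QQ v G i j - (if i = j then ω * q i else 0)| ≤ 2 * n ^ 3 * √(1 + ω * q i))
    {U F : Finset (Fin d)} (hUF : ∀ i ∈ U, i ∉ F) (hF : ∀ i ∈ F, kap n / 2 ≤ ω * q i)
    {x : Fin d → ℝ} (hxF : ∀ i ∈ F, |x i| ≤ n ^ 3) (hxU : nsq U x ≤ n ^ 4)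
    {α : ℝ} (hα : 0 ≤ α) (θ : Fin d → ℝ) (a : ι → ℝ)
    (hN : α * (oo v q ω F x G θ a ^ 2 + NN G θ a / 2) ≤ n ^ 4) :
    ∃ G0 ⊆ G, ∃ Di : Fin d → ℝ,
      nsq U (fun i => x i + (SS v G0 i - SS v G i / 2)) +
          α * (∑ z ∈ G0, ff v θ a z - (∑ z ∈ G, ff v θ a z) / 2) ^ 2 +
          (∑ i, (if i ∈ F then 1 / n ^ 41 else 0) * exp (√(log n) * Di i) +
            ∑ i, (if i ∈ F then 1 / n ^ 41 else 0) * exp (-√(log n) * Di i)) ≤
        nsq U x + (∑ i ∈ U, min 1 (QQ v G i i)) / 2 +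
          α * (oo v q ω F x G θ a ^ 2 + NN G θ a / 2) + 1 / n ^ 35 ∧
      (∀ i ∈ F, |x i + (SS v G0 i - SS v G i / 2) - Di i| ≤ 1 / n ^ 42) ∧
      (∀ i j, |QQ v G0 i j - QQ v G i j / 2| ≤ 3 * n ^ 2 * √(1 + ω * q i)) := by
  have h0 := n_pos hn
  have h1n := one_le_n hn
  set t := tt v q ω F x with ht
  have htb : ∀ z ∈ G, |t z| ≤ 1 / 2 := fun z hz => tt_bound hn hd hv hF hxF hz
  -- vertex
  obtain ⟨mu, hmu, hmusum, hmucard⟩ := exists_vertex (κ := Fin d ⊕ (Fin d × Fin d) ⊕ Unit) G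
    (fun z => Sum.elim (v z) (Sum.elim (fun p => v z p.1 * v z p.2) (fun _ => ff v θ a z)))
    (fun z => 1 / 2 - t z) (by
      intro z hz
      have := abs_le.mp (htb z hz)
      constructor <;> linarith)
  set Fr := G.filter (fun z => 0 < mu z ∧ mu z < 1) with hFr
  have hFrG : Fr ⊆ G := Finset.filter_subset _ _
  have hcard : (Fr.card : ℝ) ≤ 2 * n ^ 2 := by
    have h2 : Fintype.card (Fin d ⊕ (Fin d × Fin d) ⊕ Unit) = d + (d * d + 1) := by simp
    rw [h2] at hmucard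
    have h3 : (Fr.card : ℝ) ≤ d + (d * d + 1) := by exact_mod_cast hmucard
    have h4 : (0:ℝ) ≤ d := Nat.cast_nonneg d
    nlinarith
  have hms1 : ∀ i, ∑ z ∈ G, mu z * v z i = ∑ z ∈ G, (1 / 2 - t z) * v z i :=
    fun i => hmusum (Sum.inl i)
  have hms2 : ∀ i j, ∑ z ∈ G, mu z * (v z i * v z j) =
      ∑ z ∈ G, (1 / 2 - t z) * (v z i * v z j) := fun i j => hmusum (Sum.inr (Sum.inl (i, j)))
  have hms3 : ∑ z ∈ G, mu z * ff v θ a z = ∑ z ∈ G, (1 / 2 - t z) * ff v θ a z :=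
    hmusum (Sum.inr (Sum.inr ()))
  set s : ℝ := √(log n) with hs
  have hs2 : s ^ 2 = log n := Real.sq_sqrt (by linarith [log_ge hn])
  have hs3 : 3 ≤ s := sqrt_log_ge hn
  set o := oo v q ω F x G θ a with ho
  set sh : Fin d → ℝ := fun i => ∑ z ∈ G, t z * v z i with hsh
  -- rounding
  obtain ⟨B, hBF, hB⟩ := rounding (J := Fin d ⊕ Unit) (K := Fin d ⊕ Fin d) v Fr
    (fun z hz => hv z (hFrG hz)) mu (fun z hz => hmu z (hFrG hz))
    (Sum.elim (fun i => if i ∈ U then 1 else 0) (fun _ => α))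
    (by
      rintro (i | _)
      · simp only [Sum.elim_inl]; split_ifs <;> norm_num
      · simpa using hα)
    (Sum.elim (fun i k => if QQ v G i i < 1 then 0 else if k = i then 1 else 0) (fun _ => θ))
    (Sum.elim (fun i z => if QQ v G i i < 1 then v z i else 0) (fun _ => a))
    (Sum.elim (fun i => x i - sh i) (fun _ => -o))
    (Sum.elim (fun i => if i ∈ F then 1 / n ^ 41 else 0) (fun i => if i ∈ F then 1 / n ^ 41 else 0))
    (by
      rintro (i | i) <;> simp only [Sum.elim_inl, Sum.elim_inr] <;> split_ifs <;> positivity)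
    (Sum.elim (fun i k => if k = i then s else 0) (fun i k => if k = i then -s else 0))
  set Dl : (ι → ℝ) → ℝ := fun g => ∑ z ∈ Fr, ((if z ∈ B then (1 : ℝ) else 0) - mu z) * g z
    with hDl
  set G0 := G.filter (fun z => mu z = 1) ∪ B with hG0
  have hG0G : G0 ⊆ G := Finset.union_subset (Finset.filter_subset _ _) (hBF.trans hFrG)
  have hround : ∀ g : ι → ℝ, ∑ z ∈ G, mu z * g z = ∑ z ∈ G, (1 / 2 - t z) * g z →
      ∑ z ∈ G0, g z - (∑ z ∈ G, g z) / 2 = Dl g - ∑ z ∈ G, t z * g z := by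
    intro g hg
    have h2 := round_sum hmu hBF g
    rw [hg] at h2
    have h3 : ∑ z ∈ G, (1 / 2 - t z) * g z = (∑ z ∈ G, g z) / 2 - ∑ z ∈ G, t z * g z := by
      rw [Finset.sum_div, ← Finset.sum_sub_distrib]
      apply Finset.sum_congr rfl
      intro z _
      ring
    rw [h3] at h2
    simp only [hDl]
    linarith
  have hr1 : ∀ i, SS v G0 i - SS v G i / 2 = Dl (fun z => v z i) - sh i :=
    fun i => hround _ (hms1 i)
  have hr3 : ∑ z ∈ G0, ff v θ a z - (∑ z ∈ G, ff v θ a z) / 2 = Dl (ff v θ a) - o :=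
    hround _ hms3
  -- rewrite the functionals
  have hf1 : ∀ i z, (∑ k, (if QQ v G i i < 1 then (0:ℝ) else if k = i then 1 else 0) * v z k +
      (if QQ v G i i < 1 then v z i else 0)) = v z i := by
    intro i z
    by_cases h : QQ v G i i < 1
    · simp [h]
    · simp [h]
  have hf2 : ∀ (i : Fin d) (z : ι) (c : ℝ), ∑ k, (if k = i then c else 0) * v z k = c * v z i := by
    intro i z c
    simp
  have hDmul : ∀ (c : ℝ) (i : Fin d), ∑ z ∈ Fr, ((if z ∈ B then (1 : ℝ) else 0) - mu z) *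
      (c * v z i) = c * Dl (fun z => v z i) := by
    intro c i
    simp only [hDl]
    rw [Finset.mul_sum]
    apply Finset.sum_congr rfl
    intro z _
    ring
  have hsq : ∀ (i : Fin d) (c : ℝ), ∑ k, (if k = i then c else 0) ^ 2 = c ^ 2 := by
    intro i c
    simp
  simp only [Fintype.sum_sum_type, Sum.elim_inl, Sum.elim_inr, hf1, hf2, hDmul, hsq,
    Finset.univ_unique, Finset.sum_singleton] at hB
  set Di : Fin d → ℝ := fun i => Dl (fun z => v z i) with hDi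
  -- left side
  have hL1 : ∑ i, (if i ∈ U then (1:ℝ) else 0) *
      (x i - sh i + ∑ z ∈ Fr, ((if z ∈ B then 1 else 0) - mu z) * v z i) ^ 2 =
      nsq U (fun i => x i + (SS v G0 i - SS v G i / 2)) := by
    unfold nsq
    simp only [ite_mul, one_mul, zero_mul]
    rw [Finset.sum_ite_mem, Finset.univ_inter]
    apply Finset.sum_congr rfl
    intro i _
    rw [hr1 i]
    simp only [hDl]
    ring
  have hL2 : (-o + ∑ z ∈ Fr, ((if z ∈ B then 1 else 0) - mu z) * (∑ i, θ i * v z i + a z)) =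
      ∑ z ∈ G0, ff v θ a z - (∑ z ∈ G, ff v θ a z) / 2 := by
    rw [hr3]
    simp only [hDl]
    unfold ff
    ring
  rw [hL1, hL2] at hB
  -- right side
  have hshU : ∀ i ∈ U, |sh i| ≤ 1 / n ^ 42 := by
    intro i hi
    have h2 := Qy_bound hn hd hF hxF hQ i
    rw [if_neg (hUF i hi), sub_zero] at h2
    exact h2
  have hshF : ∀ i ∈ F, |sh i - x i| ≤ 1 / n ^ 42 := by
    intro i hi
    have h2 := Qy_bound hn hd hF hxF hQ i
    rw [if_pos hi] at h2
    exact h2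
  have hR1 := RHS_squares (v := v) (G := G) hn hd hxU hFrG sh hshU
  have hR2 : α * ((-o) ^ 2 + (∑ i, θ i ^ 2 + ∑ z ∈ Fr, a z ^ 2) / 2) ≤
      α * (o ^ 2 + NN G θ a / 2) := by
    apply mul_le_mul_of_nonneg_left _ hα
    unfold NN
    have h2 : ∑ z ∈ Fr, a z ^ 2 ≤ ∑ z ∈ G, a z ^ 2 :=
      Finset.sum_le_sum_of_subset_of_nonneg hFrG (fun z _ _ => sq_nonneg _)
    rw [neg_sq]
    linarith
  have hR3 := RHS_exp (F := F) hn hd hs2
  have htiny := num_tiny hn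
  rw [neg_sq s] at hB
  refine ⟨G0, hG0G, Di, ?_, ?_, ?_⟩
  · linarith
  · intro i hi
    rw [hr1 i]
    have h2 := hshF i hi
    have h3 : x i + (Dl (fun z => v z i) - sh i) - Di i = -(sh i - x i) := by
      simp only [hDi]
      ring
    rw [h3, abs_neg]
    exact h2
  · intro i j
    have h2 := hround (fun z => v z i * v z j) (hms2 i j)
    have h3 : QQ v G0 i j - QQ v G i j / 2 = Dl (fun z => v z i * v z j) -
        ∑ z ∈ G, t z * (v z i * v z j) := h2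
    rw [h3]
    have h4 : |Dl (fun z => v z i * v z j)| ≤ 2 * n ^ 2 :=
      (Dl_bound hv hFrG hmu i j).trans hcard
    have h5 : |∑ z ∈ G, t z * (v z i * v z j)| ≤ √(1 + ω * q i) :=
      tt_vv hn hd hv hq hω hQ hF hxF i j
    exact num_QQ hn (mul_nonneg hω.le (hq i)) h4 h5

theorem halving {n : ℝ} (hn : 10 ^ 6 ≤ n) (hd : (d:ℝ) ≤ n) {v : ι → Fin d → ℝ} {G : Finset ι}
    (hv : ∀ x ∈ G, ∑ i, v x i ^ 2 ≤ 1) {q : Fin d → ℝ} (hq : ∀ i, 0 ≤ q i) {ω : ℝ} (hω : 0 < ω)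
    (hQ : ∀ i j, |QQ v G i j - (if i = j then ω * q i else 0)| ≤ 2 * n ^ 3 * √(1 + ω * q i))
    {U F : Finset (Fin d)} (hUF : ∀ i ∈ U, i ∉ F) (hF : ∀ i ∈ F, kap n / 2 ≤ ω * q i)
    {x : Fin d → ℝ} (hxF : ∀ i ∈ F, |x i| ≤ n ^ 3) (hxU : nsq U x ≤ n ^ 4)
    {α : ℝ} (hα : 0 ≤ α) (θ : Fin d → ℝ) (a : ι → ℝ)
    (hN : α * (oo v q ω F x G θ a ^ 2 + NN G θ a / 2) ≤ n ^ 4) :
    ∃ G0 ⊆ G,
      nsq U (fun i => x i + (SS v G0 i - SS v G i / 2)) +
          α * (∑ z ∈ G0, ff v θ a z - (∑ z ∈ G, ff v θ a z) / 2) ^ 2 ≤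
        nsq U x + (∑ i ∈ U, min 1 (QQ v G i i)) / 2 +
          α * (oo v q ω F x G θ a ^ 2 + NN G θ a / 2) + 1 / n ^ 35 ∧
      (∀ i ∈ F, |x i + (SS v G0 i - SS v G i / 2)| ≤ ell n - 1) ∧
      (∀ i j, |QQ v G0 i j - QQ v G i j / 2| ≤ 3 * n ^ 2 * √(1 + ω * q i)) := by
  have h0 := n_pos hn
  have h1n := one_le_n hn
  obtain ⟨G0, hG0G, Di, hB, hDi, hQQ⟩ := halving_pre hn hd hv hq hω hQ hUF hF hxF hxU hα θ a hN
  set s : ℝ := √(log n) with hs
  have hs2 : s ^ 2 = log n := Real.sq_sqrt (by linarith [log_ge hn])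
  have hs3 : 3 ≤ s := sqrt_log_ge hn
  have hnn : ∀ (c : ℝ), ∀ i ∈ (univ : Finset (Fin d)), 0 ≤ (if i ∈ F then 1 / n ^ 41 else 0) *
      exp (c * Di i) := by
    intro c i _
    apply mul_nonneg _ (exp_pos _).le
    split_ifs <;> positivity
  have hL3' := Finset.sum_nonneg (hnn s)
  have hL4' := Finset.sum_nonneg (hnn (-s))
  have hU1 : 0 ≤ nsq U (fun i => x i + (SS v G0 i - SS v G i / 2)) := nsq_nonneg _ _
  have hU2 : 0 ≤ α * (∑ z ∈ G0, ff v θ a z - (∑ z ∈ G, ff v θ a z) / 2) ^ 2 :=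
    mul_nonneg hα (sq_nonneg _)
  have hmin : (∑ i ∈ U, min 1 (QQ v G i i)) / 2 ≤ n := by
    have h2 : ∑ i ∈ U, min 1 (QQ v G i i) ≤ ∑ i ∈ U, (1:ℝ) :=
      Finset.sum_le_sum (fun i _ => min_le_left _ _)
    simp only [Finset.sum_const, nsmul_eq_mul, mul_one] at h2
    linarith [card_le_n hn hd U]
  have htot := num_tot hn hxU hmin hN
  refine ⟨G0, hG0G, ?_, ?_, hQQ⟩
  · linarith
  · intro i hi
    have h2 := Finset.single_le_sum (hnn s) (Finset.mem_univ i)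
    have h3 := Finset.single_le_sum (hnn (-s)) (Finset.mem_univ i)
    simp only [hi, if_true] at h2 h3
    exact num_fast hn hs2 hs3 (by linarith) (by linarith) (hDi i hi)

end Vale.Agent.P262
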