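import Vale.Agent.P262.CaseA
import Vale.Agent.P262.CaseB1
import Vale.Agent.P262.CaseB2
import Vale.Agent.P262.Gap

set_option linter.unusedSectionVars false
set_option linter.unusedVariables false

namespace Vale.Agent.P262

open Finset Real

variable {ι : Type*} [DecidableEq ι] {d : ℕ}

theorem Ord_pair {v : ι → Fin d → ℝ} {x y : ι} (hxy : x ≠ y) {P : Fin d → ℝ} {R : ℝ}
    (hP : ∑ i, P i ^ 2 ≤ R) (hP1 : ∑ i, (P i + v x i) ^ 2 ≤ R)
    (hP2 : ∑ i, (P i + (v x i + v y i)) ^ 2 ≤ R) : Ord v {x, y} P R := by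
  refine ⟨[x, y], by simpa using hxy, by simp, ?_⟩
  intro k
  rcases k with _ | _ | k
  · simpa using hP
  · simpa using hP1
  · have : (List.take (k + 1 + 1) [x, y]) = [x, y] := by
      simp
    rw [this]
    simpa using hP2

theorem Ord_small {n : ℝ} (hn : 10 ^ 6 ≤ n) (hd : (d:ℝ) ≤ n) {v : ι → Fin d → ℝ}
    {G : Finset ι} (hv : ∀ x ∈ G, ∑ i, v x i ^ 2 ≤ 1) {q : Fin d → ℝ}
    {ω : ℝ} {P : Fin d → ℝ} (h : Inv n v q G ω P) (hc : G.card ≤ 2) :
    Ord v G P (RR n d) := by
  have hPn := inv_norm hn h.i2P h.i3P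
  have hEn := inv_norm hn h.i2E h.i3E
  have hb : 0 ≤ bb n * d := mul_nonneg (bb_nonneg hn) (Nat.cast_nonneg d)
  have hRR : bb n * d ≤ RR n d := by unfold RR; linarith
  interval_cases hcard : G.card
  · have h2 : G = ∅ := Finset.card_eq_zero.mp hcard
    rw [h2]
    exact Ord_empty (hPn.trans hRR)
  · exact Ord_le_one (by omega) (hPn.trans hRR) (hEn.trans hRR)
  · obtain ⟨x, y, hxy, hG⟩ := Finset.card_eq_two.mp hcard
    subst hG
    apply Ord_pair hxy (hPn.trans hRR)
    · have h1 : ∑ i, (P i + v x i) ^ 2 ≤ 2 * ∑ i, P i ^ 2 + 2 * ∑ i, v x i ^ 2 := by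
        rw [Finset.mul_sum, Finset.mul_sum, ← Finset.sum_add_distrib]
        apply Finset.sum_le_sum
        intro i _
        nlinarith [sq_nonneg (P i - v x i)]
      have h2 := hv x (by simp)
      unfold RR
      linarith
    · have h1 : ∀ i, SS v {x, y} i = v x i + v y i := by
        intro i
        unfold SS
        rw [Finset.sum_pair hxy]
      simp only [h1] at hEn
      exact hEn.trans hRR

theorem main_claim {n : ℝ} (hn : 10 ^ 6 ≤ n) (hd : (d:ℝ) ≤ n) {v : ι → Fin d → ℝ}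
    {q : Fin d → ℝ} (hq : ∀ i, 0 ≤ q i) : ∀ (G : Finset ι), (∀ x ∈ G, ∑ i, v x i ^ 2 ≤ 1) →
    ∀ (ω : ℝ) (P : Fin d → ℝ), Inv n v q G ω P → Ord v G P (RR n d) := by
  intro G
  induction G using Finset.strongInduction with
  | H G ih =>
  intro hv ω P h
  have IH : ∀ G' ⊂ G, ∀ ω' P', Inv n v q G' ω' P' → Ord v G' P' (RR n d) :=
    fun G' hG' ω' P' h' => ih G' hG' (fun x hx => hv x (hG'.1 hx)) ω' P' h'
  by_cases hc : G.card ≤ 2
  · exact Ord_small hn hd hv h hc
  push Not at hc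
  by_cases hL : Lam v (UU n ω q) G < eta n
  · rcases Finset.eq_empty_or_nonempty (FF n ω q) with hF | hF
    · exact caseC1 hn hd hv hq h hL hF
    · exact caseC2 hn hd hv hq h hL hF IH
  push Not at hL
  by_cases hlev : ∀ x ∈ G, lev v (UU n ω q) G x ≤ Lam v (UU n ω q) G / 128
  · obtain ⟨a, b, ha, hb, hab⟩ := Finset.one_lt_card_iff.mp (by omega : 1 < G.card)
    exact caseA hn hd hv hq h hL hlev ha hb hab IH
  push Not at hlev
  obtain ⟨y, hy, hybig⟩ := hlev
  obtain ⟨x1, hx1, hmax⟩ := Finset.exists_max_image G (fun x => lev v (UU n ω q) G x) ⟨y, hy⟩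
  have hbig : Lam v (UU n ω q) G / 128 < lev v (UU n ω q) G x1 := hybig.trans_le (hmax y hy)
  by_cases hip : |ip (UU n ω q) (fun i => P i + SS v G i / 2) (v x1)| ≤
      513 * nsq (UU n ω q) (v x1)
  · exact caseB2 hn hd hv hq h hL hx1 hmax hbig hip IH
  push Not at hip
  have hc2 : 1 < (G.erase x1).card := by
    rw [Finset.card_erase_of_mem hx1]
    omega
  obtain ⟨b, b', hb, hb', hbb'⟩ := Finset.one_lt_card_iff.mp hc2
  exact caseB1 hn hd hv hq h hL hx1 hmax hbig (Finset.mem_of_mem_erase hb)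
    (Finset.mem_of_mem_erase hb') hbb' (Finset.ne_of_mem_erase hb).symm
    (Finset.ne_of_mem_erase hb').symm hip.le IH

theorem core : ∃ C : ℝ, 0 < C ∧ ∀ (d : ℕ), 1 ≤ d → ∀ (N : ℕ) (v : Fin N → Fin d → ℝ),
    (∀ a, ∑ i, v a i ^ 2 ≤ 1) → (∀ i, ∑ a, v a i = 0) →
    (∀ i j, i ≠ j → ∑ a, v a i * v a j = 0) →
    ∃ l : List (Fin N), l.Nodup ∧ l.toFinset = univ ∧
      ∀ k, ∑ i, ((l.take k).map fun a => v a i).sum ^ 2 ≤ C * (d * Real.log (d + 1)) := by
  refine ⟨1100000000, by norm_num, ?_⟩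
  intro d hd1 N v hv hzero horth
  have hd1' : (1:ℝ) ≤ d := by exact_mod_cast hd1
  set n : ℝ := d + 10 ^ 6 with hn
  have hn6 : (10:ℝ) ^ 6 ≤ n := by rw [hn]; linarith
  have hdn : (d:ℝ) ≤ n := by rw [hn]; linarith
  set q : Fin d → ℝ := fun i => QQ v univ i i with hq
  have hq0 : ∀ i, 0 ≤ q i := fun i => QQ_nonneg v univ i
  have hSS : ∀ i, SS v univ i = 0 := hzero
  have hell : 0 ≤ ell n := by linarith [ell_ge hn6]
  have hbb := bb_ge hn6
  have hU : (0:ℝ) ≤ bb n * (UU n 1 q).card - cc * hh v (UU n 1 q) univ := by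
    have h1 : cc * hh v (UU n 1 q) univ ≤ ∑ i ∈ UU n 1 q, bb n := by
      unfold hh
      rw [Finset.mul_sum]
      apply Finset.sum_le_sum
      intro i hi
      have h2 : 1 * q i < kap n := (Finset.mem_filter.mp hi).2
      have h3 : log (1 + QQ v univ i i) ≤ log (1 + 2 * kap n) := by
        apply Real.log_le_log
        · linarith [QQ_nonneg v univ i]
        · have h4 : QQ v univ i i = q i := rfl
          rw [h4]
          linarith [kap_pos hn6]
      have h5 : cc * log (1 + QQ v univ i i) ≤ cc * log (1 + 2 * kap n) :=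
        mul_le_mul_of_nonneg_left h3 (by unfold cc; norm_num)
      have h6 := sq_nonneg (ell n)
      linarith
    rw [Finset.sum_const, nsmul_eq_mul] at h1
    linarith
  have hInv : Inv n v q univ 1 (fun _ => 0) := by
    refine ⟨one_pos, ?_, ?_, ?_, ?_, ?_⟩
    · intro i j
      have h1 : QQ v univ i j - (if i = j then 1 * q i else 0) = 0 := by
        by_cases hij : i = j
        · subst hij
          simp [hq]
        · rw [if_neg hij]
          have : QQ v univ i j = 0 := horth i j hij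
          rw [this, sub_zero]
      rw [h1, abs_zero]
      have := n_pos hn6
      positivity
    · intro i _
      simpa using hell
    · intro i _
      rw [hSS]
      simpa using hell
    · simpa [nsq] using hU
    · simp only [hSS]
      simpa [nsq] using hU
  obtain ⟨l, hl1, hl2, hl3⟩ := main_claim hn6 hdn hq0 univ (fun x _ => hv x) 1 _ hInv
  refine ⟨l, hl1, hl2, ?_⟩
  intro k
  have h1 := hl3 k
  simp only [zero_add] at h1
  refine h1.trans ?_
  unfold RR bb
  have hlog2 : (0.69:ℝ) < log 2 := by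
    have := Real.log_two_gt_d9
    linarith
  have hlogd : log 2 ≤ log ((d:ℝ) + 1) := Real.log_le_log (by norm_num) (by linarith)
  have hlogn : log n ≤ log ((d:ℝ) + 1) + 14 := by
    have h2 : n ≤ ((d:ℝ) + 1) * 10 ^ 6 := by rw [hn]; nlinarith
    have h3 := Real.log_le_log (n_pos hn6) h2
    rw [Real.log_mul (by positivity) (by positivity)] at h3
    have h4 : log (10 ^ 6 : ℝ) ≤ 14 := by
      rw [Real.log_le_iff_le_exp (by norm_num)]
      have h5 : exp (14:ℝ) = exp 1 ^ 14 := by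
        rw [← Real.exp_nat_mul]; norm_num
      rw [h5]
      have h6 := Real.exp_one_gt_d9
      have h7 : (2.7182818283:ℝ) ^ 14 ≤ exp 1 ^ 14 := pow_le_pow_left₀ (by norm_num) h6.le 14
      refine le_trans ?_ h7
      norm_num
    linarith
  have h5 : log n ≤ 22 * log ((d:ℝ) + 1) := by linarith
  have h6 : (0.69:ℝ) ≤ d * log ((d:ℝ) + 1) := by nlinarith
  have h7 : log n * d ≤ 22 * (d * log ((d:ℝ) + 1)) := by nlinarith
  nlinarith

end Vale.Agent.P262
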