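import Vale.Agent.P262.Inv
import Vale.Agent.P262.Halving

set_option linter.unusedSectionVars false
set_option linter.unusedVariables false

namespace Vale.Agent.P262

open Finset Real

variable {ι : Type*} [DecidableEq ι] {d : ℕ}

theorem Ord_le_one {v : ι → Fin d → ℝ} {R3 : Finset ι} (h : R3.card ≤ 1) {P : Fin d → ℝ} {R : ℝ}
    (hP : ∑ i, P i ^ 2 ≤ R) (hP2 : ∑ i, (P i + SS v R3 i) ^ 2 ≤ R) : Ord v R3 P R := by
  rcases Nat.lt_or_ge R3.card 1 with h1 | h1
  · have h2 : R3 = ∅ := Finset.card_eq_zero.mp (by omega)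
    rw [h2]
    exact Ord_empty hP
  · obtain ⟨x, hx⟩ := Finset.card_eq_one.mp (le_antisymm h h1)
    subst hx
    simp only [SS_singleton] at hP2
    exact Ord_single hP hP2

theorem num_sqrt_ge_one {r : ℝ} (hr : 0 ≤ r) : 1 ≤ √(1 + r) := by
  apply Real.le_sqrt_of_sq_le
  linarith

theorem split_step {n : ℝ} (hn : 10 ^ 6 ≤ n) (hd : (d:ℝ) ≤ n) {v : ι → Fin d → ℝ}
    {G : Finset ι} (hv : ∀ x ∈ G, ∑ i, v x i ^ 2 ≤ 1) {q : Fin d → ℝ} (hq : ∀ i, 0 ≤ q i)
    {ω : ℝ} {P : Fin d → ℝ} (h : Inv n v q G ω P) {R1 R2 R3 : Finset ι} (h1 : R1 ⊆ G)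
    (h2 : R2 ⊆ G) (h3 : R3 ⊆ G) (h12 : Disjoint R1 R2) (h13 : Disjoint R1 R3)
    (h23 : Disjoint R2 R3) (c12 : R1.card + R2.card ≤ 3) (c3 : R3.card ≤ 1)
    (ne1 : (R2 ∪ R3).Nonempty) (ne2 : (R1 ∪ R3).Nonempty) {α : ℝ} (hα : 0 ≤ α)
    (θ : Fin d → ℝ) (a : ι → ℝ) {x : Fin d → ℝ}
    (hx : x = fun i => P i + SS v G i / 2 + (SS v R1 i - SS v R2 i) / 2)
    {Gr : Finset ι} (hGr : Gr = G \ (R1 ∪ R2 ∪ R3))
    (hN : α * (oo v q ω (FF n ω q) x Gr θ a ^ 2 + NN Gr θ a / 2) ≤ n ^ 4)
    (hcond : ∀ G0 ⊆ Gr,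
      nsq (UU n ω q) (fun i => x i + (SS v G0 i - SS v Gr i / 2)) +
          α * (∑ z ∈ G0, ff v θ a z - (∑ z ∈ Gr, ff v θ a z) / 2) ^ 2 ≤
        nsq (UU n ω q) x + Lam v (UU n ω q) G +
          α * (oo v q ω (FF n ω q) x Gr θ a ^ 2 + NN Gr θ a / 2) + 1 / n ^ 35 →
      nsq (UU n ω q) (fun i => x i + (SS v G0 i - SS v Gr i / 2) - SS v R3 i / 2) ≤
        bb n * (UU n ω q).card - cc * hh v (UU n ω q) (R1 ∪ G0) ∧
      nsq (UU n ω q) (fun i => x i + (SS v G0 i - SS v Gr i / 2) + SS v R3 i / 2) ≤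
        bb n * (UU n ω q).card - cc * hh v (UU n ω q) (R2 ∪ (Gr \ G0)))
    (IH : ∀ G' ⊂ G, ∀ ω' P', Inv n v q G' ω' P' → Ord v G' P' (RR n d)) :
    Ord v G P (RR n d) := by
  have h0 := n_pos hn
  have h1n := one_le_n hn
  have hω := h.om
  set U := UU n ω q with hU
  set F := FF n ω q with hF
  have hRsub : R1 ∪ R2 ∪ R3 ⊆ G := Finset.union_subset (Finset.union_subset h1 h2) h3
  have hGrG : Gr ⊆ G := by rw [hGr]; exact Finset.sdiff_subset
  have hd12_3 : Disjoint (R1 ∪ R2) R3 := Finset.disjoint_union_left.mpr ⟨h13, h23⟩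
  have hSR : ∀ i, SS v (R1 ∪ R2 ∪ R3) i = SS v R1 i + SS v R2 i + SS v R3 i := by
    intro i
    rw [SS_union v hd12_3, SS_union v h12]
  have hQR : ∀ i j, QQ v (R1 ∪ R2 ∪ R3) i j = QQ v R1 i j + QQ v R2 i j + QQ v R3 i j := by
    intro i j
    rw [QQ_union v hd12_3, QQ_union v h12]
  have hSG : ∀ i, SS v Gr i = SS v G i - (SS v R1 i + SS v R2 i + SS v R3 i) := by
    intro i
    rw [hGr, SS_sdiff v hRsub, hSR]
  have hQG : ∀ i j, QQ v Gr i j = QQ v G i j - (QQ v R1 i j + QQ v R2 i j + QQ v R3 i j) := by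
    intro i j
    rw [hGr, QQ_sdiff v hRsub, hQR]
  have c12' : (R1.card : ℝ) + R2.card ≤ 3 := by exact_mod_cast c12
  have c3' : (R3.card : ℝ) ≤ 1 := by exact_mod_cast c3
  have hQ1 : ∀ i j, |QQ v R1 i j| ≤ R1.card := fun i j => abs_QQ_le v hv h1 i j
  have hQ2 : ∀ i j, |QQ v R2 i j| ≤ R2.card := fun i j => abs_QQ_le v hv h2 i j
  have hQ3 : ∀ i j, |QQ v R3 i j| ≤ R3.card := fun i j => abs_QQ_le v hv h3 i j
  have hS1 : ∀ i, |SS v R1 i| ≤ R1.card := fun i => abs_SS_le v hv h1 i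
  have hS2 : ∀ i, |SS v R2 i| ≤ R2.card := fun i => abs_SS_le v hv h2 i
  have hS3 : ∀ i, |SS v R3 i| ≤ R3.card := fun i => abs_SS_le v hv h3 i
  have hs1 : ∀ i, 1 ≤ √(1 + ω * q i) := fun i => num_sqrt_ge_one (mul_nonneg hω.le (hq i))
  have hn2 : (4:ℝ) ≤ n ^ 2 := by nlinarith [show (4:ℝ) ≤ 10 ^ 6 by norm_num]
  have hn3 : (4:ℝ) ≤ n ^ 3 := by
    have : n ^ 3 = n * n ^ 2 := by ring
    rw [this]; nlinarith
  -- hypotheses of the halving lemma
  have HQ : ∀ i j, |QQ v Gr i j - (if i = j then ω * q i else 0)| ≤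
      2 * n ^ 3 * √(1 + ω * q i) := by
    intro i j
    have e1 := h.i1 i j
    have e2 : QQ v Gr i j - (if i = j then ω * q i else 0) =
        (QQ v G i j - (if i = j then ω * q i else 0)) -
          (QQ v R1 i j + QQ v R2 i j + QQ v R3 i j) := by rw [hQG]; ring
    rw [e2]
    have e3 := abs_sub (QQ v G i j - (if i = j then ω * q i else 0))
      (QQ v R1 i j + QQ v R2 i j + QQ v R3 i j)
    have e4 : |QQ v R1 i j + QQ v R2 i j + QQ v R3 i j| ≤ 4 := by
      have := hQ1 i j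
      have := hQ2 i j
      have := hQ3 i j
      exact (abs_add_three _ _ _).trans (by linarith)
    have e5 : 4 ≤ n ^ 3 * √(1 + ω * q i) := by
      have := hs1 i
      nlinarith
    linarith
  have HF : ∀ i ∈ F, kap n / 2 ≤ ω * q i := by
    intro i hi
    have := (Finset.mem_filter.mp hi).2
    have := kap_pos hn
    linarith
  have HUF : ∀ i ∈ U, i ∉ F := fun i hi => not_mem_FF hi
  have HxF : ∀ i ∈ F, |x i| ≤ n ^ 3 := by
    intro i hi
    have e1 := abs_le.mp (inv_mid_abs h hi)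
    have e2 := abs_le.mp (hS1 i)
    have e3 := abs_le.mp (hS2 i)
    have e4 := ell_le hn
    have e5 : n + 3 ≤ n ^ 3 := by
      have : n ^ 3 = n * n ^ 2 := by ring
      rw [this]; nlinarith
    rw [hx, abs_le]
    constructor <;> linarith
  have HxU : nsq U x ≤ n ^ 4 := by
    have e1 := inv_mid hn h
    have e2 : nsq U x ≤ 2 * nsq U (fun i => P i + SS v G i / 2) + U.card * 5 := by
      unfold nsq
      have : (U.card : ℝ) * 5 = ∑ i ∈ U, (5:ℝ) := by simp
      rw [this, Finset.mul_sum, ← Finset.sum_add_distrib]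
      apply Finset.sum_le_sum
      intro i _
      rw [hx]
      simp only
      have e2 := abs_le.mp (hS1 i)
      have e3 := abs_le.mp (hS2 i)
      have e4 : |(SS v R1 i - SS v R2 i) / 2| ≤ 3 / 2 := by
        rw [abs_le]; constructor <;> linarith
      have e5 : ((SS v R1 i - SS v R2 i) / 2) ^ 2 ≤ (3 / 2) ^ 2 := by
        rw [← sq_abs]
        exact pow_le_pow_left₀ (abs_nonneg _) e4 2
      nlinarith [sq_nonneg (P i + SS v G i / 2 - (SS v R1 i - SS v R2 i) / 2)]
    have e3 : 0 ≤ cc * hh v U G := mul_nonneg (by unfold cc; norm_num) (hh_nonneg v _ _)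
    have e4 := card_le_n hn hd U
    have e5 := bb_d hn hd
    have e6 : bb n * U.card ≤ bb n * d := by
      apply mul_le_mul_of_nonneg_left _ (bb_nonneg hn)
      have := Finset.card_le_univ U
      rw [Fintype.card_fin] at this
      exact_mod_cast this
    have e7 : n * 5 ≤ n ^ 4 / 2 := by
      have e8 : n ^ 4 = n * n ^ 3 := by ring
      have e9 : n ^ 3 = n * n ^ 2 := by ring
      have e10 : (10:ℝ) ≤ n := by linarith [show (10:ℝ) ≤ 10 ^ 6 by norm_num]
      rw [e8, e9]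
      nlinarith
    have e8 : (0:ℝ) ≤ n ^ 4 := by positivity
    linarith
  obtain ⟨G0, hG0, hB, hFb, hQb⟩ := halving hn hd (fun z hz => hv z (hGrG hz)) hq hω HQ HUF HF
    HxF HxU hα θ a hN
  have hmin := sum_min_le v U hGrG
  have hc := hcond G0 hG0 (by linarith)
  -- the children
  have hG0G : G0 ⊆ G := hG0.trans hGrG
  have hdG0 : Disjoint (R1 ∪ R2 ∪ R3) Gr := by rw [hGr]; exact Finset.disjoint_sdiff
  have hd1G0 : Disjoint R1 G0 := Finset.disjoint_of_subset_left
    (Finset.subset_union_left.trans Finset.subset_union_left)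
    (Finset.disjoint_of_subset_right hG0 hdG0)
  have hd2G0 : Disjoint R2 (Gr \ G0) := Finset.disjoint_of_subset_left
    (Finset.subset_union_right.trans Finset.subset_union_left)
    (Finset.disjoint_of_subset_right Finset.sdiff_subset hdG0)
  have hd3Gr : Disjoint R3 Gr := Finset.disjoint_of_subset_left Finset.subset_union_right hdG0
  have hd2Gr : Disjoint R2 Gr := Finset.disjoint_of_subset_left
    (Finset.subset_union_right.trans Finset.subset_union_left) hdG0
  have hd1Gr : Disjoint R1 Gr := Finset.disjoint_of_subset_left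
    (Finset.subset_union_left.trans Finset.subset_union_left) hdG0
  set G1 := R1 ∪ G0 with hG1
  set G2 := R2 ∪ (Gr \ G0) with hG2
  have hG1G : G1 ⊆ G := Finset.union_subset h1 hG0G
  have hG2G : G2 ⊆ G := Finset.union_subset h2 (Finset.sdiff_subset.trans hGrG)
  have hSG1 : ∀ i, SS v G1 i = SS v R1 i + SS v G0 i := fun i => SS_union v hd1G0 i
  have hSG2 : ∀ i, SS v G2 i = SS v R2 i + (SS v Gr i - SS v G0 i) := by
    intro i
    rw [hG2, SS_union v hd2G0, SS_sdiff v hG0]
  have hQG1 : ∀ i j, QQ v G1 i j = QQ v R1 i j + QQ v G0 i j := fun i j => QQ_union v hd1G0 i j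
  have hQG2 : ∀ i j, QQ v G2 i j = QQ v R2 i j + (QQ v Gr i j - QQ v G0 i j) := by
    intro i j
    rw [hG2, QQ_union v hd2G0, QQ_sdiff v hG0]
  have hMm : ∀ i, P i + SS v G1 i = x i + (SS v G0 i - SS v Gr i / 2) - SS v R3 i / 2 := by
    intro i
    rw [hSG1, hx, hSG]
    ring
  have hMp : ∀ i, P i + SS v G1 i + SS v R3 i =
      x i + (SS v G0 i - SS v Gr i / 2) + SS v R3 i / 2 := by
    intro i
    rw [hSG1, hx, hSG]
    ring
  have hEE : ∀ i, P i + SS v G1 i + SS v R3 i + SS v G2 i = P i + SS v G i := by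
    intro i
    rw [hSG1, hSG2, hSG]
    ring
  have hE4 : ∀ i j, |QQ v R1 i j| + |QQ v R2 i j| + |QQ v R3 i j| ≤ 4 := by
    intro i j
    have := hQ1 i j
    have := hQ2 i j
    have := hQ3 i j
    linarith
  have hbig : ∀ i, 3 * n ^ 2 * √(1 + ω * q i) + 2 ≤ 8 * n ^ 2 * √(1 + ω * q i) := by
    intro i
    have e1 := hs1 i
    have e2 : n ^ 2 ≤ n ^ 2 * √(1 + ω * q i) := le_mul_of_one_le_right (by positivity) e1
    nlinarith
  have hQc1 : ∀ i j, |QQ v G1 i j - QQ v G i j / 2| ≤ 8 * n ^ 2 * √(1 + ω * q i) := by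
    intro i j
    refine le_trans ?_ (hbig i)
    have e1 := abs_le.mp (hQb i j)
    have e2 := hE4 i j
    have e3 : QQ v G1 i j - QQ v G i j / 2 = (QQ v G0 i j - QQ v Gr i j / 2) +
        (QQ v R1 i j - QQ v R2 i j - QQ v R3 i j) / 2 := by
      rw [hQG1, hQG]; ring
    rw [e3, abs_le]
    have f1 := abs_le.mp (le_refl |QQ v R1 i j|)
    have f2 := abs_le.mp (le_refl |QQ v R2 i j|)
    have f3 := abs_le.mp (le_refl |QQ v R3 i j|)
    constructor <;> linarith
  have hQc2 : ∀ i j, |QQ v G2 i j - QQ v G i j / 2| ≤ 8 * n ^ 2 * √(1 + ω * q i) := by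
    intro i j
    refine le_trans ?_ (hbig i)
    have e1 := abs_le.mp (hQb i j)
    have e2 := hE4 i j
    have e3 : QQ v G2 i j - QQ v G i j / 2 = -(QQ v G0 i j - QQ v Gr i j / 2) +
        (QQ v R2 i j - QQ v R1 i j - QQ v R3 i j) / 2 := by
      rw [hQG2, hQG]; ring
    rw [e3, abs_le]
    have f1 := abs_le.mp (le_refl |QQ v R1 i j|)
    have f2 := abs_le.mp (le_refl |QQ v R2 i j|)
    have f3 := abs_le.mp (le_refl |QQ v R3 i j|)
    constructor <;> linarith
  have hMmF : ∀ i ∈ F, |P i + SS v G1 i| ≤ ell n := by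
    intro i hi
    rw [hMm]
    have e1 := abs_le.mp (hFb i hi)
    have e2 := abs_le.mp (hS3 i)
    rw [abs_le]
    constructor <;> linarith
  have hMpF : ∀ i ∈ F, |P i + SS v G1 i + SS v R3 i| ≤ ell n := by
    intro i hi
    rw [hMp]
    have e1 := abs_le.mp (hFb i hi)
    have e2 := abs_le.mp (hS3 i)
    rw [abs_le]
    constructor <;> linarith
  have hccn : 0 ≤ cc := by unfold cc; norm_num
  have hh1 := mul_le_mul_of_nonneg_left (hh_mono v U hG1G) hccn
  have hh2 := mul_le_mul_of_nonneg_left (hh_mono v U hG2G) hccn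
  have hMmU : nsq U (fun i => P i + SS v G1 i) ≤ bb n * U.card - cc * hh v U G1 := by
    simp only [hMm]
    exact hc.1
  have hMpU : nsq U (fun i => P i + SS v G1 i + SS v R3 i) ≤ bb n * U.card - cc * hh v U G2 := by
    simp only [hMp]
    exact hc.2
  have I1 : Inv n v q G1 (ω / 2) P :=
    inv_child hn hq h hQc1 h.i2P hMmF (by linarith [h.i3P]) hMmU
  have I2 : Inv n v q G2 (ω / 2) (fun i => P i + SS v G1 i + SS v R3 i) := by
    refine inv_child hn hq h hQc2 hMpF ?_ hMpU ?_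
    · intro i hi
      simp only [hEE]
      exact h.i2E i hi
    · simp only [hEE]
      linarith [h.i3E]
  -- properness
  have hp1 : G1 ⊂ G := by
    refine Finset.ssubset_iff_subset_ne.mpr ⟨hG1G, ?_⟩
    intro heq
    obtain ⟨y, hy⟩ := ne1
    have hyG : y ∈ G := by
      rcases Finset.mem_union.mp hy with h | h
      · exact h2 h
      · exact h3 h
    rw [← heq, hG1] at hyG
    rcases Finset.mem_union.mp hyG with h | h <;> rcases Finset.mem_union.mp hy with h' | h'
    · exact Finset.disjoint_left.mp h12 h h'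
    · exact Finset.disjoint_left.mp h13 h h'
    · exact Finset.disjoint_left.mp hd2Gr h' (hG0 h)
    · exact Finset.disjoint_left.mp hd3Gr h' (hG0 h)
  have hp2 : G2 ⊂ G := by
    refine Finset.ssubset_iff_subset_ne.mpr ⟨hG2G, ?_⟩
    intro heq
    obtain ⟨y, hy⟩ := ne2
    have hyG : y ∈ G := by
      rcases Finset.mem_union.mp hy with h | h
      · exact h1 h
      · exact h3 h
    rw [← heq, hG2] at hyG
    rcases Finset.mem_union.mp hyG with h | h <;> rcases Finset.mem_union.mp hy with h' | h'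
    · exact Finset.disjoint_left.mp h12 h' h
    · exact Finset.disjoint_left.mp h23 h h'
    · exact Finset.disjoint_left.mp hd1Gr h' (Finset.sdiff_subset h)
    · exact Finset.disjoint_left.mp hd3Gr h' (Finset.sdiff_subset h)
  have O1 := IH G1 hp1 (ω / 2) P I1
  have O2 := IH G2 hp2 (ω / 2) _ I2
  have hRR : bb n * d ≤ RR n d := by
    unfold RR
    have := mul_nonneg (bb_nonneg hn) (Nat.cast_nonneg d : (0:ℝ) ≤ d)
    linarith
  have OM : Ord v R3 (fun i => P i + SS v G1 i) (RR n d) := by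
    apply Ord_le_one c3
    · exact (inv_norm hn hMmF hMmU).trans hRR
    · exact (inv_norm hn hMpF hMpU).trans hRR
  have hdis1 : Disjoint G1 R3 := by
    rw [hG1, Finset.disjoint_union_left]
    exact ⟨h13, (Finset.disjoint_of_subset_right hG0 hd3Gr).symm⟩
  have hSG13 : ∀ i, SS v (G1 ∪ R3) i = SS v G1 i + SS v R3 i := fun i => SS_union v hdis1 i
  have hdis2 : Disjoint (G1 ∪ R3) G2 := by
    rw [Finset.disjoint_left]
    intro y hy1 hy2
    rw [hG2] at hy2
    rw [hG1] at hy1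
    rcases Finset.mem_union.mp hy1 with h | h
    · rcases Finset.mem_union.mp h with h | h
      · rcases Finset.mem_union.mp hy2 with h' | h'
        · exact Finset.disjoint_left.mp h12 h h'
        · exact Finset.disjoint_left.mp hd1Gr h (Finset.sdiff_subset h')
      · rcases Finset.mem_union.mp hy2 with h' | h'
        · exact Finset.disjoint_left.mp hd2Gr h' (hG0 h)
        · exact (Finset.mem_sdiff.mp h').2 h
    · rcases Finset.mem_union.mp hy2 with h' | h'
      · exact Finset.disjoint_left.mp h23 h' h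
      · exact Finset.disjoint_left.mp hd3Gr h (Finset.sdiff_subset h')
  have hunion : G1 ∪ R3 ∪ G2 = G := by
    apply Finset.Subset.antisymm
    · exact Finset.union_subset (Finset.union_subset hG1G h3) hG2G
    · intro y hy
      rw [hG1, hG2]
      by_cases hyR : y ∈ R1 ∪ R2 ∪ R3
      · rcases Finset.mem_union.mp hyR with h | h
        · rcases Finset.mem_union.mp h with h | h
          · simp [h]
          · simp [h]
        · simp [h]
      · have hyGr : y ∈ Gr := by rw [hGr]; exact Finset.mem_sdiff.mpr ⟨hy, hyR⟩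
        by_cases hy0 : y ∈ G0
        · simp [hy0]
        · have : y ∈ Gr \ G0 := Finset.mem_sdiff.mpr ⟨hyGr, hy0⟩
          exact Finset.mem_union_right _ (Finset.mem_union_right _ this)
  have O12 := Ord_append hdis1 O1 OM
  have := Ord_append hdis2 O12 (by
    simp only [hSG13]
    have e : (fun i => P i + (SS v G1 i + SS v R3 i)) =
        (fun i => P i + SS v G1 i + SS v R3 i) := by
      funext i; ring
    rw [e]
    exact O2)
  rw [hunion] at this
  exact this

end Vale.Agent.P262
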