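import Mathlib

namespace Vale.Agent.P262

open Finset

/-- The largest Euclidean norm of a prefix sum `∑_{i < k} v_i`, `0 ≤ k ≤ N`. -/
noncomputable def prefixMax {d N : ℕ} (v : Fin N → EuclideanSpace ℝ (Fin d)) : ℝ :=
  ⨆ k : Fin (N + 1), ‖∑ i ∈ univ.filter (fun i : Fin N => (i : ℕ) < (k : ℕ)), v i‖

/-- `β(v_1, …, v_N)`: the minimum of `prefixMax` over all rearrangements. -/
noncomputable def beta {d N : ℕ} (v : Fin N → EuclideanSpace ℝ (Fin d)) : ℝ :=
  ⨅ π : Equiv.Perm (Fin N), prefixMax (fun i => v (π i))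

/-- All values of `β` on finite zero-sum families in the Euclidean unit ball of `ℝ^d`. -/
def steinitzValues (d : ℕ) : Set ℝ :=
  {t | ∃ (N : ℕ) (v : Fin N → EuclideanSpace ℝ (Fin d)),
    (∀ i, ‖v i‖ ≤ 1) ∧ ∑ i, v i = 0 ∧ beta v = t}

/-- The Euclidean Steinitz constant `S_2(d)`. -/
noncomputable def steinitzConst (d : ℕ) : ℝ := sSup (steinitzValues d)

end Vale.Agent.P262
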