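import Vale.Agent.P262.Basic

set_option linter.unusedSectionVars false
set_option linter.unusedVariables false

namespace Vale.Agent.P262

open Finset Real

variable {ι : Type*} [DecidableEq ι] {d : ℕ}

/-- Correction vector: `x_j / (ω q_j)` on the fast coordinates. -/
noncomputable def yy (q : Fin d → ℝ) (ω : ℝ) (F : Finset (Fin d)) (x : Fin d → ℝ) :
    Fin d → ℝ := fun j => if j ∈ F then x j / (ω * q j) else 0

/-- `⟨y, v_z⟩`. -/
noncomputable def tt (v : ι → Fin d → ℝ) (q : Fin d → ℝ) (ω : ℝ) (F : Finset (Fin d))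
    (x : Fin d → ℝ) (z : ι) : ℝ := ∑ j, yy q ω F x j * v z j

section

variable {n : ℝ} (hn : 10 ^ 6 ≤ n) (hd : (d:ℝ) ≤ n) {v : ι → Fin d → ℝ} {G : Finset ι}
  (hv : ∀ x ∈ G, ∑ i, v x i ^ 2 ≤ 1) {q : Fin d → ℝ} {ω : ℝ}
  {F : Finset (Fin d)} (hF : ∀ i ∈ F, kap n / 2 ≤ ω * q i) {x : Fin d → ℝ}
  (hxF : ∀ i ∈ F, |x i| ≤ n ^ 3)
  (hQ : ∀ i j, |QQ v G i j - (if i = j then ω * q i else 0)| ≤ 2 * n ^ 3 * √(1 + ω * q i))

include hn hF hxF in
theorem yy_bound (j : Fin d) : |yy q ω F x j| ≤ 2 / n ^ 97 := by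
  have h0 := n_pos hn
  unfold yy
  by_cases hj : j ∈ F
  · rw [if_pos hj, abs_div]
    have h1 := hF j hj
    have h2 := hxF j hj
    have h3 : 0 < ω * q j := by linarith [kap_pos hn]
    rw [abs_of_pos h3, div_le_div_iff₀ h3 (by positivity)]
    unfold kap at h1
    calc |x j| * n ^ 97 ≤ n ^ 3 * n ^ 97 := mul_le_mul_of_nonneg_right h2 (by positivity)
      _ = 2 * (n ^ 100 / 2) := by ring
      _ ≤ 2 * (ω * q j) := by linarith
  · rw [if_neg hj]
    simp
    positivity

include hn hd hv hF hxF in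
theorem tt_bound {z : ι} (hz : z ∈ G) : |tt v q ω F x z| ≤ 1 / 2 := by
  have h0 := n_pos hn
  unfold tt
  refine (Finset.abs_sum_le_sum_abs _ _).trans ?_
  calc ∑ j, |yy q ω F x j * v z j| ≤ ∑ j : Fin d, 2 / n ^ 97 := by
        apply Finset.sum_le_sum
        intro j _
        rw [abs_mul]
        have h1 := yy_bound hn hF hxF j
        have h2 := abs_v_le v hv hz j
        calc |yy q ω F x j| * |v z j| ≤ (2 / n ^ 97) * 1 :=
              mul_le_mul h1 h2 (abs_nonneg _) (by positivity)
          _ = 2 / n ^ 97 := mul_one _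
    _ = d * (2 / n ^ 97) := by simp
    _ ≤ n * (2 / n ^ 97) := mul_le_mul_of_nonneg_right hd (by positivity)
    _ = 2 / n ^ 96 := by field_simp
    _ ≤ 1 / 2 := by
        rw [div_le_div_iff₀ (by positivity) (by norm_num)]
        have h1 : n ^ 1 ≤ n ^ 96 := pow_le_pow_right₀ (one_le_n hn) (by norm_num)
        rw [pow_one] at h1
        linarith

theorem sum_tt (i : Fin d) :
    ∑ z ∈ G, tt v q ω F x z * v z i = ∑ j, yy q ω F x j * QQ v G j i := by
  unfold tt QQ
  simp only [Finset.sum_mul, Finset.mul_sum]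
  rw [Finset.sum_comm]
  apply Finset.sum_congr rfl
  intro j _
  apply Finset.sum_congr rfl
  intro z _
  ring

include hn in
theorem sqrt_one_add_le {r : ℝ} (hr : kap n / 2 ≤ r) : √(1 + r) ≤ 4 * r / n ^ 50 := by
  have h0 := n_pos hn
  have h1 := kap_pos hn
  have hr0 : 0 < r := by linarith
  apply Real.sqrt_le_iff.mpr
  refine ⟨by positivity, ?_⟩
  rw [div_pow, le_div_iff₀ (by positivity)]
  have h2 : (n ^ 50) ^ 2 = kap n := by unfold kap; ring
  rw [h2]
  have h3 : (1:ℝ) ≤ kap n := by unfold kap; exact one_le_pow₀ (one_le_n hn)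
  have h4 : 1 ≤ 2 * r := by linarith
  nlinarith

include hn hd hF hxF hQ in
theorem Qy_bound (i : Fin d) :
    |∑ z ∈ G, tt v q ω F x z * v z i - (if i ∈ F then x i else 0)| ≤ 1 / n ^ 42 := by
  have h0 := n_pos hn
  have hmain : (if i ∈ F then x i else 0) =
      ∑ j, yy q ω F x j * (if j = i then ω * q j else 0) := by
    rw [Finset.sum_eq_single i]
    · unfold yy
      by_cases hi : i ∈ F
      · have h1 := hF i hi
        have h3 : 0 < ω * q i := by linarith [kap_pos hn]
        simp only [hi, if_true]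
        rw [div_mul_cancel₀ _ h3.ne']
      · simp only [hi, if_false, zero_mul]
    · intro j _ hj
      simp only [hj, if_false, mul_zero]
    · intro h; exact absurd (Finset.mem_univ i) h
  rw [sum_tt, hmain, ← Finset.sum_sub_distrib]
  refine (Finset.abs_sum_le_sum_abs _ _).trans ?_
  calc ∑ j, |yy q ω F x j * QQ v G j i - yy q ω F x j * (if j = i then ω * q j else 0)|
      ≤ ∑ j : Fin d, 8 / n ^ 44 := by
        apply Finset.sum_le_sum
        intro j _
        rw [← mul_sub, abs_mul]
        by_cases hj : j ∈ F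
        · have h1 := hF j hj
          have h3 : 0 < ω * q j := by linarith [kap_pos hn]
          have h4 := hxF j hj
          have h5 := hQ j i
          have h6 := sqrt_one_add_le hn h1
          have h7 : |yy q ω F x j| ≤ n ^ 3 / (ω * q j) := by
            unfold yy
            rw [if_pos hj, abs_div, abs_of_pos h3]
            gcongr
          calc |yy q ω F x j| * |QQ v G j i - (if j = i then ω * q j else 0)|
              ≤ (n ^ 3 / (ω * q j)) * (2 * n ^ 3 * (4 * (ω * q j) / n ^ 50)) := by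
                apply mul_le_mul h7 (h5.trans _) (abs_nonneg _) (by positivity)
                apply mul_le_mul_of_nonneg_left h6 (by positivity)
            _ = 8 / n ^ 44 := by
                generalize ω * q j = r at h3
                field_simp
                ring
        · have h1 : yy q ω F x j = 0 := by unfold yy; rw [if_neg hj]
          rw [h1, abs_zero, zero_mul]
          positivity
    _ = d * (8 / n ^ 44) := by simp
    _ ≤ n * (8 / n ^ 44) := mul_le_mul_of_nonneg_right hd (by positivity)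
    _ = 8 / n ^ 43 := by field_simp
    _ ≤ 1 / n ^ 42 := by
        rw [div_le_div_iff₀ (by positivity) (by positivity)]
        have h1 : n ^ 43 = n * n ^ 42 := by ring
        rw [h1]
        have h2 : (8:ℝ) ≤ n := by linarith [show (8:ℝ) ≤ 10 ^ 6 by norm_num]
        have h3 : 0 < n ^ 42 := by positivity
        nlinarith

include hn hd hF hxF hQ in
theorem tt_sq : ∑ z ∈ G, tt v q ω F x z ^ 2 ≤ 1 / n ^ 90 := by
  have h0 := n_pos hn
  have h1 : ∑ z ∈ G, tt v q ω F x z ^ 2 =
      ∑ j, yy q ω F x j * ∑ z ∈ G, tt v q ω F x z * v z j := by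
    simp only [Finset.mul_sum]
    rw [Finset.sum_comm]
    apply Finset.sum_congr rfl
    intro z _
    rw [sq]
    conv_lhs => rw [show tt v q ω F x z = ∑ j, yy q ω F x j * v z j from rfl]
    rw [Finset.sum_mul]
    apply Finset.sum_congr rfl
    intro j _
    unfold tt
    ring
  rw [h1]
  calc ∑ j, yy q ω F x j * ∑ z ∈ G, tt v q ω F x z * v z j
      ≤ ∑ j : Fin d, (2 / n ^ 97) * (2 * n ^ 3) := by
        apply Finset.sum_le_sum
        intro j _
        refine (le_abs_self _).trans ?_
        rw [abs_mul]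
        by_cases hj : j ∈ F
        · have h2 := Qy_bound hn hd hF hxF hQ j
          rw [if_pos hj] at h2
          have h3 := hxF j hj
          have h4 : (1:ℝ) ≤ n ^ 3 := one_le_pow₀ (one_le_n hn)
          have h5 : 1 / n ^ 42 ≤ 1 := by
            rw [div_le_one (by positivity)]
            exact one_le_pow₀ (one_le_n hn)
          have h6 : |∑ z ∈ G, tt v q ω F x z * v z j| ≤ 2 * n ^ 3 := by
            have h7 := abs_sub_abs_le_abs_sub (∑ z ∈ G, tt v q ω F x z * v z j) (x j)
            linarith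
          exact mul_le_mul (yy_bound hn hF hxF j) h6 (abs_nonneg _) (by positivity)
        · have h1 : yy q ω F x j = 0 := by unfold yy; rw [if_neg hj]
          rw [h1, abs_zero, zero_mul]
          positivity
    _ = d * ((2 / n ^ 97) * (2 * n ^ 3)) := by simp
    _ ≤ n * ((2 / n ^ 97) * (2 * n ^ 3)) := mul_le_mul_of_nonneg_right hd (by positivity)
    _ = 4 / n ^ 93 := by field_simp; norm_num
    _ ≤ 1 / n ^ 90 := by
        rw [div_le_div_iff₀ (by positivity) (by positivity)]
        have h1 : n ^ 93 = n ^ 3 * n ^ 90 := by ring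
        rw [h1]
        have h2 : (4:ℝ) ≤ n := by linarith [show (4:ℝ) ≤ 10 ^ 6 by norm_num]
        have h3 : 0 < n ^ 90 := by positivity
        have h4 : n ^ 1 ≤ n ^ 3 := pow_le_pow_right₀ (one_le_n hn) (by norm_num)
        rw [pow_one] at h4
        nlinarith

include hn hd hF hxF hQ in
/-- Bound for the offset of a general functional. -/
theorem tt_mul_sq (g : ι → ℝ) :
    (∑ z ∈ G, tt v q ω F x z * g z) ^ 2 ≤ (1 / n ^ 90) * ∑ z ∈ G, g z ^ 2 := by
  have h1 := Finset.sum_mul_sq_le_sq_mul_sq G (tt v q ω F x) g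
  have h2 := tt_sq hn hd hF hxF hQ
  exact h1.trans (mul_le_mul_of_nonneg_right h2 (Finset.sum_nonneg (fun z _ => sq_nonneg _)))

end

end Vale.Agent.P262
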